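import Vale.Agent.P057ST.Cmp

/-! Cosets of a diagonal sublattice, hyperplanes, averages over subcells. -/

set_option linter.all false

open MeasureTheory Matrix Finset
open scoped Real
open Vale.Agent.P267.H775 Vale.Agent.P057G Vale.Agent.P057PC

namespace Vale.Agent.P057ST

noncomputable section

variable {L : Type*} [Fintype L] [DecidableEq L]

/-- the weighted sum of a real function -/
def Er (G : Matrix L L ℝ) (p : (L → ℤ) → L → ℝ) (f : (L → ℤ) → ℝ) : ℝ :=
  ∑' z, ng G (toR z - p z) * f z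

theorem Ex_er (G : Matrix L L ℝ) (p : (L → ℤ) → L → ℝ) (f : (L → ℤ) → ℝ) :
    Ex G p (fun z => f z) = (Er G p f : ℂ) := Ex_real G p f

theorem er_sub {K : Type*} [Fintype K] [DecidableEq K] (G : Matrix L L ℝ) (p : (L → ℤ) → L → ℝ)
    (f : (L → ℤ) → ℝ) (G' : Matrix K K ℝ) (p' : (K → ℤ) → K → ℝ) (f' : (K → ℤ) → ℝ) :
    |Er G p f - Er G' p' f'| = ‖Ex G p (fun z => f z) - Ex G' p' (fun z => f' z)‖ := by
  rw [Ex_er, Ex_er, ← Complex.ofReal_sub, Complex.norm_real, Real.norm_eq_abs]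

theorem er_one (G : Matrix L L ℝ) (p : (L → ℤ) → L → ℝ) : Er G p (fun _ => 1) = ms G p := by
  simp [Er, ms]

theorem er_nonneg (G : Matrix L L ℝ) (p : (L → ℤ) → L → ℝ) {f : (L → ℤ) → ℝ}
    (hf : ∀ z, 0 ≤ f z) : 0 ≤ Er G p f := tsum_nonneg fun z => mul_nonneg (ng_nonneg _ _) (hf z)

theorem summable_er {lv : L → ℕ} {p : (L → ℤ) → L → ℝ} (hp : Tri lv p) {G : Matrix L L ℝ}
    (hG : G.PosDef) {f : (L → ℤ) → ℝ} {C : ℝ} (hf : ∀ z, |f z| ≤ C) :
    Summable fun z => ng G (toR z - p z) * f z :=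
  summable_mul_real (summable_ng hp hG) (fun _ => ng_nonneg _ _) hf

theorem er_le {lv : L → ℕ} {p : (L → ℤ) → L → ℝ} (hp : Tri lv p) {G : Matrix L L ℝ}
    (hG : G.PosDef) {f : (L → ℤ) → ℝ} {C : ℝ} (hf : ∀ z, |f z| ≤ C) : Er G p f ≤ C * ms G p := by
  rw [ms, ← tsum_mul_left]
  refine (summable_er hp hG hf).tsum_le_tsum (fun z => ?_) ((summable_ng hp hG).mul_left C)
  rw [mul_comm]
  exact mul_le_mul_of_nonneg_right ((le_abs_self _).trans (hf z)) (ng_nonneg _ _)

theorem er_mul (G : Matrix L L ℝ) (p : (L → ℤ) → L → ℝ) (f : (L → ℤ) → ℝ) (c : ℝ) :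
    Er G p (fun z => c * f z) = c * Er G p f := by
  simp only [Er, ← tsum_mul_left, mul_left_comm]

/-- the Gram matrix after a diagonal dilation -/
def dil (d : L → ℤ) (G : Matrix L L ℝ) : Matrix L L ℝ :=
  (diagonal (toR d))ᵀ * G * diagonal (toR d)

/-- the centres on a coset, relative to `r'` -/
def pc (p : (L → ℤ) → L → ℝ) (d r : L → ℤ) (r' : L → ℝ) (z : L → ℤ) : L → ℝ :=
  fun l => (p (r + d * z) l - r' l) / d l

theorem dil_apply (d : L → ℤ) (G : Matrix L L ℝ) (i j : L) : dil d G i j = d i * G i j * d j := by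
  simp [dil, toR_apply]

theorem qq_dil (d : L → ℤ) (G : Matrix L L ℝ) (x : L → ℝ) : qq (dil d G) x = qq G (toR d * x) := by
  rw [dil, qq_conj]
  congr 1
  funext i; simp [mulVec_diagonal]

theorem posDef_dil {d : L → ℤ} (hd : ∀ l, d l ≠ 0) {G : Matrix L L ℝ} (hG : G.PosDef) :
    (dil d G).PosDef := by
  refine posDef_conj hG _ fun x y h => funext fun i => ?_
  have := congrFun h i
  simp only [mulVec_diagonal, toR_apply] at this
  exact mul_left_cancel₀ (by exact_mod_cast hd i) this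

theorem ng_dil {d : L → ℤ} (hd : ∀ l, d l ≠ 0) (G : Matrix L L ℝ) (x : L → ℝ) :
    ng (dil d G) x = (∏ l, |(d l : ℝ)|) * ng G (toR d * x) := by
  have h1 : vol (dil d G) = (∏ l, |(d l : ℝ)|)⁻¹ * vol G := by
    unfold vol dil
    rw [det_mul, det_mul, det_transpose, det_diagonal, mul_right_comm, ← sq,
      Real.sqrt_mul (sq_nonneg _), Real.sqrt_sq_eq_abs, abs_prod, mul_inv]
    rfl
  unfold ng gs
  rw [qq_dil, h1]
  have : (∏ l, |(d l : ℝ)|) ≠ 0 := prod_ne_zero_iff.2 fun l _ => by simpa using hd l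
  field_simp

omit [Fintype L] [DecidableEq L] in
theorem tri_pc {lv : L → ℕ} {p : (L → ℤ) → L → ℝ} (hp : Tri lv p) (d r : L → ℤ) (r' : L → ℝ) :
    Tri lv (pc p d r r') := fun i z z' h => by
  unfold pc
  rw [hp i (r + d * z) (r + d * z') fun j hj => by simp [h j hj]]

omit [Fintype L] [DecidableEq L] in
theorem dil_pc {d : L → ℤ} (hd : ∀ l, d l ≠ 0) (p : (L → ℤ) → L → ℝ) (r z : L → ℤ) (r' : L → ℝ) :
    toR d * (toR z - pc p d r r' z) = (toR (r + d * z) - p (r + d * z)) - (toR r - r') := by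
  funext l
  have : (d l : ℝ) ≠ 0 := by exact_mod_cast hd l
  simp only [pc, Pi.mul_apply, Pi.sub_apply, toR_apply, Pi.add_apply]
  push_cast; field_simp; ring

/-- the residues -/
def rsd (d : L → ℤ) : Finset (L → ℤ) := Fintype.piFinset fun l => Ico 0 |d l|

theorem card_rsd (d : L → ℤ) : ((rsd d).card : ℝ) = ∏ l, |(d l : ℝ)| := by
  rw [rsd, Fintype.card_piFinset]
  push_cast
  refine prod_congr rfl fun l _ => ?_
  rw [Int.card_Ico, sub_zero, ← Int.cast_natCast, Int.toNat_of_nonneg (abs_nonneg _), Int.cast_abs]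

theorem tsum_cos {E : Type*} [NormedAddCommGroup E] [CompleteSpace E] {d : L → ℤ}
    (hd : ∀ l, d l ≠ 0) {g : (L → ℤ) → E} (hg : Summable g) :
    ∑' z, g z = ∑ r ∈ rsd d, ∑' z, g (r + d * z) := by
  let e : (rsd d) × (L → ℤ) ≃ (L → ℤ) :=
    { toFun := fun x => x.1.1 + d * x.2
      invFun := fun x => (⟨fun l => x l % d l, Fintype.mem_piFinset.2 fun l => mem_Ico.2
        ⟨Int.emod_nonneg _ (hd l), Int.emod_lt_abs _ (hd l)⟩⟩, fun l => x l / d l)
      left_inv := fun x => by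
        have h := fun l => mem_Ico.1 (Fintype.mem_piFinset.1 x.1.2 l)
        refine Prod.ext (Subtype.ext (funext fun l => ?_)) (funext fun l => ?_)
        · simp only [Pi.add_apply, Pi.mul_apply, Int.add_mul_emod_self_left]
          rw [← Int.emod_abs]; exact Int.emod_eq_of_lt (h l).1 (h l).2
        · simp only [Pi.add_apply, Pi.mul_apply]
          rw [Int.add_mul_ediv_left _ _ (hd l), Int.ediv_eq_zero_of_lt_abs (h l).1 (h l).2, zero_add]
      right_inv := fun x => funext fun l => Int.emod_add_mul_ediv _ _ }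
  rw [← e.tsum_eq]
  refine (e.summable_iff.2 hg).tsum_prod.trans ?_
  rw [tsum_fintype, ← sum_coe_sort (rsd d)]
  rfl

/-- the sum over a system is the average over the cosets -/
theorem Ex_cos {lv : L → ℕ} {p : (L → ℤ) → L → ℝ} (hp : Tri lv p) {G : Matrix L L ℝ}
    (hG : G.PosDef) {d : L → ℤ} (hd : ∀ l, d l ≠ 0) {f : (L → ℤ) → ℂ} {C : ℝ}
    (hf : ∀ z, ‖f z‖ ≤ C) : ((rsd d).card : ℂ) * Ex G p f =
      ∑ r ∈ rsd d, Ex (dil d G) (pc p d r (toR r)) fun z => f (r + d * z) := by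
  rw [Ex, tsum_cos hd (summable_Ex hp hG hf), mul_sum]
  refine sum_congr rfl fun r _ => ?_
  rw [Ex, ← tsum_mul_left]
  refine tsum_congr fun z => ?_
  rw [ng_dil hd, dil_pc hd, sub_self, sub_zero, ← card_rsd]
  push_cast; ring

theorem exists_cos {lv : L → ℕ} {p : (L → ℤ) → L → ℝ} (hp : Tri lv p) {G : Matrix L L ℝ}
    (hG : G.PosDef) {d : L → ℤ} (hd : ∀ l, d l ≠ 0) {f : (L → ℤ) → ℝ} {C : ℝ}
    (hf : ∀ z, |f z| ≤ C) :
    ∃ r, Er G p f ≤ Er (dil d G) (pc p d r (toR r)) fun z => f (r + d * z) := by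
  have h1 := Ex_cos hp hG hd (f := fun z => f z) (C := C) fun z => by simpa using hf z
  simp only [Ex_er] at h1
  have h2 : ∑ r ∈ rsd d, Er G p f =
      ∑ r ∈ rsd d, Er (dil d G) (pc p d r (toR r)) fun z => f (r + d * z) := by
    rw [sum_const, nsmul_eq_mul]; exact_mod_cast h1
  obtain ⟨r, -, hr⟩ := exists_le_of_sum_le ⟨0, Fintype.mem_piFinset.2 fun l =>
    mem_Ico.2 ⟨le_rfl, abs_pos.2 (hd l)⟩⟩ h2.le
  exact ⟨r, hr⟩

/-- one centre of a narrower system is at least as good -/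
theorem exists_mix {lv : L → ℕ} {p : (L → ℤ) → L → ℝ} (hp : Tri lv p) {G H : Matrix L L ℝ}
    (hG : G.PosDef) (hR : (H - G).PosDef) {f : (L → ℤ) → ℝ} {C : ℝ} (hf : ∀ z, |f z| ≤ C) :
    ∃ c, Er G p f ≤ Er H (fun z => p z + c) f := by
  obtain ⟨ν, h0, hi, h1, hv⟩ := Ex_mix_eq hG hR
  obtain ⟨h2, h3⟩ := hv lv p (fun z => f z) C hp fun z => by simpa using hf z
  simp only [Ex_er, ← Complex.ofReal_mul] at h2 h3
  rw [integral_complex_ofReal, Complex.ofReal_inj] at h3
  have h4 : Integrable fun c => ν c * Er H (fun z => p z + c) f := by simpa using h2.re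
  by_contra hc
  push Not at hc
  have h5 : ∫ c, ν c * (Er G p f - Er H (fun z => p z + c) f) = 0 := by
    simp only [mul_sub]
    rw [integral_sub (hi.mul_const _) h4, integral_mul_const, h1, h3, one_mul, sub_self]
  rw [integral_eq_zero_iff_of_nonneg (fun c => mul_nonneg (h0 c) (sub_pos.2 (hc c)).le)
    (by simp only [mul_sub]; exact (hi.mul_const _).sub h4)] at h5
  have h6 : ν =ᵐ[volume] 0 := h5.mono fun c h =>
    (mul_eq_zero.1 h).resolve_right (sub_pos.2 (hc c)).ne'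
  rw [integral_congr_ae h6] at h1
  simp at h1

/-- a hyperplane far from the centres has small mass -/
theorem er_hyp {lv : L → ℕ} {p : (L → ℤ) → L → ℝ} (hp : Tri lv p) {G : Matrix L L ℝ}
    (hG : G.PosDef) (b : L → ℝ) {f : (L → ℤ) → ℝ} {C : ℝ} (hf : ∀ z, |f z| ≤ C)
    (h : ∀ z, f z ≠ 0 → bb G (toR z - p z) b = 0) :
    Er G (fun z => p z + b) f ≤ C * Real.exp (-(π * qq G b)) * ms G p := by
  rw [ms, ← tsum_mul_left]
  refine (summable_er (tri_add hp b) hG hf).tsum_le_tsum (fun z => ?_)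
    ((summable_ng hp hG).mul_left _)
  have hC : 0 ≤ C := (abs_nonneg _).trans (hf z)
  by_cases h0 : f z = 0
  · rw [h0, mul_zero]; exact mul_nonneg (by positivity) (ng_nonneg _ _)
  have h1 : ng G (toR z - (p z + b)) = Real.exp (-(π * qq G b)) * ng G (toR z - p z) := by
    unfold ng
    rw [gs_of_qq (H := G) (y := toR z - p z) (r := qq G b), mul_div_assoc]
    rw [← sub_sub, qq_sub hG.1, h z h0]; ring
  rw [h1, mul_comm, mul_assoc]
  exact mul_le_mul_of_nonneg_right ((le_abs_self _).trans (hf z))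
    (mul_nonneg (Real.exp_pos _).le (ng_nonneg _ _))

end

end Vale.Agent.P057ST
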