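import Vale.Agent.P057PC.Split

/-! Comparison of Gram matrices and unimodular changes of the labels. -/

set_option linter.all false

open MeasureTheory Matrix Finset
open scoped Real
open Vale.Agent.P267.H775 Vale.Agent.P057G Vale.Agent.P057PC

namespace Vale.Agent.P057ST

noncomputable section

variable {L : Type*} [Fintype L] [DecidableEq L]

theorem vol_anti {G H : Matrix L L ℝ} (hG : G.PosDef) (hH : H.PosDef)
    (h : ∀ x, qq G x ≤ qq H x) : vol H ≤ vol G := by
  rw [← integral_gs_real hG, ← integral_gs_real hH]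
  exact integral_mono (integrable_gs hH) (integrable_gs hG) fun x => gs_mono (h x)

theorem vol_ratio {A : Matrix L L ℝ} (hA : A.PosDef) {e : ℝ} (h0 : 0 ≤ e) (h1 : e ≤ 1 / 2) :
    (1 - 2 * e * Fintype.card L) * vol ((1 - e) • A) ≤ vol ((1 + e) • A) := by
  have ha : 0 < 1 - e := by linarith
  have hb : 0 < 1 + e := by linarith
  rw [vol_smul ha, vol_smul hb, ← mul_assoc]
  refine mul_le_mul_of_nonneg_right ?_ (vol_pos hA).le
  have h2 : (1 - 2 * e) * (√(1 - e))⁻¹ ≤ (√(1 + e))⁻¹ := by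
    have sa := Real.sqrt_pos.mpr ha
    have sb := Real.sqrt_pos.mpr hb
    rw [← div_eq_mul_inv, ← one_div, div_le_div_iff₀ sa sb, one_mul]
    refine Real.le_sqrt_of_sq_le ?_
    rw [mul_pow, Real.sq_sqrt hb.le]
    nlinarith [mul_nonneg h0 h0, mul_nonneg h0 (mul_nonneg h0 h0)]
  have h3 := one_add_mul_le_pow (a := -(2 * e)) (by linarith) (Fintype.card L)
  calc (1 - 2 * e * Fintype.card L) * (√(1 - e))⁻¹ ^ Fintype.card L
      ≤ (1 - 2 * e) ^ Fintype.card L * (√(1 - e))⁻¹ ^ Fintype.card L := by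
        refine mul_le_mul_of_nonneg_right ?_ (by positivity)
        rw [sub_eq_add_neg 1 (2 * e)]
        linarith
    _ = ((1 - 2 * e) * (√(1 - e))⁻¹) ^ Fintype.card L := (mul_pow _ _ _).symm
    _ ≤ _ := pow_le_pow_left₀ (mul_nonneg (by linarith) (by positivity)) h2 _

theorem ng_lower {A B : Matrix L L ℝ} (hA : A.PosDef) (hB : B.PosDef) {e : ℝ} (h0 : 0 ≤ e)
    (h1 : e ≤ 1 / 2) (hl : ∀ v, (1 - e) * qq A v ≤ qq B v) (hu : ∀ v, qq B v ≤ (1 + e) * qq A v)
    (v : L → ℝ) : (1 - 2 * e * Fintype.card L) * ng ((1 + e) • A) v ≤ ng B v := by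
  have ha : ((1 - e) • A).PosDef := hA.smul (by linarith)
  have hb : ((1 + e) • A).PosDef := hA.smul (by linarith)
  have h2 := vol_ratio hA h0 h1
  have h3 : vol B ≤ vol ((1 - e) • A) := vol_anti ha hB fun x => by rw [qq_smul_mat]; exact hl x
  have h4 : gs ((1 + e) • A) v ≤ gs B v := gs_mono (by rw [qq_smul_mat]; exact hu v)
  unfold ng
  rw [← mul_div_assoc, div_le_div_iff₀ (vol_pos hb) (vol_pos hB)]
  by_cases hc : 0 ≤ 1 - 2 * e * Fintype.card L
  · have h5 := mul_le_mul_of_nonneg_left h3 hc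
    calc _ = gs ((1 + e) • A) v * ((1 - 2 * e * Fintype.card L) * vol B) := by ring
      _ ≤ _ := mul_le_mul h4 (h5.trans h2) (mul_nonneg hc (vol_pos hB).le) (gs_pos _ _).le
  · have := mul_pos (gs_pos B v) (vol_pos hb)
    have := mul_pos (gs_pos ((1 + e) • A) v) (vol_pos hB)
    nlinarith

/-- two close Gram matrices give close weights -/
theorem l1_gram {lv : L → ℕ} {p : (L → ℤ) → L → ℝ} (hp : Tri lv p) {A B : Matrix L L ℝ}
    (hA : A.PosDef) (hB : B.PosDef) {e η : ℝ} (h0 : 0 ≤ e) (h1 : e ≤ 1 / 2)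
    (hl : ∀ v, (1 - e) * qq A v ≤ qq B v) (hu : ∀ v, qq B v ≤ (1 + e) * qq A v) (hη : η ≤ 1)
    (mA : ms A p ≤ 1 + η) (mB : ms B p ≤ 1 + η) (mC : |ms ((1 + e) • A) p - 1| ≤ η) :
    ∑' z, |ng A (toR z - p z) - ng B (toR z - p z)| ≤ 4 * η + 8 * e * Fintype.card L := by
  have hb : ((1 + e) • A).PosDef := hA.smul (by linarith)
  have sA := summable_ng hp hA
  have sB := summable_ng hp hB
  have sC := (summable_ng hp hb).mul_left (2 * (1 - 2 * e * Fintype.card L))
  have h2 : ∑' z, |ng A (toR z - p z) - ng B (toR z - p z)| ≤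
      ∑' z, (ng A (toR z - p z) + ng B (toR z - p z) -
        2 * (1 - 2 * e * Fintype.card L) * ng ((1 + e) • A) (toR z - p z)) := by
    refine Summable.tsum_le_tsum (fun z => ?_) (sA.sub sB).abs ((sA.add sB).sub sC)
    have a1 := ng_lower hA hB h0 h1 hl hu (toR z - p z)
    have a2 := ng_lower hA hA h0 h1 (fun v => by nlinarith [qq_nonneg hA.posSemidef v])
      (fun v => by nlinarith [qq_nonneg hA.posSemidef v]) (toR z - p z)
    rw [abs_le]; constructor <;> linarith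
  rw [(sA.add sB).tsum_sub sC, sA.tsum_add sB, tsum_mul_left] at h2
  have h3 := abs_le.mp mC
  have h4 : 0 ≤ e * Fintype.card L := by positivity
  change _ ≤ ms A p + ms B p - 2 * (1 - 2 * e * Fintype.card L) * ms ((1 + e) • A) p at h2
  nlinarith

theorem Ex_cmp {lv : L → ℕ} {p : (L → ℤ) → L → ℝ} (hp : Tri lv p) {A B : Matrix L L ℝ}
    (hA : A.PosDef) (hB : B.PosDef) {f : (L → ℤ) → ℂ} {C : ℝ} (hf : ∀ z, ‖f z‖ ≤ C) :
    ‖Ex A p f - Ex B p f‖ ≤ C * ∑' z, |ng A (toR z - p z) - ng B (toR z - p z)| := by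
  unfold Ex
  rw [← (summable_Ex hp hA hf).tsum_sub (summable_Ex hp hB hf), ← tsum_mul_left]
  refine tsum_of_norm_bounded ((((summable_ng hp hA).sub (summable_ng hp hB)).abs.mul_left
    C).hasSum) fun z => ?_
  rw [← sub_mul, ← Complex.ofReal_sub, norm_mul, Complex.norm_real, Real.norm_eq_abs, mul_comm]
  exact mul_le_mul_of_nonneg_right (hf z) (abs_nonneg _)

/-- an integer matrix as a real matrix -/
def mR {K : Type*} (S : Matrix K L ℤ) : Matrix K L ℝ := S.map (Int.cast : ℤ → ℝ)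

omit [DecidableEq L] in
theorem toR_mulVec {K : Type*} (S : Matrix K L ℤ) (z : L → ℤ) : toR (S *ᵥ z) = mR S *ᵥ toR z := by
  funext i
  simp [mR, mulVec, dotProduct, toR]

theorem mR_mul {K J : Type*} [Fintype K] (S : Matrix J K ℤ) (U : Matrix K L ℤ) :
    mR (S * U) = mR S * mR U := by
  ext i j; simp [mR, Matrix.mul_apply]

theorem mR_one : mR (1 : Matrix L L ℤ) = 1 := by
  ext i j; simp [mR, Matrix.one_apply]

theorem vol_unimod {S U : Matrix L L ℤ} (h : S * U = 1) (G : Matrix L L ℝ) :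
    vol ((mR S)ᵀ * G * mR S) = vol G := by
  have h1 : S.det * U.det = 1 := by rw [← det_mul, h, det_one]
  have h2 : S.det * S.det = 1 := by
    rcases Int.eq_one_or_neg_one_of_mul_eq_one h1 with h3 | h3 <;> simp [h3]
  have h3 : (mR S).det = (S.det : ℝ) := (Int.cast_det S).symm
  unfold vol
  rw [det_mul, det_mul, det_transpose, h3]
  congr 2
  have : (S.det : ℝ) * S.det = 1 := by exact_mod_cast h2
  linear_combination G.det * this

/-- a unimodular change of the labels -/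
theorem Ex_unimod {S U : Matrix L L ℤ} (h : S * U = 1) (G : Matrix L L ℝ)
    {p p' : (L → ℤ) → L → ℝ} (hp : ∀ z, p' (S *ᵥ z) = mR S *ᵥ p z) (f : (L → ℤ) → ℂ) :
    Ex ((mR S)ᵀ * G * mR S) p (fun z => f (S *ᵥ z)) = Ex G p' f := by
  have h' : U * S = 1 := mul_eq_one_comm.mp h
  let e : (L → ℤ) ≃ (L → ℤ) :=
    { toFun := fun z => S *ᵥ z
      invFun := fun z => U *ᵥ z
      left_inv := fun z => by simp [mulVec_mulVec, h']
      right_inv := fun z => by simp [mulVec_mulVec, h] }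
  unfold Ex
  rw [← e.tsum_eq (fun z => (ng G (toR z - p' z) : ℂ) * f z)]
  refine tsum_congr fun z => ?_
  show _ = (ng G (toR (S *ᵥ z) - p' (S *ᵥ z)) : ℂ) * f (S *ᵥ z)
  rw [hp, toR_mulVec, ← mulVec_sub]
  unfold ng
  rw [vol_unimod h, gs_conj]

theorem ms_unimod {S U : Matrix L L ℤ} (h : S * U = 1) (G : Matrix L L ℝ)
    {p p' : (L → ℤ) → L → ℝ} (hp : ∀ z, p' (S *ᵥ z) = mR S *ᵥ p z) :
    ms ((mR S)ᵀ * G * mR S) p = ms G p' := by
  have := Ex_unimod h G hp (fun _ => 1)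
  rw [Ex_one, Ex_one] at this
  exact_mod_cast this

end

end Vale.Agent.P057ST
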