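import Vale.Agent.P057ST.Cos
import Vale.Agent.P057PC.Del
import Vale.Agent.P057PC.Chain

/-! Weighted Gram matrices, small shears, deletion of generators, mixtures in the fibres. -/

set_option linter.all false

open MeasureTheory Matrix Finset
open scoped Real
open Vale.Agent.P267.H775 Vale.Agent.P057G Vale.Agent.P057PC

namespace Vale.Agent.P057ST

noncomputable section

section gen

variable {L : Type*} [Fintype L] [DecidableEq L]

omit [DecidableEq L] in
theorem qq_sum_le {G : Matrix L L ℝ} (hG : G.PosSemidef) {κ : Type*} (s : Finset κ)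
    (x : κ → L → ℝ) : qq G (∑ i ∈ s, x i) ≤ s.card * ∑ i ∈ s, qq G (x i) := by
  have h1 : qq G (∑ i ∈ s, x i) = ∑ i ∈ s, ∑ j ∈ s, bb G (x i) (x j) := by
    simp only [qq, bb, mulVec_sum, sum_dotProduct, dotProduct_sum]
    exact sum_comm
  have h2 : ∀ i j, bb G (x i) (x j) ≤ qq G (x i) / 2 + qq G (x j) / 2 := fun i j => by
    have := qq_nonneg hG (x i - x j)
    rw [qq_sub hG.1] at this
    linarith
  rw [h1]
  refine (sum_le_sum fun i _ => sum_le_sum fun j _ => h2 i j).trans (le_of_eq ?_)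
  simp only [sum_add_distrib, sum_const, nsmul_eq_mul, ← sum_div, ← mul_sum]
  ring

omit [DecidableEq L] in
theorem qq_near {A : Matrix L L ℝ} (hA : A.PosDef) {e : ℝ} (h0 : 0 ≤ e) (h1 : e ≤ 1) {x y : L → ℝ}
    (h : qq A (y - x) ≤ e ^ 2 * qq A x) :
    (1 - 3 * e) * qq A x ≤ qq A y ∧ qq A y ≤ (1 + 3 * e) * qq A x := by
  have h2 := qq_add hA.1 x (y - x)
  rw [add_sub_cancel] at h2
  have h3 := bb_sq_le hA.posSemidef x (y - x)
  have q1 := qq_nonneg hA.posSemidef x
  have q2 := qq_nonneg hA.posSemidef (y - x)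
  have h4 : |bb A x (y - x)| ≤ e * qq A x := by
    refine abs_le_of_sq_le_sq ?_ (by positivity)
    nlinarith [mul_le_mul_of_nonneg_left h q1]
  have h5 := abs_le.1 h4
  have h6 : e ^ 2 * qq A x ≤ e * qq A x := mul_le_mul_of_nonneg_right (by nlinarith) q1
  constructor <;> nlinarith

/-- a unimodular map close to the identity -/
theorem Ex_shear {lv : L → ℕ} {p p' : (L → ℤ) → L → ℝ} (hp : Tri lv p) {A : Matrix L L ℝ}
    (hA : A.PosDef) {S U : Matrix L L ℤ} (h : S * U = 1) (hp' : ∀ z, p' (S *ᵥ z) = mR S *ᵥ p z)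
    {e η : ℝ} (h0 : 0 ≤ e) (h1 : e ≤ 1 / 6) (hη : η ≤ 1)
    (hS : ∀ v, qq A (mR S *ᵥ v - v) ≤ e ^ 2 * qq A v)
    (hm : ∀ B : Matrix L L ℝ, B.PosDef → (∀ v, qq B v ≤ 2 * qq A v) → |ms B p - 1| ≤ η)
    {f : (L → ℤ) → ℂ} {C : ℝ} (hf : ∀ z, ‖f z‖ ≤ C) :
    ‖Ex A p (fun z => f (S *ᵥ z)) - Ex A p' f‖ ≤ C * (4 * η + 24 * e * Fintype.card L) := by
  have hB : ((mR S)ᵀ * A * mR S).PosDef := posDef_conj hA _ fun x y hxy => by
    have h2 : mR U * mR S = 1 := by rw [← mR_mul, mul_eq_one_comm.1 h, mR_one]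
    have := congrArg (mR U *ᵥ ·) hxy
    simpa only [mulVec_mulVec, h2, one_mulVec] using this
  have hn := fun v => qq_near hA h0 (by linarith) (hS v)
  have q := qq_nonneg hA.posSemidef
  have h3 := l1_gram hp hA hB (e := 3 * e) (by linarith) (by linarith)
    (fun v => by rw [qq_conj]; exact (hn v).1) (fun v => by rw [qq_conj]; exact (hn v).2) hη
    (by linarith [(abs_le.1 (hm A hA fun v => by linarith [q v])).2])
    (by linarith [(abs_le.1 (hm _ hB fun v => by rw [qq_conj]; nlinarith [(hn v).2, q v])).2])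
    (hm _ (hA.smul (by linarith)) fun v => by rw [qq_smul_mat]; nlinarith [q v])
  rw [← Ex_unimod h A hp' f]
  refine (Ex_cmp hp hA hB fun z => hf _).trans (mul_le_mul_of_nonneg_left ?_
    ((norm_nonneg _).trans (hf 0)))
  linarith

omit [DecidableEq L] in
theorem qq_bk (G : Matrix L L ℝ) (Q : L → Prop) [DecidablePred Q] (x : {l // Q l} → ℝ) :
    qq (bk G Q) x = qq G fun l => if h : Q l then x ⟨l, h⟩ else 0 := by
  have h : ∀ w : L → ℝ, ∑ l, (if h : Q l then x ⟨l, h⟩ else 0) * w l =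
      ∑ l : {l // Q l}, x l * w l := fun w => by
    rw [← Fintype.sum_subtype_add_sum_subtype Q]
    simp only [Subtype.property, dif_pos]
    rw [sum_eq_zero (s := (univ : Finset {l // ¬ Q l})) fun l _ => by rw [dif_neg l.2, zero_mul],
      add_zero]
  simp only [qq, dotProduct, mulVec, h, mul_comm (G _ _)]
  simp only [bk, submatrix_apply, mul_comm]

end gen

/-- a lower bound for all centres of the fibres passes to the base -/
theorem er_fib {L : Type} [Fintype L] [DecidableEq L] {lv : L → ℕ} {p : (L → ℤ) → L → ℝ}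
    (hp : Tri lv p) {G : Matrix L L ℝ} (hG : G.PosDef) {P : L → Prop} [DecidablePred P]
    (ho : Ort G P) {pb : ({l // ¬ P l} → ℤ) → {l // ¬ P l} → ℝ} (hs : Spl P p pb)
    {f : ({l // ¬ P l} → ℤ) → ℝ} {C a : ℝ} (hf : ∀ y, |f y| ≤ C)
    (h : ∀ κ : L → ℝ, (∀ l, ¬ P l → κ l = 0) → a ≤ Er G (fun z => p z + κ) fun z => f (rs _ z)) :
    a ≤ Er (bk G fun l => ¬ P l) pb f := by
  have hC : 0 ≤ C := (abs_nonneg _).trans (hf 0)
  have hb := posDef_bk hG fun l => ¬ P l
  have hP := posDef_bk hG P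
  have tb := hs.tri hp
  refine le_of_forall_pos_le_add fun ε hε => ?_
  have m0 := ms_nonneg (bk G fun l => ¬ P l) pb
  obtain ⟨δ0, hδ0, hδ⟩ := exists_fine_tri (univ.sup lv + 1) {l // P l} (fun l => lv l.1)
    (fun l => Nat.lt_succ_of_le (le_sup (f := lv) (mem_univ _)))
    (ε / (C * ms (bk G fun l => ¬ P l) pb + 1)) (by positivity)
  obtain ⟨c, hc, hc1⟩ := exists_one_le hP
  have d0 : 0 < min δ0 (c / 2) := lt_min hδ0 (by linarith)
  have hW : (min δ0 (c / 2) • (1 : Matrix {l // P l} {l // P l} ℝ)).PosDef := PosDef.one.smul d0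
  have hR := posDef_gap hW (hP.smul (show (0 : ℝ) < 1 / 2 by norm_num)) fun v => by
    rw [qq_smul_mat, qq_smul_mat]
    have := mul_le_mul_of_nonneg_right (min_le_right δ0 (c / 2))
      (qq_nonneg (PosDef.one (n := {l // P l}) (R := ℝ)).posSemidef v)
    linarith [hc1 v]
  rw [smul_smul, show (2 : ℝ) * (1 / 2) = 1 by norm_num, one_smul] at hR
  obtain ⟨ν, n0, ni, n1, hv⟩ := Ex_mix_eq hW hR
  obtain ⟨B, hB⟩ := ms_bdd hW
  set w := fun y => ng (bk G fun l => ¬ P l) (toR y - pb y)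
  set M := fun y c => ms (bk G P) fun x => pf P p y x + c
  have hM : ∀ y, Integrable (fun c => ν c * M y c) ∧
      ∫ c, ν c * M y c = ms (min δ0 (c / 2) • 1) (pf P p y) := fun y => by
    obtain ⟨h2, h3⟩ := hv _ (pf P p y) (fun _ => 1) 1 (tri_pf hp P y) (by simp)
    simp only [Ex_one, ← Complex.ofReal_mul] at h2 h3
    rw [integral_complex_ofReal, Complex.ofReal_inj] at h3
    exact ⟨by simpa using h2.re, h3⟩
  have h1 : ∀ c, a ≤ ∑' y, w y * (M y c * f y) := fun c => by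
    have h2 := h (glue (X := fun _ => ℝ) P c 0) fun l hl => glue_neg (X := fun _ => ℝ) _ _ hl
    have h3 := Ex_split (tri_add hp (glue (X := fun _ => ℝ) P c 0)) hG ho (hs.add _)
      (f := fun z => (1 : ℂ) * f (rs _ z)) (C := C) fun z => by simpa using hf _
    have h4 : ∀ y, Fx G P (fun z => p z + glue (X := fun _ => ℝ) P c 0)
        (fun z => (1 : ℂ) * f (rs _ z)) y = ((M y c * f y : ℝ) : ℂ) := fun y => by
      rw [Fx_base G (fun _ => 1) (fun y => (f y : ℂ)) y, Fx_one]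
      push_cast
      congr 3
      funext x l
      exact congrArg (p _ l + ·) (glue_pos (X := fun _ => ℝ) _ _ l.2)
    simp only [one_mul] at h3 h4
    rw [funext h4, Ex_er, Ex_er, rs_glue_neg, Complex.ofReal_inj] at h3
    simp only [h3, add_zero] at h2
    exact h2
  have hw : Summable w := summable_ng tb hb
  have w0 : ∀ y, 0 ≤ w y := fun _ => ng_nonneg _ _
  have hi : ∀ y, Integrable fun c => w y * f y * (ν c * M y c) := fun y => (hM y).1.const_mul _
  have hn : Summable fun y => ∫ c, ‖w y * f y * (ν c * M y c)‖ := by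
    refine (hw.mul_right (C * B)).of_nonneg_of_le (fun y => integral_nonneg fun _ => norm_nonneg _)
      fun y => ?_
    have : ∀ c, ‖w y * f y * (ν c * M y c)‖ = w y * |f y| * (ν c * M y c) := fun c => by
      rw [Real.norm_eq_abs, abs_mul, abs_mul, abs_of_nonneg (w0 y),
        abs_of_nonneg (mul_nonneg (n0 c) (ms_nonneg _ _))]
    simp only [this]
    rw [integral_const_mul, (hM y).2, mul_assoc]
    exact mul_le_mul_of_nonneg_left (mul_le_mul (hf y) (hB _ _ (tri_pf hp P y)) (ms_nonneg _ _) hC)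
      (w0 y)
  have h5 := integral_tsum_of_summable_integral_norm hi hn
  have h6 : a ≤ ∫ c, ∑' y, w y * f y * (ν c * M y c) := by
    rw [← one_mul a, ← n1, ← integral_mul_const]
    obtain ⟨B2, hB2⟩ := ms_bdd hP
    have hbd : ∀ c y, ‖w y * f y * (ν c * M y c)‖ ≤ ν c * (C * B2) * w y := fun c y => by
      rw [Real.norm_eq_abs, abs_mul, abs_mul, abs_of_nonneg (w0 y),
        abs_of_nonneg (mul_nonneg (n0 c) (ms_nonneg _ _))]
      have := mul_le_mul_of_nonneg_left (mul_le_mul (hf y) (hB2 _ _ (tri_add (tri_pf hp P y) c))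
        (ms_nonneg _ _) hC) (mul_nonneg (w0 y) (n0 c))
      linarith
    refine integral_mono (ni.mul_const a) (((ni.mul_const (C * B2)).mul_const (∑' y, w y)).mono'
      (aestronglyMeasurable_of_tendsto_ae (Filter.atTop : Filter (Finset ({l // ¬ P l} → ℤ)))
        (f := fun s c => ∑ y ∈ s, w y * f y * (ν c * M y c))
        (fun s => (integrable_finsetSum s fun y _ => hi y).1)
        (Filter.Eventually.of_forall fun c =>
          ((hw.mul_left _).of_norm_bounded (hbd c)).hasSum))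
      (Filter.Eventually.of_forall fun c =>
        tsum_of_norm_bounded (hw.hasSum.mul_left _) (hbd c))) fun c => ?_
    refine (mul_le_mul_of_nonneg_left (h1 c) (n0 c)).trans (le_of_eq ?_)
    rw [← tsum_mul_left]
    exact tsum_congr fun y => by ring
  rw [← h5] at h6
  simp only [integral_const_mul, (hM _).2] at h6
  refine h6.trans ?_
  have h7 : ∀ y, w y * f y * ms (min δ0 (c / 2) • 1) (pf P p y) ≤ w y * f y +
      ε / (C * ms (bk G fun l => ¬ P l) pb + 1) * C * w y := fun y => by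
    have h8 := hδ _ d0 (min_le_left _ _) _ (tri_pf hp P y)
    have h9 : f y * (ms (min δ0 (c / 2) • 1) (pf P p y) - 1) ≤
        C * (ε / (C * ms (bk G fun l => ¬ P l) pb + 1)) :=
      (le_abs_self _).trans (by rw [abs_mul]; exact mul_le_mul (hf y) h8 (abs_nonneg _) hC)
    nlinarith [mul_le_mul_of_nonneg_left h9 (w0 y)]
  have s1 := summable_er tb hb hf
  refine (Summable.tsum_le_tsum h7 ?_ (s1.add (hw.mul_left _))).trans ?_
  · simp only [mul_assoc]
    refine summable_mul_real hw w0 (C := C * B) fun y => ?_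
    rw [abs_mul, abs_of_nonneg (ms_nonneg _ _)]
    exact mul_le_mul (hf y) (hB _ _ (tri_pf hp P y)) (ms_nonneg _ _) hC
  · rw [s1.tsum_add (hw.mul_left _), tsum_mul_left]
    refine add_le_add le_rfl ?_
    change _ * ms (bk G fun l => ¬ P l) pb ≤ ε
    rw [mul_assoc, div_mul_eq_mul_div, div_le_iff₀ (by positivity)]
    nlinarith

variable {ι Δ M V L : Type} [AddCommMonoid M] {T : Tw ι Δ} {C : Cf ι Δ M V L}

/-- the weighted Gram matrix -/
def Gw (T : Tw ι Δ) (C : Cf ι Δ M V L) (ω : M → ℝ) : Matrix L L ℝ :=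
  Matrix.of fun l l' => ω (C.mo l) * C.Gam T l l'

/-- the coefficients of a point at a monomial -/
def vc [Fintype L] (C : Cf ι Δ M V L) (x : L → ℝ) (m : M) : ι → ℝ := fun a => (C.pt x a).coeff m

theorem Gw_ne (ω : M → ℝ) {l l' : L} (h : C.mo l ≠ C.mo l') : Gw T C ω l l' = 0 := by
  simp [Gw, C.Gam_ne T h]

variable [Fintype L] [Fintype ι]

theorem qq_Gw [DecidableEq M] (ω : M → ℝ) (x : L → ℝ) :
    qq (Gw T C ω) x = ∑ m ∈ univ.image C.mo, ω m * qq T.G (vc C x m) := by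
  classical
  have h2 : ∀ (m : M) (w : ι → ℝ), ∑ a, vc C x m a * w a =
      ∑ l, if C.mo l = m then x l * w (C.cd l) else 0 := fun m w => by
    simp only [vc, Cf.coeff_pt, sum_mul]
    rw [sum_comm]
    refine sum_congr rfl fun l _ => ?_
    by_cases h : C.mo l = m <;> simp [h]
  have h1 : ∀ m, qq T.G (vc C x m) =
      ∑ l, ∑ l', if C.mo l = m ∧ C.mo l' = m then x l * (T.G (C.cd l) (C.cd l') * x l') else 0 := by
    intro m
    simp only [qq, dotProduct, mulVec]
    rw [h2]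
    refine sum_congr rfl fun l _ => ?_
    simp only [mul_comm (T.G _ _)]
    rw [h2]
    by_cases h : C.mo l = m <;> simp [h, mul_sum]
  simp only [h1, mul_sum]
  rw [sum_comm]
  simp only [qq, dotProduct, mulVec, mul_sum]
  refine sum_congr rfl fun l _ => ?_
  rw [sum_comm]
  refine sum_congr rfl fun l' _ => ?_
  rw [sum_eq_single (C.mo l) (fun b _ hb => by rw [if_neg fun h => hb h.1.symm, mul_zero])
    fun h => (h (mem_image_of_mem _ (mem_univ l))).elim]
  simp only [Gw, of_apply, Cf.Gam_apply]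
  by_cases h : C.mo l = C.mo l'
  · rw [if_pos h, if_pos ⟨trivial, h.symm⟩]; ring
  · rw [if_neg h, if_neg fun h3 => h h3.2.symm]; ring

theorem Gw_one : Gw T C (fun _ => 1) = C.Gam T := by ext l l'; simp [Gw]

theorem qq_Gw_le (hT : T.Ok) {ω ω' : M → ℝ} {a : ℝ} (h : ∀ l, ω (C.mo l) ≤ a * ω' (C.mo l))
    (x : L → ℝ) : qq (Gw T C ω) x ≤ a * qq (Gw T C ω') x := by
  classical
  rw [qq_Gw, qq_Gw, mul_sum]
  refine sum_le_sum fun m hm => ?_
  obtain ⟨l, -, rfl⟩ := mem_image.1 hm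
  rw [← mul_assoc]
  exact mul_le_mul_of_nonneg_right (h l) (qq_nonneg hT.pd.posSemidef _)

theorem posDef_Gw (hC : C.Ok T) (hT : T.Ok) {ω : M → ℝ} (h : ∀ m, 0 < ω m) :
    (Gw T C ω).PosDef := by
  classical
  have hG := hC.posDef hT
  refine PosDef.of_dotProduct_mulVec_pos ?_ fun x hx => ?_
  · ext l l'
    have := hG.1.apply l l'
    simp only [conjTranspose_apply, star_trivial, Gw, of_apply] at this ⊢
    by_cases h1 : C.mo l = C.mo l'
    · rw [this, h1]
    · rw [C.Gam_ne T h1, C.Gam_ne T (Ne.symm h1), mul_zero, mul_zero]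
  · change 0 < qq _ x
    rw [qq_Gw]
    obtain ⟨l, hl⟩ := Function.ne_iff.1 hx
    refine sum_pos' (fun m _ => mul_nonneg (h m).le (qq_nonneg hT.pd.posSemidef _))
      ⟨C.mo l, mem_image_of_mem _ (mem_univ l), mul_pos (h _)
        (hT.pd.dotProduct_mulVec_pos fun h0 => hl ?_)⟩
    exact (hC.coeff_pt x l).symm.trans (congrFun h0 (C.cd l))

/-- the norm of a map given by a matrix on the monomials -/
theorem qq_Gw_map {M' V' L' : Type} [AddCommMonoid M'] [Fintype L'] {C' : Cf ι Δ M' V' L'}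
    [DecidableEq M] (hT : T.Ok) {ω : M → ℝ} {ω' : M' → ℝ} (h0 : ∀ l, 0 ≤ ω (C.mo l))
    (h0' : ∀ l, 0 ≤ ω' (C'.mo l)) {n : M' → M → ℝ} {b ρ : ℝ} (hρ : 0 ≤ ρ)
    (hb : ∀ l' l, |n (C'.mo l') (C.mo l)| ≤ b)
    (hn : ∀ l' l, n (C'.mo l') (C.mo l) ≠ 0 → ω' (C'.mo l') ≤ ρ * ω (C.mo l)) {x : L → ℝ}
    {y : L' → ℝ}
    (h : ∀ l', vc C' y (C'.mo l') = ∑ m ∈ univ.image C.mo, n (C'.mo l') m • vc C x m) :
    qq (Gw T C' ω') y ≤ ρ * b ^ 2 * (Fintype.card L * Fintype.card L') * qq (Gw T C ω) x := by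
  classical
  have hc : ((univ.image C.mo).card : ℝ) ≤ Fintype.card L := by exact_mod_cast card_image_le
  have hc' : ((univ.image C'.mo).card : ℝ) ≤ Fintype.card L' := by exact_mod_cast card_image_le
  have q := qq_nonneg hT.pd.posSemidef
  have h1 : 0 ≤ ∑ m ∈ univ.image C.mo, ω m * qq T.G (vc C x m) :=
    sum_nonneg fun m hm => by
      obtain ⟨l, -, rfl⟩ := mem_image.1 hm
      exact mul_nonneg (h0 l) (q _)
  rw [qq_Gw, qq_Gw]
  refine (sum_le_card_nsmul _ _ (Fintype.card L * (ρ * b ^ 2 *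
    ∑ m ∈ univ.image C.mo, ω m * qq T.G (vc C x m))) fun m' hm' => ?_).trans ?_
  · obtain ⟨l', -, rfl⟩ := mem_image.1 hm'
    rw [h l']
    refine (mul_le_mul_of_nonneg_left (qq_sum_le hT.pd.posSemidef _ _) (h0' _)).trans ?_
    rw [mul_left_comm]
    refine mul_le_mul hc ?_ (mul_nonneg (h0' _) (sum_nonneg fun _ _ => q _)) (Nat.cast_nonneg _)
    rw [mul_sum, mul_sum]
    refine sum_le_sum fun m hm => ?_
    obtain ⟨l, -, rfl⟩ := mem_image.1 hm
    rw [qq_smul, ← mul_assoc, ← mul_assoc]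
    refine mul_le_mul_of_nonneg_right ?_ (q _)
    by_cases h2 : n (C'.mo l') (C.mo l) = 0
    · rw [h2]; have := h0 l; simp only [ne_eq, OfNat.ofNat_ne_zero, not_false_eq_true,
        zero_pow, mul_zero]; positivity
    · have h3 := hn _ _ h2
      have h4 : n (C'.mo l') (C.mo l) ^ 2 ≤ b ^ 2 := by
        rw [← sq_abs]; exact pow_le_pow_left₀ (abs_nonneg _) (hb _ l) 2
      nlinarith [mul_le_mul h3 h4 (sq_nonneg _) (mul_nonneg hρ (h0 _))]
  · rw [nsmul_eq_mul]
    refine (mul_le_mul_of_nonneg_right hc' (by positivity)).trans (le_of_eq (by ring))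

variable [DecidableEq ι] {d N : ℕ} {Λ η lam : ℝ}

theorem push_gen (h : T.LF d N Λ η) (hT : T.Ok) (hη : η ≤ 1) [Fintype V] [DecidableEq L]
    (hC : C.Ok T) (hN : Fintype.card V + 1 ≤ N) (hd : ∀ l, T.lv (C.cd l) ≤ d) {A : Matrix L L ℝ}
    (hA : A.PosDef) (h0 : 0 ≤ lam) (h1 : 3 * lam ≤ Λ) (hle : ∀ v, qq A v ≤ lam * qq (C.Gam T) v)
    (v : V) [DecidablePred (C.Dv v)] (ho : Ort A fun l => C.Dv v (C.mo l))
    {f : ({l // ¬ C.Dv v (C.mo l)} → ℤ) → ℂ} {B : ℝ} (hf : ∀ y, ‖f y‖ ≤ B) :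
    ‖Ex A (C.p T) (fun z => f (rs _ z)) - Ex (bk A fun l => ¬ C.Dv v (C.mo l))
        ((C.sub fun l => ¬ C.Dv v (C.mo l)).p T) f‖ ≤ 3 * √η * B := by
  have hk := hC.kill (I := C.Dv v) fun _ m h => h.add m
  have hb : ∀ (Q : L → Prop) [DecidablePred Q] x, qq (bk A Q) x ≤ lam * qq (bk (C.Gam T) Q) x :=
    fun Q _ x => by rw [qq_bk, qq_bk]; exact hle _
  refine Ex_push (hC.tri hT) hA ho (C.spl_kill T fun _ m h => h.add m) hη
    (h _ _ _ _ hk (by omega) (fun l => hd _) _ (posDef_bk hA _) fun x => (hb _ x).trans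
      (mul_le_mul_of_nonneg_right (by linarith) (qq_nonneg (hk.posDef hT).posSemidef x)))
    (h _ _ _ _ hC (by omega) hd _ hA fun x => (hle x).trans
      (mul_le_mul_of_nonneg_right (by linarith) (qq_nonneg (hC.posDef hT).posSemidef x))) ?_ hf
  rw [← Cf.p_dbl]
  refine h _ _ _ (C.dbl v) (hC.dbl v) (by simpa using hN) (fun l => ?_) _ (posDef_Gd hA) fun x =>
    (qq_Gd hA ho x).trans (le_trans ?_
      (mul_le_mul_of_nonneg_right h1 (qq_nonneg ((hC.dbl v).posDef hT).posSemidef x)))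
  · rcases l with l | l <;> exact hd _
  · rw [Cf.Gam_dbl, qq_blocks, qq_blocks]
    linarith [hle (x ∘ Sum.inl), hb (fun l => C.Dv v (C.mo l)) (x ∘ Sum.inr)]

/-- deletion of a set of generators -/
theorem push_set (h : T.LF d N Λ η) (hT : T.Ok) (hη : η ≤ 1) [Fintype V]
    (hN : Fintype.card V + 1 ≤ N) (h0 : 0 ≤ lam) (h1 : 3 * lam ≤ Λ) {K : Type} [Fintype K]
    [DecidableEq K] {A0 : Matrix K K ℝ} {p0 : (K → ℤ) → K → ℝ} {f : (K → ℤ) → ℂ} {B : ℝ}
    (hf : ∀ y, ‖f y‖ ≤ B) (W : Finset V) :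
    ∀ (L : Type) [Fintype L] [DecidableEq L] (C : Cf ι Δ M V L) (A : Matrix L L ℝ) (e : K → L),
      C.Ok T → (∀ l, T.lv (C.cd l) ≤ d) → A.PosDef → (∀ v, qq A v ≤ lam * qq (C.Gam T) v) →
      (∀ v ∈ W, Ort A fun l => C.Dv v (C.mo l)) → Function.Injective e →
      (∀ l, (∃ k, e k = l) ↔ ∀ v ∈ W, ¬ C.Dv v (C.mo l)) → (∀ k k', A0 k k' = A (e k) (e k')) →
      (∀ z k, p0 (z ∘ e) k = C.p T z (e k)) →
      ‖Ex A (C.p T) (fun z => f (z ∘ e)) - Ex A0 p0 f‖ ≤ W.card * (3 * √η * B) := by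
  classical
  induction W using Finset.induction_on with
  | empty =>
    intro L _ _ C A e _ _ _ _ _ he hr hA hp
    rw [Ex_equiv (Equiv.ofBijective e ⟨he, fun l => (hr l).2 (by simp)⟩) hA hp
      (f := fun z => f (z ∘ e)) fun _ => rfl]
    simp
  | insert v W hv ih =>
    intro L _ _ C A e hC hd hA hle ho he hr hA0 hp
    have h2 : ∀ k, ¬ C.Dv v (C.mo (e k)) := fun k => (hr _).1 ⟨k, rfl⟩ v (mem_insert_self _ _)
    have h3 := ih _ (C.sub fun l => ¬ C.Dv v (C.mo l)) (bk A _) (fun k => ⟨e k, h2 k⟩)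
      (hC.kill fun _ m h => h.add m) (fun l => hd _) (posDef_bk hA _)
      (fun x => by rw [Cf.Gam_sub, qq_bk, qq_bk]; exact hle _)
      (fun w hw i j hi hj => ho w (mem_insert_of_mem hw) _ _ hi hj)
      (fun k k' h => he (congrArg Subtype.val h))
      (fun l => ⟨fun ⟨k, hk⟩ w hw => (hr l).1 ⟨k, congrArg Subtype.val hk⟩ w (mem_insert_of_mem hw),
        fun h => ((hr l).2 fun w hw => (mem_insert.1 hw).elim (fun h4 => by rw [h4]; exact l.2)
          (h w)).imp fun k hk => Subtype.ext hk⟩) hA0 fun y k => by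
      have h4 := C.spl_kill T (I := C.Dv v) (fun _ m h => h.add m)
        (glue (X := fun _ => ℤ) (fun l => C.Dv v (C.mo l)) 0 y) ⟨e k, h2 k⟩
      rw [rs_glue_neg] at h4
      rw [← h4, ← hp]
      congr 1
      funext k'
      exact (glue_neg (X := fun _ => ℤ) (p := fun l => C.Dv v (C.mo l)) 0 y (h2 k')).symm
    have h4 := push_gen h hT hη hC hN hd hA h0 h1 hle v (ho v (mem_insert_self _ _))
      (f := fun y => f (y ∘ fun k => ⟨e k, h2 k⟩)) fun y => hf _
    rw [card_insert_of_notMem hv, Nat.cast_succ, add_mul, one_mul, add_comm]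
    exact (norm_sub_le_norm_sub_add_norm_sub _ _ _).trans (add_le_add h4 h3)

end

end Vale.Agent.P057ST
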