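import Vale.Agent.P057ST.Sb
import Vale.Agent.P057ST.Shr
import Mathlib.Algebra.MvPolynomial.Monad
import Mathlib.Data.Finsupp.Weight

/-! Free configurations given by homogeneous families of polynomials. -/

set_option linter.all false

open Matrix Finset
open Vale.Agent.P267.H775 Vale.Agent.P057G Vale.Agent.P057PC

namespace Vale.Agent.P057ST

noncomputable section

variable {ι V V' L L' : Type}

/-- polynomials with coefficients in the free algebra -/
abbrev Pl (ι V : Type) := MvPolynomial ι (Alg (Multiset V))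

/-- all terms satisfy `P` -/
def Sp (P : (ι →₀ ℕ) → Multiset V → Prop) (Q : Pl ι V) : Prop := ∀ β, Sup (P β) (Q.coeff β)

theorem Sup.mono {M : Type} [AddCommMonoid M] {P P' : M → Prop} {u : Alg M} (h : Sup P u)
    (h' : ∀ m, P m → P' m) : Sup P' u := fun m hm => h' m (h m hm)

theorem Sup.sub {M : Type} [AddCommMonoid M] {P : M → Prop} {u v : Alg M} (hu : Sup P u)
    (hv : Sup P v) : Sup P (u - v) := by rw [sub_eq_add_neg]; exact hu.add hv.neg

theorem Sp.add {P : (ι →₀ ℕ) → Multiset V → Prop} {Q Q' : Pl ι V} (h : Sp P Q) (h' : Sp P Q') :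
    Sp P (Q + Q') := fun β => by rw [MvPolynomial.coeff_add]; exact (h β).add (h' β)

theorem Sp.sub {P : (ι →₀ ℕ) → Multiset V → Prop} {Q Q' : Pl ι V} (h : Sp P Q) (h' : Sp P Q') :
    Sp P (Q - Q') := fun β => by rw [MvPolynomial.coeff_sub]; exact Sup.sub (h β) (h' β)

theorem Sp.sum {P : (ι →₀ ℕ) → Multiset V → Prop} {κ : Type*} (s : Finset κ) {Q : κ → Pl ι V}
    (h : ∀ i ∈ s, Sp P (Q i)) : Sp P (∑ i ∈ s, Q i) :=
  sum_induction Q (Sp P) (fun _ _ => Sp.add) (fun _ => Sup.zero _) h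

theorem Sp.C {P : (ι →₀ ℕ) → Multiset V → Prop} {u : Alg (Multiset V)} (h : Sup (P 0) u) :
    Sp P (MvPolynomial.C u) := fun β => by
  classical
  rw [MvPolynomial.coeff_C]
  split_ifs with h1
  exacts [h1 ▸ h, Sup.zero _]

theorem Sp.X {P : (ι →₀ ℕ) → Multiset V → Prop} {j : ι} (h : P (Finsupp.single j 1) 0) :
    Sp P (MvPolynomial.X j) := fun β => by
  classical
  rw [MvPolynomial.coeff_X']
  split_ifs with h1
  exacts [h1 ▸ Sup.single h 1, Sup.zero _]

theorem Sp.mul {P P' P'' : (ι →₀ ℕ) → Multiset V → Prop} {Q Q' : Pl ι V} (h : Sp P Q)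
    (h' : Sp P' Q') (hP : ∀ β m β' m', P β m → P' β' m' → P'' (β + β') (m + m')) :
    Sp P'' (Q * Q') := fun β => by
  classical
  rw [MvPolynomial.coeff_mul]
  refine Sup.sum _ fun x hx => (h _).mul (h' _) fun m m' h1 h2 => ?_
  rw [← mem_antidiagonal.1 hx]
  exact hP _ _ _ _ h1 h2

/-- joint homogeneity -/
def Hg (lv : ι → ℕ) (n : ℕ) (Q : Pl ι V) : Prop :=
  Sp (fun β m => Finsupp.weight lv β + m.card = n) Q

theorem Hg.mul {lv : ι → ℕ} {n n' : ℕ} {Q Q' : Pl ι V} (h : Hg lv n Q) (h' : Hg lv n' Q') :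
    Hg lv (n + n') (Q * Q') := Sp.mul h h' fun β m β' m' h1 h2 => by
  rw [map_add, Multiset.card_add]; omega

theorem Hg.bind {lv : ι → ℕ} {n : ℕ} {Q : Pl ι V} (h : Hg lv n Q) {f : ι → Pl ι V}
    (hf : ∀ j, Hg lv (lv j) (f j)) : Hg lv n (MvPolynomial.bind₁ f Q) := by
  classical
  have h1 : Hg lv 0 (1 : Pl ι V) := Sp.C (Sup.single (by simp) 1)
  have h2 : ∀ j k, Hg lv (k * lv j) (f j ^ k) := fun j k => by
    induction k with
    | zero => simpa using h1
    | succ k ih => rw [pow_succ, Nat.succ_mul]; exact ih.mul (hf j)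
  have h3 : ∀ (β : ι →₀ ℕ) (s : Finset ι), Hg lv (∑ j ∈ s, β j * lv j) (∏ j ∈ s, f j ^ β j) :=
    fun β s => by
      induction s using Finset.induction_on with
      | empty => simpa using h1
      | insert j s hj ih => rw [sum_insert hj, prod_insert hj]; exact (h2 j _).mul ih
  rw [MvPolynomial.as_sum Q, map_sum]
  refine Sp.sum _ fun β _ => ?_
  rw [MvPolynomial.bind₁_monomial]
  refine (Sp.C (P := fun γ m => γ = 0 ∧ Finsupp.weight lv β + m.card = n)
    (Sup.mono (h β) fun _ h => ⟨rfl, h⟩)).mul (h3 β β.support) fun β1 m β2 m' h4 h5 => ?_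
  have h6 : Finsupp.weight lv β = ∑ j ∈ β.support, β j * lv j := rfl
  rw [h4.1, zero_add, Multiset.card_add]
  omega

theorem Hg.eval {lv : ι → ℕ} {n : ℕ} {Q : Pl ι V} (h : Hg lv n Q) {x : ι → Alg (Multiset V)}
    (hx : ∀ j, Sup (fun m => m.card = lv j) (x j)) :
    Sup (fun m => m.card = n) (MvPolynomial.eval x Q) := by
  have h1 := h.bind (f := fun j => MvPolynomial.C (x j))
    (fun j => Sp.C (Sup.mono (hx j) fun m h => by simpa using h)) 0
  have h2 : MvPolynomial.bind₁ (fun j => (MvPolynomial.C (x j) : Pl ι V)) Q =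
      MvPolynomial.C (MvPolynomial.eval x Q) := by
    clear h h1
    induction Q using MvPolynomial.induction_on with
    | C a => simp
    | add p q hp hq => simp only [map_add, hp, hq]
    | mul_X p a hp => simp only [map_mul, hp, MvPolynomial.bind₁_X_right, MvPolynomial.eval_X]
  rw [h2, MvPolynomial.coeff_zero_C] at h1
  exact Sup.mono h1 fun m h => by simpa using h

/-- a homogeneous family with top part `q` -/
structure Fm (lv : ι → ℕ) (q : ι → MvPolynomial ι ℝ) (Q : ι → Pl ι V) : Prop where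
  hom : ∀ a, Hg lv (lv a) (Q a)
  top : ∀ a, Sp (fun _ m => 0 < m.card) (Q a - MvPolynomial.map (algebraMap ℝ _) (q a))

/-- a homomorphism that preserves degrees -/
def Grd (φ : Alg (Multiset V) →ₐ[ℝ] Alg (Multiset V')) : Prop :=
  ∀ m, Sup (fun m' => m'.card = m.card) (φ (AddMonoidAlgebra.single m 1))

theorem grd_sb [Fintype V'] (B : Matrix V V' ℝ) : Grd (sb B) := fun _ _ h => cf_card B h

theorem sup_hom {M M' : Type} [AddCommMonoid M] [AddCommMonoid M'] (φ : Alg M →ₐ[ℝ] Alg M')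
    {P : M → Prop} {P' : M' → Prop} (h : ∀ m, P m → Sup P' (φ (AddMonoidAlgebra.single m 1)))
    {u : Alg M} (hu : Sup P u) : Sup P' (φ u) := by
  rw [← AddMonoidAlgebra.sum_single u, Finsupp.sum, map_sum]
  refine Sup.sum _ fun m hm m' h1 => h m (hu m (Finsupp.mem_support_iff.1 hm)) m' fun h2 => h1 ?_
  rw [hom_single, h2, mul_zero]

theorem map_alg {A B : Type*} [CommRing A] [CommRing B] [Algebra ℝ A] [Algebra ℝ B]
    (φ : A →ₐ[ℝ] B) (q : MvPolynomial ι ℝ) :
    MvPolynomial.map φ.toRingHom (MvPolynomial.map (algebraMap ℝ A) q) =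
      MvPolynomial.map (algebraMap ℝ B) q := by
  rw [MvPolynomial.map_map]
  congr 2
  exact RingHom.ext fun r => φ.commutes r

variable {lv : ι → ℕ} {q : ι → MvPolynomial ι ℝ} {Q : ι → Pl ι V}

/-- the image of a family -/
def mp (φ : Alg (Multiset V) →ₐ[ℝ] Alg (Multiset V')) (Q : ι → Pl ι V) : ι → Pl ι V' :=
  fun a => MvPolynomial.map φ.toRingHom (Q a)

theorem mp_mp {V'' : Type} (φ : Alg (Multiset V) →ₐ[ℝ] Alg (Multiset V'))
    (ψ : Alg (Multiset V') →ₐ[ℝ] Alg (Multiset V'')) (Q : ι → Pl ι V) :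
    mp ψ (mp φ Q) = mp (ψ.comp φ) Q := funext fun a => MvPolynomial.map_map _ _ _

theorem mp_id (Q : ι → Pl ι V) : mp (AlgHom.id ℝ _) Q = Q := funext fun a => MvPolynomial.map_id _

theorem eval_mp (φ : Alg (Multiset V) →ₐ[ℝ] Alg (Multiset V')) (Q : ι → Pl ι V)
    (x : ι → Alg (Multiset V)) (a : ι) :
    MvPolynomial.eval (fun j => φ (x j)) (mp φ Q a) = φ (MvPolynomial.eval x (Q a)) :=
  (hom_eval_map φ x (Q a)).symm

theorem Fm.mp (h : Fm lv q Q) {φ : Alg (Multiset V) →ₐ[ℝ] Alg (Multiset V')} (hφ : Grd φ) :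
    Fm lv q (mp φ Q) := by
  refine ⟨fun a β => ?_, fun a β => ?_⟩
  · rw [P057ST.mp, MvPolynomial.coeff_map]
    exact sup_hom φ (fun m h1 => Sup.mono (hφ m) fun m' h2 => by simpa only [h2] using h1)
      (h.hom a β)
  · rw [P057ST.mp, ← map_alg φ, ← map_sub, MvPolynomial.coeff_map]
    exact sup_hom φ (fun m h1 => Sup.mono (hφ m) fun m' h2 => by simpa only [h2] using h1)
      (h.top a β)

/-- a shift of the point and of the values -/
def sft (ρ ρ' : ι → Alg (Multiset V)) (Q : ι → Pl ι V) : ι → Pl ι V := fun a =>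
  MvPolynomial.bind₁ (fun j => MvPolynomial.C (ρ j) + MvPolynomial.X j) (Q a) - MvPolynomial.C (ρ' a)

theorem eval_sft (ρ ρ' : ι → Alg (Multiset V)) (Q : ι → Pl ι V) (x : ι → Alg (Multiset V)) (a : ι) :
    MvPolynomial.eval x (sft ρ ρ' Q a) = MvPolynomial.eval (ρ + x) (Q a) - ρ' a := by
  rw [sft, map_sub, MvPolynomial.eval_C]
  congr 1
  refine (MvPolynomial.eval₂Hom_bind₁ _ _ _ _).trans ?_
  simp only [map_add, MvPolynomial.eval₂Hom_C, MvPolynomial.eval₂Hom_X', RingHom.id_apply]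
  rfl

theorem mp_sft (φ : Alg (Multiset V) →ₐ[ℝ] Alg (Multiset V')) (ρ ρ' : ι → Alg (Multiset V))
    (Q : ι → Pl ι V) : mp φ (sft ρ ρ' Q) = sft (fun j => φ (ρ j)) (fun j => φ (ρ' j)) (mp φ Q) := by
  funext a
  simp only [mp, sft, map_sub, MvPolynomial.map_bind₁, map_add, MvPolynomial.map_C,
    MvPolynomial.map_X]
  rfl

theorem Fm.sft (h : Fm lv q Q) (hp : ∀ a, 0 < lv a) {ρ ρ' : ι → Alg (Multiset V)}
    (h1 : ∀ j, Sup (fun m => m.card = lv j) (ρ j)) (h2 : ∀ j, Sup (fun m => m.card = lv j) (ρ' j)) :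
    Fm lv q (sft ρ ρ' Q) := by
  refine ⟨fun a => Sp.sub ((h.hom a).bind fun j => Sp.add (Sp.C (Sup.mono (h1 j) fun m h => by
    simpa using h)) (Sp.X (by simp [Finsupp.weight_single]))) (Sp.C (Sup.mono (h2 a) fun m h => by
      simpa using h)), fun a => ?_⟩
  have key : ∀ R : Pl ι V, Sp (fun _ m => 0 < m.card)
      (MvPolynomial.bind₁ (fun j => MvPolynomial.C (ρ j) + MvPolynomial.X j) R - R) := fun R => by
    induction R using MvPolynomial.induction_on with
    | C a => rw [MvPolynomial.bind₁_C_right, sub_self]; exact fun _ => Sup.zero _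
    | add p q hp hq => convert hp.add hq using 1; rw [map_add]; ring
    | mul_X p j ih =>
      have a1 := ih.mul (P' := fun _ _ => True) (Q' := MvPolynomial.C (ρ j) + MvPolynomial.X j)
        (P'' := fun _ m => 0 < m.card) (fun _ _ _ => trivial) fun _ _ _ _ h _ => by
          rw [Multiset.card_add]; omega
      have a2 := (Sp.C (P := fun _ m => 0 < m.card) (Sup.mono (h1 j) fun m h => h ▸ hp j)).mul
        (P' := fun _ _ => True) (Q' := p) (P'' := fun _ m => 0 < m.card) (fun _ _ _ => trivial)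
        fun _ _ _ _ h _ => by rw [Multiset.card_add]; omega
      convert a1.add a2 using 1
      rw [map_mul, MvPolynomial.bind₁_X_right]; ring
  convert ((key (Q a)).add (h.top a)).sub (Sp.C (P := fun _ m => 0 < m.card)
    (Sup.mono (h2 a) fun m h => h ▸ hp a)) using 1
  rw [P057ST.sft]; ring

/-- the labels: all monomials of the right degree in a down-closed family -/
structure Lab (lv : ι → ℕ) (cd : L → ι) (mo : L → Multiset V) (K : Multiset V → Prop) : Prop where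
  inj : ∀ l l', cd l = cd l' → mo l = mo l' → l = l'
  deg : ∀ l, (mo l).card = lv (cd l)
  mem : ∀ l, K (mo l)
  sur : ∀ a m, m.card = lv a → K m → ∃ l, cd l = a ∧ mo l = m
  dc : ∀ m m', K (m + m') → K m

/-- the free configuration -/
def fcf (q : ι → MvPolynomial ι ℝ) (cd : L → ι) (mo : L → Multiset V) (Q : ι → Pl ι V) :
    Cf ι Unit (Multiset V) V L where
  dg := Multiset.cardHom
  y v := {v}
  cl _ := ()
  cd := cd
  mo := mo
  R a := Q a - MvPolynomial.map (algebraMap ℝ _) (q a)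
  ce := 0

variable {cd : L → ι} {mo : L → Multiset V} {K : Multiset V → Prop} {T : Tw ι Unit}
  {cd' : L' → ι} {mo' : L' → Multiset V'} {K' : Multiset V' → Prop}

theorem ys_fcf (s : Multiset V) : (fcf q cd mo Q).ys s = s := Multiset.sum_map_singleton s

theorem dv_fcf {v : V} {m : Multiset V} : (fcf q cd mo Q).Dv v m ↔ v ∈ m :=
  ⟨fun ⟨m', h⟩ => h ▸ Multiset.mem_cons_self v m', fun h => Multiset.exists_cons_of_mem h⟩

theorem ok_fcf (hT : T.Ok) (hal : ∀ a s, T.al a s ↔ s.card = T.lv a) (hL : Lab T.lv cd mo K)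
    (hQ : Fm T.lv T.q Q) : (fcf T.q cd mo Q).Ok T := by
  refine ⟨fun _ => rfl, fun m _ => ⟨m, by rw [ys_fcf]⟩, hL.inj, fun l => ⟨mo l, (ys_fcf _).symm⟩,
    fun l s h => ?_, fun l s m a h1 h2 => ?_, fun a j hj => ?_, hQ.top⟩
  · rw [ys_fcf] at h
    rw [hal, Multiset.card_map, ← h]; exact hL.deg l
  · rw [ys_fcf] at h1 ⊢
    exact hL.sur a s (by simpa using (hal _ _).1 h2) (hL.dc s m (h1 ▸ hL.mem l))
  · classical
    obtain ⟨β, hβ, hj⟩ := (MvPolynomial.mem_vars j).1 hj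
    obtain ⟨m, hm⟩ : ∃ m, (((fcf T.q cd mo Q).R a).coeff β).coeff m ≠ 0 := by
      by_contra h
      push Not at h
      exact MvPolynomial.mem_support_iff.1 hβ (AddMonoidAlgebra.ext (Finsupp.ext h))
    have h1 := hQ.top a β m hm
    have h2 : ((Q a).coeff β).coeff m ≠ 0 := fun h => hm (by
      have h3 : m ≠ 0 := fun h4 => by simp [h4] at h1
      simp [fcf, h, MvPolynomial.coeff_map, Finsupp.single_apply, h3.symm])
    have h3 := hQ.hom a β m h2
    have h4 := Finsupp.le_weight_of_ne_zero' (w := T.lv) (Finsupp.mem_support_iff.1 hj)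
    omega

/-- the weighted Gram matrix of the labels -/
def Gm (T : Tw ι Unit) (cd : L → ι) (mo : L → Multiset V) (ω : Multiset V → ℝ) : Matrix L L ℝ :=
  Gw T (fcf 0 cd mo 0) ω

variable [Fintype L] [Fintype L']

/-- the point with given coefficients -/
def pt0 (cd : L → ι) (mo : L → Multiset V) (x : L → ℝ) : ι → Alg (Multiset V) :=
  (fcf 0 cd mo 0).pt x

/-- the centres, real arguments -/
def pr0 (cd : L → ι) (mo : L → Multiset V) (Q : ι → Pl ι V) (x : L → ℝ) (l : L) : ℝ :=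
  (MvPolynomial.eval (pt0 cd mo x) (Q (cd l))).coeff (mo l)

/-- the centres -/
def p0 (cd : L → ι) (mo : L → Multiset V) (Q : ι → Pl ι V) (z : L → ℤ) : L → ℝ :=
  pr0 cd mo Q (toR z)

theorem pr_fcf : (fcf T.q cd mo Q).pr T = pr0 cd mo Q := by
  funext x l
  rw [Cf.pr, Cf.val_eq]
  simp only [fcf, add_sub_cancel, Pi.zero_apply, add_zero]
  rfl

theorem p_fcf : (fcf T.q cd mo Q).p T = p0 cd mo Q := by
  funext z; rw [Cf.p, pr_fcf]; rfl

theorem Lab.coeff (h : Lab lv cd mo K) (x : L → ℝ) (l : L) :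
    (pt0 cd mo x (cd l)).coeff (mo l) = x l := coeff_pt_of_inj (fcf 0 cd mo 0) h.inj x l

theorem Lab.sup (h : Lab lv cd mo K) (x : L → ℝ) (a : ι) :
    Sup (fun m => m.card = lv a ∧ K m) (pt0 cd mo x a) := by
  refine Sup.sum _ fun l _ => ?_
  split_ifs with h1
  exacts [Sup.single ⟨h1 ▸ h.deg l, h.mem l⟩ _, Sup.zero _]

theorem pt0_add (x y : L → ℝ) : pt0 cd mo (x + y) = pt0 cd mo x + pt0 cd mo y := by
  funext a
  have := (fcf 0 cd mo 0).pt_diff (x + y) y a
  rw [add_sub_cancel_right, sub_eq_iff_eq_add] at this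
  exact this

theorem pt0_zero : pt0 cd mo 0 = 0 := by
  funext a
  have := (fcf 0 cd mo 0).pt_diff 0 0 a
  rw [sub_self, sub_self] at this
  exact this.symm

theorem hm_pt0 {A : Type*} [CommRing A] [Algebra ℝ A] [DecidableEq ι] (g : V → A) (x : L → ℝ)
    (a : ι) : hm g (pt0 cd mo x a) = ∑ l, if cd l = a then x l • ((mo l).map g).prod else 0 := by
  unfold pt0 Cf.pt
  rw [map_sum]
  refine sum_congr rfl fun l _ => ?_
  by_cases h : cd l = a
  · rw [if_pos h, if_pos (show (fcf 0 cd mo 0).cd l = a from h), hm_single]; rfl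
  · rw [if_neg h, if_neg (show ¬ (fcf 0 cd mo 0).cd l = a from h), map_zero]

/-- a change of the constant terms moves the centres -/
theorem pr0_sft (Q : ι → Pl ι V) (u : ι → Alg (Multiset V)) (x : L → ℝ) :
    pr0 cd mo (sft 0 u Q) x = pr0 cd mo Q x - fun l => (u (cd l)).coeff (mo l) := by
  funext l
  simp [pr0, eval_sft]

theorem Lab.p0_add (h : Lab lv cd mo K) (Q : ι → Pl ι V) (c : L → ℝ) :
    p0 cd mo (sft 0 (pt0 cd mo (-c)) Q) = fun z => p0 cd mo Q z + c := by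
  funext z l
  simp [p0, pr0_sft, h.coeff]

theorem mp_fcf (hL : Lab lv cd mo K) (hL' : Lab lv cd' mo' K')
    {φ : Alg (Multiset V) →ₐ[ℝ] Alg (Multiset V')} (hφ : Grd φ)
    (hK : ∀ m, ¬ K m → Sup (fun m' => ¬ K' m') (φ (AddMonoidAlgebra.single m 1))) :
    Mp φ (fcf q cd mo Q) (fcf q cd' mo' (mp φ Q)) fun m' => ¬ K' m' := by
  refine ⟨hL.inj, hL'.inj, fun m m' h h1 => h (hL'.dc _ _ h1), fun l h => h (hL'.mem l),
    fun l m h => hL.sur _ _ ((hφ m _ h).symm.trans (hL'.deg l))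
      (by_contra fun h1 => hK m h1 _ h (hL'.mem l)), fun l m h => ?_, fun a β => ?_⟩
  · by_cases h1 : K' m
    · exact Or.inr (hL'.sur _ _ ((hφ _ _ h).trans (hL.deg l)) h1)
    · exact Or.inl h1
  · have : ((fcf q cd' mo' (mp φ Q)).R a).coeff β = φ (((fcf q cd mo Q).R a).coeff β) := by
      change MvPolynomial.coeff β (MvPolynomial.map φ.toRingHom (Q a) - _) = _
      rw [← map_alg φ, ← map_sub, MvPolynomial.coeff_map]; rfl
    rw [this, sub_self]; exact Sup.zero _

/-- the matrix of a homomorphism on the labels -/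
def SM0 (φ : Alg (Multiset V) →ₐ[ℝ] Alg (Multiset V')) (cd : L → ι) (mo : L → Multiset V)
    (cd' : L' → ι) (mo' : L' → Multiset V') : Matrix L' L ℝ :=
  SM φ (fcf 0 cd mo 0) (fcf 0 cd' mo' 0)

theorem pr0_mp (hL : Lab lv cd mo K) (hL' : Lab lv cd' mo' K')
    {φ : Alg (Multiset V) →ₐ[ℝ] Alg (Multiset V')} (hφ : Grd φ)
    (hK : ∀ m, ¬ K m → Sup (fun m' => ¬ K' m') (φ (AddMonoidAlgebra.single m 1))) (x : L → ℝ) :
    pr0 cd' mo' (mp φ Q) (SM0 φ cd mo cd' mo' *ᵥ x) = SM0 φ cd mo cd' mo' *ᵥ pr0 cd mo Q x := by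
  have := (mp_fcf (q := 0) (Q := Q) hL hL' hφ hK).pr ⟨lv, 0, 0, fun _ _ => True⟩
    (by exact (mulVec_zero _).symm) x
  rw [pr_fcf (T := ⟨lv, 0, 0, fun _ _ => True⟩), pr_fcf (T := ⟨lv, 0, 0, fun _ _ => True⟩)] at this
  exact this

theorem SM0_coeff (hL : Lab lv cd mo K) (hL' : Lab lv cd' mo' K')
    {φ : Alg (Multiset V) →ₐ[ℝ] Alg (Multiset V')} (hφ : Grd φ)
    (hK : ∀ m, ¬ K m → Sup (fun m' => ¬ K' m') (φ (AddMonoidAlgebra.single m 1))) (x : L → ℝ)
    (l' : L') : (SM0 φ cd mo cd' mo' *ᵥ x) l' = (φ (pt0 cd mo x (cd' l'))).coeff (mo' l') := by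
  have := (mp_fcf (q := 0) (Q := 0) hL hL' hφ hK).coeff (pt0 cd mo x) l'
  rw [show (fun l => (pt0 cd mo x ((fcf 0 cd mo 0).cd l)).coeff ((fcf 0 cd mo 0).mo l)) = x from
    funext (hL.coeff x)] at this
  exact this.symm

/-- selection of generators -/
theorem SM0_sel [DecidableEq V] [Fintype V'] {j : V' → V} (hj : Function.Injective j)
    (hL : Lab lv cd mo K) {e : L' → L} (h1 : ∀ l, cd (e l) = cd' l)
    (h2 : ∀ l, mo (e l) = (mo' l).map j) (x : L → ℝ) : SM0 (sb (sel j)) cd mo cd' mo' *ᵥ x = x ∘ e := by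
  classical
  funext l'
  have h3 : ∀ l, SM0 (sb (sel j)) cd mo cd' mo' l' l = if l = e l' then 1 else 0 := fun l => by
    change (if cd l = cd' l' then cf (sel j) (mo l) (mo' l') else 0) = _
    rw [cf_sel hj, ← h1, ← h2]
    by_cases h : l = e l'
    · simp [h]
    · rw [if_neg h]
      split_ifs with h4 h5
      exacts [(h (hL.inj _ _ h4 h5)).elim, rfl, rfl]
  simp [mulVec, dotProduct, h3]

theorem p0_sel [DecidableEq V] [Fintype V'] {j : V' → V} (hj : Function.Injective j)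
    (hL : Lab lv cd mo K) (hL' : Lab lv cd' mo' K') (hK : ∀ m, K' m → K (m.map j)) {e : L' → L}
    (h1 : ∀ l, cd (e l) = cd' l) (h2 : ∀ l, mo (e l) = (mo' l).map j) (x : L → ℝ) (l : L') :
    pr0 cd' mo' (mp (sb (sel j)) Q) (x ∘ e) l = pr0 cd mo Q x (e l) := by
  classical
  have := pr0_mp (Q := Q) hL hL' (grd_sb (sel j)) (fun m hm m' h h3 => by
    change cf (sel j) m m' ≠ 0 at h
    rw [cf_sel hj] at h
    split_ifs at h with h4
    exacts [hm (h4 ▸ hK _ h3), h rfl]) x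
  rw [SM0_sel hj hL h1 h2, SM0_sel hj hL h1 h2] at this
  exact congrFun this l

end

end Vale.Agent.P057ST
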