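import Vale.Agent.P057ST.St

/-! The data of the progression and the input family. -/

set_option linter.all false

open Matrix Finset Function
open Vale.Agent.P267.H775 Vale.Agent.P057G Vale.Agent.P057PC Vale.Agent.P057TP

namespace Vale.Agent.P057ST

noncomputable section

variable {s : ℕ}

/-- the coefficients of the linear forms -/
def cc (sc : Fin (s + 2) → ℤ) (i j : Fin (s + 2)) : ℤ := (((i : ℕ) : ℤ) - (j : ℕ)) * sc j

/-- the narrowest class seen by a slot -/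
def ww (i : Fin (s + 2)) : Fin (s + 2) := if i = Fin.last _ then 0 else Fin.last _

theorem ww_ne (i : Fin (s + 2)) : ww i ≠ i := by
  unfold ww
  split_ifs with h
  exacts [h ▸ (Fin.last_pos).ne, Ne.symm h]

structure Ap (sc : Fin (s + 2) → ℤ) (D : ℤ) : Prop where
  ne : ∀ j, sc j ≠ 0
  dv : ∀ i j, cc sc i (ww i) ∣ cc sc i j
  d0 : D ≠ 0
  dD : ∀ i j, i ≠ j → cc sc i j ∣ D

theorem cc_self (sc : Fin (s + 2) → ℤ) (i : Fin (s + 2)) : cc sc i i = 0 := by simp [cc]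

theorem cc_ne {sc : Fin (s + 2) → ℤ} (h : ∀ j, sc j ≠ 0) {i j : Fin (s + 2)} (hij : i ≠ j) :
    cc sc i j ≠ 0 := mul_ne_zero (fun h => hij (Fin.ext (by omega))) (h j)

theorem exists_ap (s : ℕ) : ∃ (sc : Fin (s + 2) → ℤ) (D : ℤ), Ap sc D := by
  obtain ⟨F, F0, hF⟩ : ∃ F : ℤ, F ≠ 0 ∧ ∀ i j : Fin (s + 2), i ≠ j → ((i : ℕ) : ℤ) - (j : ℕ) ∣ F :=
    ⟨∏ x ∈ (univ : Finset (Fin (s + 2))).offDiag, (((x.1 : ℕ) : ℤ) - (x.2 : ℕ)), prod_ne_zero_iff.2 fun x hx h =>
      (mem_offDiag.1 hx).2.2 (Fin.ext (by omega)), fun i j h =>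
        dvd_prod_of_mem (a := (i, j)) _ (mem_offDiag.2 ⟨mem_univ _, mem_univ _, h⟩)⟩
  have l0 : (0 : Fin (s + 2)) ≠ Fin.last _ := Fin.last_pos.ne
  refine ⟨fun j => if j = Fin.last _ then 1 else if j = 0 then F else F * F, F * (F * F),
    fun j => ?_, fun i j => ?_, by simp [F0], fun i j h => mul_dvd_mul (hF i j h) ?_⟩
  · split_ifs <;> simp [F0]
  · by_cases h : j = ww i
    · rw [h]
    by_cases h1 : i = Fin.last _
    · by_cases h2 : j = i
      · rw [h2, cc_self]; exact dvd_zero _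
      rw [ww, if_pos h1] at h ⊢
      simp only [cc, if_neg l0, if_true, if_neg h, if_neg (h1 ▸ h2)]
      exact (mul_dvd_mul_right (hF _ _ (h1 ▸ l0.symm)) F).mul_left _
    · rw [ww, if_neg h1] at h ⊢
      simp only [cc, if_true, if_neg h, mul_one]
      refine ((hF _ _ h1).trans ?_).mul_left _
      split_ifs <;> simp
  · beta_reduce; split_ifs <;> simp

theorem Ap.le {sc : Fin (s + 2) → ℤ} {D : ℤ} (h : Ap sc D) (i j : Fin (s + 2)) :
    |cc sc i j| ≤ |D| := by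
  by_cases h1 : i = j
  · rw [h1, cc_self]; simp
  · exact Int.le_of_dvd (abs_pos.2 h.d0) ((abs_dvd_abs _ _).2 (h.dD i j h1))

theorem Ap.tau {sc : Fin (s + 2) → ℤ} {D : ℤ} (h : Ap sc D) :
    ∃ τ : Fin (s + 2) → ℝ, ∀ i, ∑ j, τ j * cc sc i j = 1 := by
  refine ⟨vecCons (sc 0 : ℝ)⁻¹ (vecCons (-(sc 1 : ℝ)⁻¹) 0), fun i => ?_⟩
  have h0 : (sc 0 : ℝ) ≠ 0 := by exact_mod_cast h.ne 0
  have h1 : (sc 1 : ℝ) ≠ 0 := by exact_mod_cast h.ne 1
  simp [Fin.sum_univ_succ, cc]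
  field_simp
  ring

theorem exists_mu (s : ℕ) {m ρ : ℝ} (m0 : 0 < m) (r0 : 0 < ρ) (r1 : ρ ≤ 1) :
    ∃ μ : Fin (s + 2) → ℝ, (∀ j, m ≤ μ j) ∧ (∀ j, μ j ≤ m / ρ ^ 2) ∧
      ∀ i j, j ≠ ww i → j ≠ i → μ (ww i) ≤ ρ * μ j := by
  have h1 : m ≤ m / ρ := le_div_self m0.le r0 r1
  have h2 : m / ρ ≤ m / ρ ^ 2 := by rw [sq, ← div_div]; exact le_div_self (by positivity) r0 r1
  have h3 : ρ * (m / ρ) = m := by field_simp
  have h4 : ρ * (m / ρ ^ 2) = m / ρ := by field_simp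
  have l0 : (0 : Fin (s + 2)) ≠ Fin.last _ := Fin.last_pos.ne
  refine ⟨fun j => if j = Fin.last _ then m else if j = 0 then m / ρ else m / ρ ^ 2,
    fun j => ?_, fun j => ?_, fun i j a1 a2 => ?_⟩
  · beta_reduce; split_ifs <;> linarith
  · beta_reduce; split_ifs <;> linarith
  · by_cases h : i = Fin.last _
    · rw [ww, if_pos h] at a1 ⊢
      simp only [if_neg l0, if_true, if_neg a1, if_neg (h ▸ a2), h4, le_refl]
    · rw [ww, if_neg h] at a1 ⊢
      simp only [if_true, if_neg a1]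
      split_ifs <;> linarith

theorem apf_zero {A : Finset ℤ} (h : APF (s + 2) A) (a u : ℤ)
    (h1 : ∀ i : Fin (s + 2), ind A (a + (i : ℕ) * u) ≠ 0) : u = 0 := by
  have h2 : ∀ i : ℕ, i < s + 2 → a + i * u ∈ A := fun i hi =>
    by_contra fun h3 => h1 ⟨i, hi⟩ (if_neg h3)
  rcases lt_trichotomy u 0 with h3 | h3 | h3
  · refine (h (a + (s + 1) * u) (-u) (by omega) fun i hi => ?_).elim
    convert h2 (s + 1 - i) (by omega) using 1
    rw [Nat.cast_sub (by omega)]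
    push_cast; ring
  · exact h3
  · exact (h a u h3 h2).elim

theorem exists_fm {T : Tow} {N : ℝ} (hT : T.Ok s N) {Z : Sys T (Fin 0) Unit} (hZ : Z.Ok) :
    ∃ Q : T.ι → Pl T.ι Unit, Fm T.lv T.q Q ∧ p0 id (mo1 T.lv) Q =
      fun y a => MvPolynomial.eval (toR y) (Z.fam.at' (some ()) ∅ a) := by
  classical
  obtain ⟨φ, hφ⟩ : ∃ φ : Lam ℝ (Fin 0) →ₐ[ℝ] Alg (Multiset Unit),
      φ = MvPolynomial.aeval fun _ => AddMonoidAlgebra.single {()} 1 := ⟨_, rfl⟩
  have h1 : ∀ μ r, φ (MvPolynomial.monomial μ r) =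
      AddMonoidAlgebra.single (Multiset.replicate (Finsupp.degree μ) ()) r := fun μ r => by
    rw [hφ, MvPolynomial.aeval_monomial, Finsupp.prod, prod_pow_eq_pow_sum,
      AddMonoidAlgebra.single_pow, one_pow, Multiset.nsmul_singleton, ← Algebra.smul_def,
      AddMonoidAlgebra.smul_single, smul_eq_mul, mul_one]
    rfl
  have h2 : ∀ u (P : Multiset Unit → Prop), (∀ μ, MvPolynomial.coeff μ u ≠ 0 →
      P (Multiset.replicate (Finsupp.degree μ) ())) → Sup P (φ u) := fun u P h => by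
    rw [MvPolynomial.as_sum u, map_sum]
    exact Sup.sum _ fun μ hμ => h1 _ _ ▸ Sup.single (h μ (MvPolynomial.mem_support_iff.1 hμ)) _
  have hQ : Fm T.lv T.q fun a => MvPolynomial.map φ.toRingHom (Z.fam.fn (some ()) a) := by
    refine ⟨fun a β => ?_, fun a β => ?_⟩
    · rw [MvPolynomial.coeff_map]
      exact h2 _ _ fun μ h => by simpa using hZ.fam.hom _ a β μ h
    · rw [← map_alg φ, ← map_sub, MvPolynomial.coeff_map, ← hZ.top, ← P057GH.top_eq hZ.fam (some ())]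
      refine h2 _ _ fun μ h => ?_
      beta_reduce
      rw [Multiset.card_replicate, Nat.pos_iff_ne_zero, Ne, Finsupp.degree_eq_zero_iff]
      rintro rfl
      exact h (by simp [MvPolynomial.coeff_map, MvPolynomial.constantCoeff_eq])
  refine ⟨_, hQ, funext fun y => funext fun a => ?_⟩
  have h3 := lab1.ev_coef (lab1.sup_eval hQ (toR y)) (c := fun _ => 1) (fun _ h => (h trivial).elim) a
  rw [ev1, one_pow, one_mul, hom_eval_map, MvPolynomial.map_map] at h3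
  refine h3.trans ?_
  congr 2
  · funext b
    exact (ev1 1 (toR y) b).trans (by simp)
  · refine congrArg _ (MvPolynomial.ringHom_ext (fun r => ?_) fun x => ?_)
    · simp [evA, hm_single]
    · rcases x with _ | x
      exacts [by simp [evA, hφ, hm_single], x.elim0]

theorem G_eq {T : Tow} {N : ℝ} (hT : T.Ok s N) :
    Gm T.tw id (mo1 T.lv) (wt fun _ => 1) = T.G := by
  ext a b
  rw [Gm_apply, wt_one, one_mul]
  split_ifs with h
  exacts [rfl, (hT.blk a b fun h1 => h (by rw [mo1, mo1, h1])).symm]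

end

end Vale.Agent.P057ST
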