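import Vale.Agent.P057ST.Cos

/-! The average of the densities on the subcells, and a good common centre. -/

set_option linter.all false

open MeasureTheory Matrix Finset
open scoped Real
open Vale.Agent.P267.H775 Vale.Agent.P057G Vale.Agent.P057PC

namespace Vale.Agent.P057ST

noncomputable section

variable {L : Type*} [Fintype L] [DecidableEq L]

theorem exists_sq {A H : Matrix L L ℝ} (hA : A.PosDef) (hH : H.PosDef) (u b : L → ℝ) :
    ∃ s, ∀ y, qq A (u - y) + qq H (y - b) ≤ qq (A + H) (y - s) + qq A (u - b) := by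
  have hS := hA.add hH
  refine ⟨(A + H)⁻¹ *ᵥ (A *ᵥ u + H *ᵥ b), fun y => ?_⟩
  have key : ∀ y, qq A (u - y) + qq H (y - b) = qq (A + H) (y - (A + H)⁻¹ *ᵥ (A *ᵥ u + H *ᵥ b)) +
      (qq A u + qq H b - qq (A + H)⁻¹ (A *ᵥ u + H *ᵥ b)) := fun y => by
    have h1 := sq_lin hS y (A *ᵥ u + H *ᵥ b)
    rw [qq_add_mat, dotProduct_add] at h1
    rw [qq_sub hA.1, qq_sub hH.1, bb_comm hA.1]
    unfold bb
    linarith
  have h1 := key b
  rw [sub_self, qq_zero] at h1
  have h2 := qq_nonneg hS.posSemidef (b - (A + H)⁻¹ *ᵥ (A *ᵥ u + H *ᵥ b))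
  rw [key y]
  linarith

theorem vol_wide {c e : ℝ} (h0 : 0 ≤ e) (h1 : e ≤ 1 / 2) (hc : 1 - e ≤ c) (hc' : c ≤ 1 + e)
    {G : Matrix L L ℝ} (hG : G.PosDef) :
    (1 - 2 * e * Fintype.card L) * vol (c • G) ≤ vol G ∧
      (1 - 2 * e * Fintype.card L) * vol G ≤ vol (c • G) := by
  have h2 := vol_ratio hG h0 h1
  have ha : ((1 - e) • G).PosDef := hG.smul (by linarith)
  have hb : ((1 + e) • G).PosDef := hG.smul (by linarith)
  have hcG : (c • G).PosDef := hG.smul (by linarith)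
  have q := qq_nonneg hG.posSemidef
  have a1 := vol_anti ha hcG fun x => by rw [qq_smul_mat, qq_smul_mat]; nlinarith [q x]
  have a2 := vol_anti hcG hb fun x => by rw [qq_smul_mat, qq_smul_mat]; nlinarith [q x]
  have a3 := vol_anti ha hG fun x => by rw [qq_smul_mat]; nlinarith [q x]
  have a4 := vol_anti hG hb fun x => by rw [qq_smul_mat]; nlinarith [q x]
  have p1 := vol_pos hG
  have p2 := vol_pos hcG
  by_cases h : 0 ≤ 1 - 2 * e * Fintype.card L
  · constructor <;> nlinarith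
  · constructor <;> nlinarith

theorem qq_sub_le {G : Matrix L L ℝ} (hG : G.PosDef) {e : ℝ} (h0 : 0 < e) (h1 : e ≤ 1)
    (u β : L → ℝ) : (1 - e) * qq G (u - β) ≤ qq G u + qq G β / e := by
  have h2 := qq_nonneg hG.posSemidef (e • u + β)
  rw [qq_add hG.1, qq_smul] at h2
  have h3 : bb G (e • u) β = e * bb G u β := by simp [bb]
  have h4 := qq_nonneg hG.posSemidef u
  have h5 := qq_nonneg hG.posSemidef β
  rw [qq_sub hG.1, ← sub_nonneg]
  have h6 : qq G u + qq G β / e - (1 - e) * (qq G u - 2 * bb G u β + qq G β) =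
      ((1 - e) * (e ^ 2 * qq G u + 2 * (e * bb G u β) + qq G β) + e ^ 3 * qq G u +
        e ^ 2 * qq G β) / e := by field_simp; ring
  rw [h6]
  rw [h3] at h2
  have : 0 ≤ 1 - e := by linarith
  positivity

theorem ng_wide {G : Matrix L L ℝ} (hG : G.PosDef) {e : ℝ} (h0 : 0 < e) (h1 : e ≤ 1 / 2)
    (hc : 2 * e * Fintype.card L ≤ 1) (u β : L → ℝ) :
    (1 - 2 * e * Fintype.card L) * (1 - 4 * (qq G β / e)) * ng G u ≤ ng ((1 - e) • G) (u - β) := by
  have ha : ((1 - e) • G).PosDef := hG.smul (by linarith)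
  have h2 := (vol_wide h0.le h1 le_rfl (by linarith) hG).1
  have h3 : (1 - 4 * (qq G β / e)) * gs G u ≤ gs ((1 - e) • G) (u - β) := by
    have h4 := qq_sub_le hG h0 (by linarith) u β
    have h5 : 0 ≤ qq G β / e := div_nonneg (qq_nonneg hG.posSemidef β) h0.le
    have h6 := Real.add_one_le_exp (-(π * (qq G β / e)))
    have h7 := Real.pi_le_four
    calc _ ≤ Real.exp (-(π * (qq G β / e))) * gs G u :=
          mul_le_mul_of_nonneg_right (by nlinarith) (gs_pos _ _).le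
      _ ≤ _ := by
          unfold gs
          rw [← Real.exp_add, qq_smul_mat]
          exact Real.exp_le_exp.2 (by nlinarith [Real.pi_pos])
  unfold ng
  rw [← mul_div_assoc, div_le_div_iff₀ (vol_pos hG) (vol_pos ha)]
  have h4 := mul_le_mul h3 h2 (mul_nonneg (by linarith) (vol_pos ha).le) (gs_pos _ _).le
  linarith

theorem ng_conv {A H : Matrix L L ℝ} (hA : A.PosDef) (hH : H.PosDef) {c1 : ℝ} (c0 : 0 ≤ c1)
    (v1 : c1 * vol H ≤ vol (A + H)) (u b : L → ℝ) :
    ∃ c, ∀ x, c1 * ng A (u - b) * ng (A + H) (x - c) ≤ ng A (u - x) * ng H (x - b) := by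
  obtain ⟨c, hc2⟩ := exists_sq hA hH u b
  refine ⟨c, fun x => ?_⟩
  have g1 : gs A (u - b) * gs (A + H) (x - c) ≤ gs A (u - x) * gs H (x - b) := by
    unfold gs
    rw [← Real.exp_add, ← Real.exp_add]
    exact Real.exp_le_exp.2 (by nlinarith [hc2 x, Real.pi_pos])
  have p1 := vol_pos hA
  have p2 := vol_pos hH
  have p3 := vol_pos (hA.add hH)
  unfold ng
  rw [mul_assoc, div_mul_div_comm, div_mul_div_comm, ← mul_div_assoc,
    div_le_div_iff₀ (by positivity) (by positivity)]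
  have := mul_le_mul_of_nonneg_left
    (mul_le_mul g1 v1 (by positivity) (mul_pos (gs_pos _ _) (gs_pos _ _)).le) p1.le
  linarith

theorem ng_undil {d : L → ℤ} (hd : ∀ l, d l ≠ 0) (c : ℝ) (G : Matrix L L ℝ) (x : L → ℝ) :
    ng (c • G) (toR d * x) = ng (c • dil d G) x / ∏ l, |(d l : ℝ)| := by
  have hpos : (0 : ℝ) < ∏ l, |(d l : ℝ)| := prod_pos fun l _ => by simpa using hd l
  have h2 : c • dil d G = dil d (c • G) := by simp [dil]
  rw [h2, ng_dil hd, mul_div_cancel_left₀ _ hpos.ne']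

theorem avg_pt {lv : L → ℕ} {p : (L → ℤ) → L → ℝ} (hp : Tri lv p) {G H : Matrix L L ℝ}
    (hG : G.PosDef) (hH : H.PosDef) {d : L → ℤ} (hd : ∀ l, d l ≠ 0) (b : L → ℝ) {e s : ℝ}
    (h0 : 0 < e) (h1 : e ≤ 1 / 2) (hc : 2 * e * Fintype.card L ≤ 1)
    (hb : qq H b ≤ s) (hGH : ∀ x, qq (dil d G) x ≤ e ^ 2 * qq H x) (z : L → ℤ) :
    ∃ c, ∀ y, (1 - 2 * e * Fintype.card L) ^ 2 * (1 - 4 * (e * s)) * ng G (toR z - p z) *
      ng ((1 - e) • dil d G + H) (toR y - (pc p (-d) z (p z) y + c)) ≤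
        ng ((1 - e) • G) (toR (z + -d * y) - p (z + -d * y)) *
          ng H (toR y - (pc p d (z + -d * y) (p (z + -d * y)) y + b)) := by
  have hD := posDef_dil hd hG
  have hA : ((1 - e) • dil d G).PosDef := hD.smul (by linarith)
  obtain ⟨c1, hc1⟩ : ∃ c1, c1 = 1 - 2 * e * Fintype.card L := ⟨_, rfl⟩
  have c0 : 0 ≤ c1 := by linarith
  obtain ⟨u, hu⟩ : ∃ u, toR d * u = toR z - p z := ⟨fun l => (toR z l - p z l) / d l,
    funext fun l => by
      have : (d l : ℝ) ≠ 0 := by exact_mod_cast hd l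
      simp only [Pi.mul_apply, toR_apply, Pi.sub_apply]; field_simp⟩
  have hS := hA.add hH
  have v1 : c1 * vol H ≤ vol ((1 - e) • dil d G + H) :=
    hc1 ▸ (vol_wide h0.le h1 (by linarith) le_rfl hH).2.trans (vol_anti hS (hH.smul (by linarith))
      fun x => by
        rw [qq_add_mat, qq_smul_mat, qq_smul_mat]
        have q1 := qq_nonneg hH.posSemidef x
        have q2 := qq_nonneg hD.posSemidef x
        nlinarith [hGH x, mul_nonneg q2 h0.le, mul_nonneg (mul_nonneg h0.le q1)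
          (show 0 ≤ 1 - e by linarith)])
  obtain ⟨c, hc2⟩ := ng_conv hA hH c0 v1 u b
  have hpos : (0 : ℝ) < ∏ l, |(d l : ℝ)| := prod_pos fun l _ => by simpa using hd l
  have w1 : c1 * (1 - 4 * (e * s)) * ng G (toR z - p z) ≤
      ng ((1 - e) • dil d G) (u - b) / ∏ l, |(d l : ℝ)| := by
    rw [← ng_undil hd, mul_sub (toR d), hu]
    refine le_trans (mul_le_mul_of_nonneg_right (mul_le_mul_of_nonneg_left ?_ c0) (ng_nonneg _ _))
      (hc1 ▸ ng_wide hG h0 h1 hc _ _)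
    rw [← qq_dil]
    have h3 : qq (dil d G) b / e ≤ e * s := by
      rw [div_le_iff₀ h0]
      nlinarith [hGH b, mul_le_mul_of_nonneg_left hb (sq_nonneg e)]
    linarith
  refine ⟨c, fun y => ?_⟩
  obtain ⟨x, hx⟩ : ∃ x, x = toR y - pc p (-d) z (p z) y := ⟨_, rfl⟩
  have a1 : z + -d * y + d * y = z := by ring
  have a2 : toR y - (pc p d (z + -d * y) (p (z + -d * y)) y + b) = x - b := by
    funext l
    simp only [hx, pc, a1, Pi.sub_apply, Pi.add_apply, Pi.neg_apply, Int.cast_neg]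
    rw [div_neg, ← neg_div]; ring
  have a3 : toR (z + -d * y) - p (z + -d * y) = toR d * (u - x) := by
    have := dil_pc (d := -d) (fun l => by simpa using hd l) p z y (p z)
    have a4 : toR (-d) = -toR d := funext fun l => by simp
    rw [mul_sub, hu, ← sub_add_cancel (toR (z + -d * y) - p (z + -d * y)) (toR z - p z), ← this,
      a4, hx]
    ring
  rw [a2, a3, ng_undil hd, ← sub_sub, ← hx, ← hc1]
  have k1 := mul_le_mul_of_nonneg_right (hc2 x) (inv_pos.2 hpos).le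
  have k2 := mul_le_mul_of_nonneg_right (mul_le_mul_of_nonneg_left w1 c0)
    (ng_nonneg ((1 - e) • dil d G + H) (x - c))
  rw [div_eq_mul_inv] at k2 ⊢
  linarith

/-- the average over the centres of the densities on the subcells -/
theorem avg_sub {lv : L → ℕ} {p : (L → ℤ) → L → ℝ} (hp : Tri lv p) {G H : Matrix L L ℝ}
    (hG : G.PosDef) (hH : H.PosDef) {d : L → ℤ} (hd : ∀ l, d l ≠ 0) (b : L → ℝ) {e s η : ℝ}
    (h0 : 0 < e) (h1 : e ≤ 1 / 2) (hc : 2 * e * Fintype.card L ≤ 1) (hη : η ≤ 1)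
    (hs : 4 * (e * s) ≤ 1) (hb : qq H b ≤ s) (hGH : ∀ x, qq (dil d G) x ≤ e ^ 2 * qq H x)
    (hm : ∀ z c, 1 - η ≤ ms ((1 - e) • dil d G + H) fun y => pc p (-d) z (p z) y + c)
    {F : (L → ℤ) → ℝ} {C : ℝ} (hF : ∀ z, 0 ≤ F z ∧ F z ≤ C) :
    (1 - η) * (1 - 2 * e * Fintype.card L) ^ 2 * (1 - 4 * (e * s)) * Er G p F ≤
      Er ((1 - e) • G) p fun o => Er H (fun y => pc p d o (p o) y + b) fun y => F (o + d * y) := by
  have ha : ((1 - e) • G).PosDef := hG.smul (by linarith)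
  have hS : ((1 - e) • dil d G + H).PosDef := ((posDef_dil hd hG).smul (by linarith)).add hH
  have hF' : ∀ z, |F z| ≤ C := fun z => by rw [abs_of_nonneg (hF z).1]; exact (hF z).2
  obtain ⟨B, hB⟩ := ms_bdd hH
  obtain ⟨T, hT⟩ : ∃ T : (L → ℤ) × (L → ℤ) → ℝ, ∀ o y, T (o, y) =
      ng ((1 - e) • G) (toR o - p o) *
        (ng H (toR y - (pc p d o (p o) y + b)) * F (o + d * y)) :=
    ⟨fun x => ng ((1 - e) • G) (toR x.1 - p x.1) *
      (ng H (toR x.2 - (pc p d x.1 (p x.1) x.2 + b)) * F (x.1 + d * x.2)), fun _ _ => rfl⟩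
  have T0 : ∀ x, 0 ≤ T x := fun x => by
    rw [show T x = _ from hT x.1 x.2]
    exact mul_nonneg (ng_nonneg _ _) (mul_nonneg (ng_nonneg _ _) (hF _).1)
  have t1 : ∀ o, Tri lv fun y => pc p d o (p o) y + b := fun o => tri_add (tri_pc hp d o (p o)) b
  have hC : 0 ≤ C := (hF 0).1.trans (hF 0).2
  have s2 : Summable T := by
    refine (summable_prod_of_nonneg T0).2 ⟨fun o => ?_, ?_⟩
    · simp only [hT]
      exact (summable_er (t1 o) hH fun y => hF' _).mul_left _
    · simp only [hT, tsum_mul_left]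
      refine summable_er hp ha (C := C * B) fun o => ?_
      rw [abs_of_nonneg (tsum_nonneg fun y => mul_nonneg (ng_nonneg _ _) (hF _).1)]
      exact (er_le (t1 o) hH fun y => hF' _).trans (mul_le_mul_of_nonneg_left (hB _ _ (t1 o)) hC)
  let E : (L → ℤ) × (L → ℤ) ≃ (L → ℤ) × (L → ℤ) :=
    { toFun := fun x => (x.1 + -d * x.2, x.2)
      invFun := fun x => (x.1 + d * x.2, x.2)
      left_inv := fun x => by simp
      right_inv := fun x => by simp }
  have s4 : Summable fun x => T (E x) := E.summable_iff.2 s2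
  have e1 : (Er ((1 - e) • G) p fun o => Er H (fun y => pc p d o (p o) y + b)
      fun y => F (o + d * y)) = ∑' z, ∑' y, T (E (z, y)) := by
    rw [← s4.tsum_prod, E.tsum_eq T, s2.tsum_prod]
    simp only [hT, tsum_mul_left, Er]
  rw [e1, Er, ← tsum_mul_left]
  refine ((summable_er hp hG hF').mul_left _).tsum_le_tsum (fun z => ?_) s4.prod
  obtain ⟨c, hc2⟩ := avg_pt hp hG hH hd b h0 h1 hc hb hGH z
  obtain ⟨κ, hκ⟩ : ∃ κ, κ = (1 - 2 * e * Fintype.card L) ^ 2 * (1 - 4 * (e * s)) *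
    ng G (toR z - p z) := ⟨_, rfl⟩
  have κ0 : 0 ≤ κ := hκ ▸ mul_nonneg (mul_nonneg (sq_nonneg _) (by linarith)) (ng_nonneg _ _)
  rw [← hκ] at hc2
  have w2 : ∀ y, κ * F z * ng ((1 - e) • dil d G + H) (toR y - (pc p (-d) z (p z) y + c)) ≤
      T (E (z, y)) := fun y => by
    have a1 : z + -d * y + d * y = z := by ring
    rw [show E (z, y) = (z + -d * y, y) from rfl, hT, a1]
    have := mul_le_mul_of_nonneg_right (hc2 y) (hF z).1
    linarith
  have s3 := summable_ng (tri_add (tri_pc hp (-d) z (p z)) c) hS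
  refine le_trans ?_ ((s3.mul_left _).tsum_le_tsum w2 (s4.prod_factor z))
  rw [tsum_mul_left]
  refine le_trans (le_of_eq ?_) (mul_le_mul_of_nonneg_left (hm z c) (mul_nonneg κ0 (hF z).1))
  rw [hκ]; ring

/-- a centre that is good for all slots -/
theorem exists_centre {Ω I : Type*} [Fintype I] {w : Ω → ℝ} (hw : Summable w) (w0 : ∀ o, 0 ≤ w o)
    {a : I → Ω → ℝ} {γ ε η : ℝ} (h0 : ∀ i o, 0 ≤ a i o) (h1 : ∀ i o, a i o ≤ 1 + γ)
    (h2 : ∀ i, 1 - ε ≤ ∑' o, w o * a i o) (h3 : |∑' o, w o - 1| ≤ η) (hη : η ≤ 1 / 2)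
    (hγ : 0 < γ) (hγ1 : γ ≤ 1) (hε : 0 ≤ ε) :
    ∃ o, ∀ i, 1 - 2 * Fintype.card I * (γ + ε + 2 * η) ≤ a i o := by
  by_contra hc
  push Not at hc
  have h4 := abs_le.1 h3
  have η0 : 0 ≤ η := (abs_nonneg _).trans h3
  set τ := 2 * Fintype.card I * (γ + ε + 2 * η)
  have sa : ∀ i, Summable fun o => w o * a i o := fun i =>
    summable_mul_real hw w0 (C := 1 + γ) fun o => by rw [abs_of_nonneg (h0 i o)]; exact h1 i o
  have h5 : ∀ o, w o * (τ + γ) ≤ ∑ i, (w o * (1 + γ) - w o * a i o) := fun o => by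
    obtain ⟨i, hi⟩ := hc o
    refine le_trans ?_ (single_le_sum (f := fun i => w o * (1 + γ) - w o * a i o)
      (fun j _ => by nlinarith [w0 o, h1 j o]) (mem_univ i))
    nlinarith [w0 o]
  have h6 := (hw.mul_right _).tsum_le_tsum h5
    (summable_sum fun i _ => (hw.mul_right _).sub (sa i))
  rw [tsum_mul_right, Summable.tsum_finsetSum fun i _ => (hw.mul_right _).sub (sa i)] at h6
  have h7 : ∑ i : I, ∑' o, (w o * (1 + γ) - w o * a i o) ≤ ∑ i : I, (γ + ε + 2 * η) :=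
    sum_le_sum fun i _ => by
      rw [(hw.mul_right _).tsum_sub (sa i), tsum_mul_right]
      nlinarith [h2 i]
  rw [sum_const, card_univ, nsmul_eq_mul] at h7
  have h8 : 0 ≤ Fintype.card I * (γ + ε + 2 * η) := by positivity
  have : τ = 2 * (Fintype.card I * (γ + ε + 2 * η)) := by ring
  nlinarith

end

end Vale.Agent.P057ST
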