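import Vale.Agent.P057ST.Col
import Vale.Agent.P057RH.Hom

/-! Blow-ups of free configurations. -/

set_option linter.all false

open Matrix Finset Function
open Vale.Agent.P267.H775 Vale.Agent.P057G Vale.Agent.P057PC Vale.Agent.P057MA Vale.Agent.P057RH

namespace Vale.Agent.P057ST

noncomputable section

section sub

variable {ι V L : Type} {lv : ι → ℕ} {cd : L → ι} {mo : L → Multiset V} {K K' : Multiset V → Prop}

theorem Lab.fin (h : Lab lv cd mo K) {q : Finset L} (h1 : ∀ l, l ∈ q ↔ K' (mo l))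
    (h2 : ∀ m, K' m → K m) (h3 : ∀ m m', K' (m + m') → K' m) :
    Lab lv (fun l : q => cd l) (fun l : q => mo l) K' :=
  ⟨fun l l' a b => Subtype.ext (h.inj _ _ a b), fun l => h.deg _, fun l => (h1 _).1 l.2,
    fun a m a1 a2 => by
      obtain ⟨l, b1, b2⟩ := h.sur a m a1 (h2 m a2)
      exact ⟨⟨l, (h1 l).2 (b2 ▸ a2)⟩, b1, b2⟩, h3⟩

variable [Fintype L] [DecidableEq L]

theorem pt0_put (q : Finset L) (x : q → ℤ) :
    pt0 cd mo (toR (put q x 0)) = pt0 (fun l : q => cd l) (fun l : q => mo l) (toR x) := by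
  classical
  funext a
  unfold pt0 Cf.pt
  rw [← sum_subset (subset_univ q) fun l _ hl => by simp [put_neg _ _ hl], ← sum_coe_sort q]
  exact sum_congr rfl fun l _ => by simp only [toR_apply, put_coe]; rfl

omit [DecidableEq L] in
theorem ev_congr {c : V → ℝ} {x x' : L → ℝ} (h : ∀ l, wt c (mo l) ≠ 0 → x l = x' l) :
    ev c cd mo x = ev c cd mo x' := by
  classical
  funext a
  simp only [ev_eq]
  refine sum_congr rfl fun l _ => if_congr Iff.rfl ?_ rfl
  by_cases h1 : wt c (mo l) = 0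
  · rw [h1, mul_zero, mul_zero]
  · rw [h l h1]

theorem wt_ne {c : V → ℝ} {m : Multiset V} : wt c m ≠ 0 ↔ ∀ v ∈ m, c v ≠ 0 := by
  simp [wt, Multiset.prod_eq_zero_iff]

end sub

variable {ι C N L : Type} [Fintype C] [DecidableEq C] [Fintype N] [DecidableEq N]

/-- the face of a label -/
abbrev fcm (mo : L → Multiset C) : L → Finset C := fun l => (mo l).toFinset

/-- the system of a free configuration -/
abbrev ms0 [Fintype L] (T : Tw ι Unit) (cd : L → ι) (mo : L → Multiset C) (μ : C → ℝ)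
    (Q : ι → Pl ι C) : MS C L := ⟨fcm mo, fun l => T.lv (cd l), Gm T cd mo (wt μ), pr0 cd mo Q⟩

/-- the generators on a transversal -/
def jc (χ : C → N) (j : C) : C × N := (j, χ j)

theorem jc_inj (χ : C → N) : Injective (jc χ) := fun _ _ h => congrArg Prod.fst h

/-- the monomial of a label of the blow-up -/
def moB (mo : L → Multiset C) (c0 : N) (a : BI (fcm mo) c0) : Multiset (C × N) :=
  (mo a.1.1).map (jc a.1.2)

/-- the monomials on the faces of a complex -/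
def KF (K : Fc C N → Prop) (m : Multiset (C × N)) : Prop := ∃ φ, K φ ∧ ∀ v ∈ m, φ v.1 = some v.2

/-- every generator is replaced by the sum of its copies -/
def bl (N : Type) : Matrix C (C × N) ℝ := Matrix.of fun j v => if j = v.1 then 1 else 0

/-- the evaluation on a face -/
def cfa (c : C → ℝ) (φ : Fc C N) (v : C × N) : ℝ := if φ v.1 = some v.2 then c v.1 else 0

variable {lv : ι → ℕ} {cd : L → ι} {mo : L → Multiset C} {c0 : N} {K : Fc C N → Prop}

theorem kf_dc (m m' : Multiset (C × N)) (h : KF K (m + m')) : KF K m :=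
  h.imp fun _ h => ⟨h.1, fun v hv => h.2 v (Multiset.mem_add.2 (Or.inl hv))⟩

theorem kf_rect {A : C → Finset N} {m : Multiset (C × N)} : KF (rect A) m ↔
    (∀ v ∈ m, v.2 ∈ A v.1) ∧ ∀ v ∈ m, ∀ v' ∈ m, v.1 = v'.1 → v.2 = v'.2 := by
  refine ⟨fun ⟨φ, h1, h2⟩ => ⟨fun v hv => h1 _ _ (h2 v hv), fun v hv v' hv' e =>
    Option.some.inj ((h2 v hv).symm.trans (e ▸ h2 v' hv'))⟩, fun ⟨h1, h2⟩ => ?_⟩
  refine ⟨fun j => if h : ∃ n, (j, n) ∈ m then some h.choose else none, fun j n h => ?_,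
    fun v hv => ?_⟩
  · beta_reduce at h
    split_ifs at h with h3
    exact Option.some.inj h ▸ h1 _ h3.choose_spec
  · have h3 : ∃ n, (v.1, n) ∈ m := ⟨v.2, hv⟩
    simp only [dif_pos h3]
    exact congrArg some (h2 _ h3.choose_spec v hv rfl)

theorem bl_sel (χ : C → N) : (bl N : Matrix C (C × N) ℝ) * sel (jc χ) = 1 := by
  ext j j'
  simp only [Matrix.mul_apply, sel, of_apply, mul_ite, mul_one, mul_zero, sum_ite_eq', mem_univ,
    if_true]
  rfl

theorem bl_cfa {c : C → ℝ} {φ : Fc C N} (h : ∀ j, j ∉ sp φ → c j = 0) : bl N *ᵥ cfa c φ = c := by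
  funext j
  simp only [bl, mulVec, dotProduct, of_apply, cfa, Fintype.sum_prod_type, ite_mul, one_mul,
    zero_mul, sum_ite_irrel, sum_const_zero, sum_ite_eq, mem_univ, if_true]
  cases h1 : φ j with
  | none => simp [h j fun h2 => mem_sp.1 h2 h1]
  | some n => simp

theorem sel_ch {c : C → ℝ} {φ : Fc C N} (h : ∀ j, j ∉ sp φ → c j = 0) :
    sel (jc (ch c0 φ)) *ᵥ c = cfa c φ := by
  funext ⟨j, n⟩
  simp only [sel, mulVec, dotProduct, of_apply, cfa, jc, Prod.mk.injEq, ite_and, ite_mul, one_mul,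
    zero_mul, sum_ite_eq, mem_univ, if_true, ch]
  cases h1 : φ j with
  | none => simp [h j fun h2 => mem_sp.1 h2 h1]
  | some n' => simp [eq_comm]

theorem moB_cp (χ : C → N) (k : L) : moB mo c0 (cp (fcm mo) c0 χ k) = (mo k).map (jc χ) :=
  Multiset.map_congr rfl fun v hv => congrArg (Prod.mk v) (cp_snd χ (Multiset.mem_toFinset.2 hv))

theorem moB_eq {a b : BI (fcm mo) c0} :
    moB mo c0 a = moB mo c0 b ↔ a.1.2 = b.1.2 ∧ mo a.1.1 = mo b.1.1 := by
  refine ⟨fun h => ?_, fun h => by rw [moB, moB, h.1, h.2]⟩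
  have h1 : mo a.1.1 = mo b.1.1 := by
    simpa [moB, jc, Function.comp_def] using congrArg (Multiset.map Prod.fst) h
  refine ⟨funext fun v => ?_, h1⟩
  by_cases hv : v ∈ mo a.1.1
  · obtain ⟨w, -, h2⟩ := Multiset.mem_map.1 (h ▸ Multiset.mem_map_of_mem (jc a.1.2) hv :
      jc a.1.2 v ∈ moB mo c0 b)
    obtain rfl : w = v := congrArg Prod.fst h2
    exact (congrArg Prod.snd h2).symm
  · rw [a.2 v (by simpa using hv), b.2 v (by simpa [← h1] using hv)]

theorem kf_fa (hK : DC K) (a : BI (fcm mo) c0) : KF K (moB mo c0 a) ↔ K (fa a) := by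
  refine ⟨fun ⟨φ, h1, h2⟩ => ?_, fun h => ⟨_, h, fun v hv => ?_⟩⟩
  · convert hK φ h1 (fcm mo a.1.1) using 1
    funext v
    unfold fa res
    split_ifs with h
    exacts [(h2 _ (Multiset.mem_map_of_mem _ (Multiset.mem_toFinset.1 h))).symm, rfl]
  · obtain ⟨w, hw, rfl⟩ := Multiset.mem_map.1 hv
    exact if_pos (Multiset.mem_toFinset.2 hw)

theorem lab_blow (hL : Lab lv cd mo fun _ => True) (c0 : N) :
    Lab lv (fun a : BI (fcm mo) c0 => cd a.1.1) (moB mo c0) (KF fun _ => True) := by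
  refine ⟨fun a b h1 h2 => Subtype.ext (Prod.ext (hL.inj _ _ h1 (moB_eq.1 h2).2) (moB_eq.1 h2).1),
    fun a => (Multiset.card_map _ _).trans (hL.deg _),
    fun a => (kf_fa (fun _ _ _ => trivial) a).2 trivial, fun a m h ⟨φ, _, h1⟩ => ?_, kf_dc⟩
  obtain ⟨k, h2, h3⟩ := hL.sur a (m.map Prod.fst) (by rw [Multiset.card_map, h]) trivial
  refine ⟨cp (fcm mo) c0 (ch c0 φ) k, h2, ?_⟩
  rw [moB_cp, h3, Multiset.map_map]
  refine (Multiset.map_congr rfl fun v hv => ?_).trans (Multiset.map_id m)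
  simp [jc, ch, h1 v hv]

variable [Fintype L] [DecidableEq L]

/-- the labels on the faces of a complex -/
abbrev LK (mo : L → Multiset C) (c0 : N) (K : Fc C N → Prop) : Type := qk (fcm mo) c0 univ K

/-- their coordinates -/
abbrev cdK (cd : L → ι) : LK mo c0 K → ι := fun a => cd a.1.1.1

/-- their monomials -/
abbrev moK : LK mo c0 K → Multiset (C × N) := fun a => moB mo c0 a

theorem lab_K (hL : Lab lv cd mo fun _ => True) (hK : DC K) :
    Lab lv (cdK cd : LK mo c0 K → ι) moK (KF K) :=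
  (lab_blow hL c0).fin (fun a => by rw [mem_qk, kf_fa hK]; simp)
    (fun _ h => h.imp fun _ h => ⟨trivial, h.2⟩) kf_dc

variable {T : Tw ι Unit} {μ : C → ℝ} {Q : ι → Pl ι C}

theorem G_blow : (blow (ms0 T cd mo μ Q) c0).G =
    Gm T (fun a : BI (fcm mo) c0 => cd a.1.1) (moB mo c0) (wt (μ ∘ Prod.fst)) := by
  ext a b
  have : wt (μ ∘ Prod.fst) (moB mo c0 a) = wt μ (mo a.1.1) := wt_map _ _ _
  simp only [blow, of_apply, Gm_apply, moB_eq, ite_and, this]

theorem p_blow (hL : Lab lv cd mo fun _ => True) : (blow (ms0 T cd mo μ Q) c0).p =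
    pr0 (fun a : BI (fcm mo) c0 => cd a.1.1) (moB mo c0) (mp (sb (bl N)) Q) := by
  funext x a
  have := p0_sel (Q := mp (sb (bl N)) Q) (jc_inj a.1.2) (lab_blow hL c0) hL
    (fun m _ => ⟨fun j => some (a.1.2 j), trivial, fun v hv => by
      obtain ⟨w, -, rfl⟩ := Multiset.mem_map.1 hv; rfl⟩) (e := cp (fcm mo) c0 a.1.2)
    (fun _ => rfl) (moB_cp _) x a.1.1
  rw [mp_mp, sb_sb, bl_sel, sb_one, mp_id, cp_self] at this
  exact this

theorem ev_lz (hL : Lab lv cd mo fun _ => True) {c : C → ℝ} {φ : Fc C N}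
    (h : ∀ j, j ∉ sp φ → c j = 0) (z : BI (fcm mo) c0 → ℤ) :
    ev c cd mo (toR (uz (fcm mo) (ex (fcm mo) (sp φ) (lz (fcm mo) c0 z φ)))) =
      ev (cfa c φ) (fun a : BI (fcm mo) c0 => cd a.1.1) (moB mo c0) (toR z) := by
  rw [← sel_ch (c0 := c0) h, ← ev_sel (jc_inj _) (lab_blow hL c0) hL
    (fun m _ => ⟨fun j => some (ch c0 φ j), trivial, fun v hv => by
      obtain ⟨w, -, rfl⟩ := Multiset.mem_map.1 hv; rfl⟩) (e := cp (fcm mo) c0 (ch c0 φ))
    (fun _ => rfl) (moB_cp _) fun _ h => (h trivial).elim]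
  refine ev_congr fun l hl => ?_
  have h1 : fcm mo l ⊆ sp φ := fun v hv => by_contra fun h2 =>
    wt_ne.1 hl v (Multiset.mem_toFinset.1 hv) (h v h2)
  simp only [toR_apply, uz_ex, lz, if_pos h1, Function.comp_apply]

variable [Fintype ι] [DecidableEq ι] {d n : ℕ} {Λ η : ℝ}

theorem Ctx.lk (h : Ctx T d n Λ η) (hQ : Fm T.lv T.q Q) (hL : Lab T.lv cd mo fun _ => True)
    (h0 : ∀ j, 0 < μ j) : Lk (ms0 T cd mo μ Q) := by
  refine ⟨h.pd hQ hL fun _ => wt_pos h0 _, fun l l' h1 => ?_, fun l x x' h1 => ?_⟩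
  · exact congrArg Multiset.toFinset (by_contra fun h2 => h1 (Gw_ne _ h2))
  · change pr0 cd mo Q x l = pr0 cd mo Q x' l
    rw [← pr_fcf (T := T)]
    exact congrArg (· + _) ((fcf T.q cd mo Q).val_ideal T (I := fun m => ¬ m.toFinset ⊆ fcm mo l)
      (fun m m' h2 h3 => h2 fun v hv => h3 (by
        rw [Multiset.toFinset_add]; exact mem_union_left _ hv))
      (fun l' h2 => h1 l' (not_not.1 h2)) _ (not_not.2 subset_rfl))

theorem Ctx.trs (h : Ctx T d n Λ η) (hQ : Fm T.lv T.q Q) (hL : Lab T.lv cd mo fun _ => True) :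
    Trs (blow (ms0 T cd mo μ Q) c0) := fun a x x' h1 => by
  change pr0 cd mo Q _ _ = pr0 cd mo Q _ _
  rw [← pr_fcf (T := T)]
  exact congrArg (fun u : Alg (Multiset C) => u.coeff _ + _)
    ((h.fm0 hQ hL).val_congr h.ok fun l hl => h1 (cp _ c0 a.1.2 l) hl)

open Classical in
theorem lt_er (hk : Lk (ms0 T cd mo μ Q)) (hL : Lab T.lv cd mo fun _ => True) (c0 : N)
    (g : Fc C N → Vw C (L → ℤ) → ℝ) : Lt (nu (ms0 T cd mo μ Q) univ) 0 K g =
      Er (Gm T (cdK cd : LK mo c0 K → ι) moK (wt (μ ∘ Prod.fst)))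
        (p0 (cdK cd) moK (mp (sb (bl N)) Q)) fun x => ∏ φ, if K φ then
          g φ (ex (fcm mo) (sp φ) (lz (fcm mo) c0 (put _ x 0) φ)) else 1 := by
  have h1 := hk.lt_eq (𝕜 := ℝ) (q := univ) (K := K) c0 g
  simp only [RCLike.ofReal_real_eq_id, id] at h1
  refine h1.trans ((wt_er _ _ _).trans ?_)
  congr 1
  · rw [G_blow]; ext a b; simp only [blk, submatrix_apply, Gm_apply]
  · funext x a
    simp only [pq, p_blow hL, p0, pr0, pt0_put]

theorem Ctx.lft (h : Ctx T d n Λ η) (hQ : Fm T.lv T.q Q) (hL : Lab T.lv cd mo fun _ => True)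
    (h0 : ∀ j, 0 < μ j) (hΛ : ∀ l, wt μ (mo l) ≤ Λ) (hn : Fintype.card (C × N) ≤ n) (c0 : N) :
    LFt N (nu (ms0 T cd mo μ Q) univ) 0 η := fun K hK => by
  have hk := h.lk hQ hL h0
  refine ⟨hk.summable c0 ((h.trs hQ hL).summable (hk.pd_blow c0) _), ?_⟩
  rw [lt_er hk hL c0]
  simp only [ite_self, prod_const_one, er_one]
  exact h.ms' (hQ.mp (grd_sb _)) (lab_K hL hK) hn (fun l => wt_pos (fun v => h0 _) _) fun l =>
    (wt_map _ _ _).trans_le (hΛ _)

/-- the function of a slot -/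
def slot (g : (ι → ℝ) → ℝ) (c : C → C → ℝ) (cd : L → ι) (mo : L → Multiset C) (i : C)
    (u : Vw C (L → ℤ)) : ℝ := g (ev (c i) cd mo (toR (uz (fcm mo) u)))

open Classical in
theorem lt_slot (hk : Lk (ms0 T cd mo μ Q)) (hL : Lab T.lv cd mo fun _ => True) (c0 : N)
    (g : (ι → ℝ) → ℝ) {c : C → C → ℝ} (hc : ∀ i, c i i = 0) (I : Finset C) :
    Lt (nu (ms0 T cd mo μ Q) univ) 0 K (Pn I (slot g c cd mo)) =
      Er (Gm T (cdK cd : LK mo c0 K → ι) moK (wt (μ ∘ Prod.fst)))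
        (p0 (cdK cd) moK (mp (sb (bl N)) Q)) fun x => ∏ i ∈ I,
          ∏ φ ∈ univ.filter fun φ => K φ ∧ sp φ = univ.erase i,
            g (ev (cfa (c i) φ) (cdK cd) moK (toR x)) := by
  rw [lt_er hk hL c0]
  congr 1
  funext x
  simp only [prod_filter]
  rw [prod_comm]
  refine prod_congr rfl fun φ _ => ?_
  by_cases h : K φ
  · simp only [h, true_and, if_true, Pn]
    refine prod_congr rfl fun i _ => if_ctx_congr Iff.rfl (fun h1 => ?_) fun _ => rfl
    rw [slot, ev_lz hL fun j hj => by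
      rw [h1] at hj
      rw [show j = i by simpa using hj, hc]]
    unfold ev
    rw [pt0_put]
  · simp [h]

end

end Vale.Agent.P057ST
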