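import Vale.Agent.P057ST.St
import Vale.Agent.P057ST.Avg

/-! The configuration around a centre: subcells and the full simplex. -/

set_option linter.all false

open Matrix Finset Function
open scoped Real
open Vale.Agent.P267.H775 Vale.Agent.P057G Vale.Agent.P057PC

namespace Vale.Agent.P057ST

noncomputable section

theorem exists_shift {L : Type} [Fintype L] [DecidableEq L] {A : Matrix L L ℝ} (hA : A.PosDef)
    {v : L → ℝ} (hv : v ≠ 0) {s : ℝ} (hs : 0 ≤ s) :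
    ∃ b, qq A b = s ∧ ∀ x, x ⬝ᵥ v = 0 → bb A x b = 0 := by
  have h1 : 0 < qq A⁻¹ v := hA.inv.dotProduct_mulVec_pos hv
  refine ⟨√(s / qq A⁻¹ v) • (A⁻¹ *ᵥ v), ?_, fun x hx => ?_⟩
  · rw [qq_smul, qq_inv hA, Real.sq_sqrt (by positivity), div_mul_cancel₀ _ h1.ne']
  · have := bb_inv hA x v
    simp only [bb, mulVec_smul, dotProduct_smul] at this ⊢
    rw [this, hx, smul_zero]

theorem ms_neg {L : Type} [Fintype L] [DecidableEq L] (A : Matrix L L ℝ) (p : (L → ℤ) → L → ℝ)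
    (d r : L → ℤ) (r' c : L → ℝ) :
    ms A (fun y => pc p (-d) r r' y + c) = ms A fun y => pc p d r r' y + -c := by
  rw [ms, ms, ← (Equiv.neg _).tsum_eq]
  refine tsum_congr fun y => ?_
  unfold ng
  rw [← gs_neg]
  congr 2
  funext l
  simp [pc, div_neg]; ring

variable {ι C L : Type} [Fintype ι] [DecidableEq ι] [Fintype C] [DecidableEq C] [Fintype L]
  [DecidableEq L] {cd : L → ι} {mo : L → Multiset C} {T : Tw ι Unit} {d n : ℕ} {Λ η : ℝ}
  {Q : ι → Pl ι Unit} {τ : C → ℝ}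

/-- the family around the point `o` -/
def Qo (lv : ι → ℕ) (τ : C → ℝ) (Q : ι → Pl ι Unit) (o : ι → ℤ) : ι → Pl ι C :=
  mp (sb (Matrix.of fun _ j => τ j))
    (sft (pt0 id (mo1 lv) (toR o)) (pt0 id (mo1 lv) (p0 id (mo1 lv) Q o)) Q)

/-- the same with shifted centres -/
def Qs (lv : ι → ℕ) (cd : L → ι) (mo : L → Multiset C) (τ : C → ℝ) (Q : ι → Pl ι Unit) (b : L → ℝ)
    (o : ι → ℤ) : ι → Pl ι C := sft 0 (pt0 cd mo (-b)) (Qo lv τ Q o)

theorem Ctx.fmo (h : Ctx T d n Λ η) (hQ : Fm T.lv T.q Q) (o : ι → ℤ) :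
    Fm T.lv T.q (Qo T.lv τ Q o) :=
  (hQ.sft h.ok.pos (lab1.sup' _) (lab1.sup' _)).mp (grd_sb _)

theorem Ctx.fms (h : Ctx T d n Λ η) (hQ : Fm T.lv T.q Q) (hL : Lab T.lv cd mo fun _ => True)
    (b : L → ℝ) (o : ι → ℤ) : Fm T.lv T.q (Qs T.lv cd mo τ Q b o) :=
  (h.fmo hQ o).sft h.ok.pos (fun _ => Sup.zero _) (hL.sup' _)

theorem p0_sub {lv : ι → ℕ} (hL : Lab lv cd mo fun _ => True) {c : C → ℝ}
    (hc : ∑ j, τ j * c j = 1) {D : ℤ} (hD : D ≠ 0) (b : L → ℝ) (o : ι → ℤ) :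
    p0 id (mo1 lv) (mp (sb (Matrix.of fun j (_ : Unit) => c j / D)) (Qs lv cd mo τ Q b o)) =
      fun y => pc (p0 id (mo1 lv) Q) (fun a => wz (fun _ => D) (mo1 lv a)) o
        (p0 id (mo1 lv) Q o) y +
          SM0 (sb (Matrix.of fun j (_ : Unit) => c j / D)) cd mo id (mo1 lv) *ᵥ b := by
  have h1 : (Matrix.of fun (_ : Unit) j => τ j) * (Matrix.of fun j (_ : Unit) => c j / D) =
      diagonal fun _ => ((D : ℤ) : ℝ)⁻¹ := by
    ext ⟨⟩ ⟨⟩
    rw [Matrix.mul_apply]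
    simp only [of_apply, diagonal_apply_eq, ← mul_div_assoc, ← sum_div, hc, one_div]
  funext y
  rw [lab1.pc fun _ => hD, Qs, mp_sft, Qo, mp_mp, sb_sb, h1, p0, p0,
    show (fun j => sb (Matrix.of fun j (_ : Unit) => c j / D) ((0 : ι → _) j)) = 0 from
      funext fun _ => map_zero _, pr0_sft, sub_eq_add_neg, ← neg_neg b, mulVec_neg, neg_neg b]
  congr 2
  funext l
  exact (SM0_coeff hL lab1 (grd_sb _) (fun _ h => (h trivial).elim) _ l).symm

theorem Ctx.lev1 (h : Ctx T d n Λ η) (hQ : Fm T.lv T.q Q) (hL : Lab T.lv cd mo fun _ => True)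
    (o : ι → ℤ) (z : L → ℤ) {l : L} (hl : T.lv (cd l) = 1) : p0 cd mo (Qo T.lv τ Q o) z l = 0 := by
  rw [h.tri (h.fmo hQ o) hL l z 0 fun j hj => by
    have := h.ok.pos (cd j); beta_reduce at hj; omega]
  have := pr0_mp (Q := sft (pt0 id (mo1 T.lv) (toR o)) (pt0 id (mo1 T.lv) (p0 id (mo1 T.lv) Q o)) Q)
    lab1 hL (grd_sb (Matrix.of fun _ j => τ j)) (fun _ h => (h trivial).elim) 0
  rw [lab1.pr0_shift, add_zero, mulVec_zero, show pr0 id (mo1 T.lv) Q (toR o) = p0 id _ Q o from rfl,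
    sub_self, mulVec_zero] at this
  rw [p0, show toR (0 : L → ℤ) = 0 from funext fun _ => by simp]
  exact congrFun this l

theorem qq_SM (h : Ctx T d n Λ η) (hL : Lab T.lv cd mo fun _ => True) {μ r : C → ℝ} {m B : ℝ}
    (h0 : ∀ j, 0 < μ j) (m0 : 0 < m) (hm : ∀ j, r j ≠ 0 → m ≤ μ j) (hB : ∀ j, |r j| ≤ B)
    (b1 : 1 ≤ B) (b : L → ℝ) : qq (Gm T id (mo1 T.lv) (wt fun _ => m))
      (SM0 (sb (Matrix.of fun j (_ : Unit) => r j)) cd mo id (mo1 T.lv) *ᵥ b) ≤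
        (B ^ d) ^ 2 * (Fintype.card L * Fintype.card ι) * qq (Gm T cd mo (wt μ)) b := by
  have := qq_Gm_map (x := b) (y := SM0 (sb (Matrix.of fun j (_ : Unit) => r j)) cd mo id
    (mo1 T.lv) *ᵥ b) h.ok hL lab1 (ω := wt μ) (ω' := wt fun _ => m) (fun _ => (wt_pos h0 _).le)
    (fun _ => (wt_pos (fun _ => m0) _).le) (n := fun m' m => cf (Matrix.of fun j _ => r j) m m')
    (b := B ^ d) zero_le_one (fun l' l => (abs_cf (by simpa using hB) _ _).trans
      (pow_le_pow_right₀ b1 ((hL.deg l).trans_le (h.le _))))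
    (fun l' l h1 => ⟨(cf_card _ h1).symm, by
      rw [one_mul]
      exact cf_sup _ (P := fun m1 m' => wt (fun _ => m) m' ≤ wt μ m1) (by simp [wt])
        (fun v w m1 m' h2 h3 => by
          rw [wt_cons, wt_cons]
          exact mul_le_mul (hm v h2) h3 (wt_pos (fun _ => m0) _).le (h0 v).le) _ _ h1⟩)
    fun l' => sum_congr rfl fun l _ => by
      simp only [SM0, SM, of_apply, ite_mul, zero_mul]
      exact if_congr Iff.rfl rfl rfl
  rwa [one_mul] at this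

theorem ev_wz (c : C → ℤ) (z : L → ℤ) : ev (fun v => (c v : ℝ)) cd mo (toR z) =
    toR fun a => ∑ l, if cd l = a then z l * wz c (mo l) else 0 :=
  funext fun a => by simp [ev_eq, wz_cast]

/-- the full simplex has a small count -/
theorem Ctx.hyp (h : Ctx T d n Λ η) (hQ : Fm T.lv T.q Q) (hL : Lab T.lv cd mo fun _ => True)
    (hn : Fintype.card C ≤ n) {μ : C → ℝ} (h0 : ∀ j, 0 < μ j) (hΛ : ∀ l, wt μ (mo l) ≤ Λ)
    {el : ι → ℤ} (e1 : ∀ a, T.lv a ≠ 1 → el a = 0) {sc x : C → ℤ} {b : L → ℝ}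
    (hb : ∀ y, y ⬝ᵥ (fun l => (el (cd l) * wz sc (mo l) : ℝ)) = 0 → bb (Gm T cd mo (wt μ)) y b = 0)
    {f : ℤ → ℝ} (hA : ∀ a u : ℤ, (∀ i, f (a + x i * u) ≠ 0) → u = 0) {g : (ι → ℝ) → ℝ} {M : ℝ}
    {off : ℤ} (hg : ∀ y, g (toR y) ≠ 0 → f (off + el ⬝ᵥ y) ≠ 0) (g0 : ∀ y, 0 ≤ g y ∧ g y ≤ M)
    (o : ι → ℤ) : Er (Gm T cd mo (wt μ)) (p0 cd mo (Qs T.lv cd mo τ Q b o))
      (fun z => ∏ i, g (ev (fun j => ((x i - x j) * sc j : ℤ)) cd mo (toR z))) ≤
        M ^ Fintype.card C * Real.exp (-(π * qq (Gm T cd mo (wt μ)) b)) * 2 := by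
  have hQ' := h.fmo (τ := τ) hQ o
  have m1 := (abs_le.1 (h.ms' hQ' hL hn (fun _ => wt_pos h0 _) hΛ)).2
  have hM : 0 ≤ M := (g0 0).1.trans (g0 0).2
  rw [Qs, hL.p0_add]
  refine (er_hyp (h.tri hQ' hL) (h.pd hQ' hL fun _ => wt_pos h0 _) b (C := M ^ Fintype.card C)
    (fun z => ?_) fun z hz => hb _ ?_).trans
      (mul_le_mul_of_nonneg_left (by linarith [h.e1]) (by positivity))
  · have := abs_prod_le univ fun i => g0 (ev (fun j => ((x i - x j) * sc j : ℤ)) cd mo (toR z))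
    rw [abs_of_nonneg this.1]; exact this.2
  have h1 := hA (off - ∑ l, el (cd l) * wz (fun j => x j * sc j) (mo l) * z l)
    (∑ l, el (cd l) * wz sc (mo l) * z l) fun i => by
      have h2 := prod_ne_zero_iff.1 hz i (mem_univ i)
      rw [ev_wz] at h2
      convert hg _ h2 using 2
      rw [sub_add, sub_eq_add_neg, neg_sub, mul_sum, ← sum_sub_distrib]
      simp only [dotProduct, mul_sum, mul_ite, mul_zero]
      rw [sum_comm]
      refine congrArg _ (sum_congr rfl fun l _ => ?_)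
      rw [sum_ite_eq, if_pos (mem_univ _)]
      by_cases h3 : T.lv (cd l) = 1
      · obtain ⟨j, hj⟩ := Multiset.card_eq_one.1 ((hL.deg l).trans h3)
        simp only [hj, wz, Multiset.map_singleton, Multiset.prod_singleton]; ring
      · simp [e1 _ h3]
  rw [sub_dotProduct, sub_eq_zero]
  refine Eq.trans ?_ (sum_eq_zero fun l _ => ?_).symm
  · have h2 := congrArg (Int.cast : ℤ → ℝ) h1
    push_cast at h2
    exact (sum_congr rfl fun l _ => mul_comm _ _).trans h2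
  · by_cases h3 : T.lv (cd l) = 1
    · rw [h.lev1 hQ hL o z h3, zero_mul]
    · simp [e1 _ h3]

/-- the average of the counts on the subcells -/
theorem Ctx.avg (h : Ctx T d n Λ η) (hQ : Fm T.lv T.q Q) (hL : Lab T.lv cd mo fun _ => True)
    (hn : 1 ≤ n) {c : C → ℝ} (hc : ∑ j, τ j * c j = 1) {D : ℤ} (hD : D ≠ 0) {b : L → ℝ}
    {m e s : ℝ} (m1 : 1 ≤ m) (hΛ : 2 * m ^ d ≤ Λ) (h0 : 0 < e) (h1 : e ≤ 1 / 2)
    (h2 : 2 * e * Fintype.card ι ≤ 1) (h3 : 4 * (e * s) ≤ 1) (h4 : (D : ℝ) ^ 2 ≤ e ^ 2 * m)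
    (hb : qq (Gm T id (mo1 T.lv) (wt fun _ => m))
      (SM0 (sb (Matrix.of fun j (_ : Unit) => c j / D)) cd mo id (mo1 T.lv) *ᵥ b) ≤ s)
    {g : (ι → ℝ) → ℝ} {M : ℝ} (g0 : ∀ y, 0 ≤ g y ∧ g y ≤ M) :
    (1 - η) * (1 - 2 * e * Fintype.card ι) ^ 2 * (1 - 4 * (e * s)) *
      Er (Gm T id (mo1 T.lv) (wt fun _ => 1)) (p0 id (mo1 T.lv) Q) (fun y => g (toR y)) ≤
    Er ((1 - e) • Gm T id (mo1 T.lv) (wt fun _ => 1)) (p0 id (mo1 T.lv) Q) fun o =>
      Er (Gm T id (mo1 T.lv) (wt fun _ => m)) (p0 id (mo1 T.lv)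
        (mp (sb (Matrix.of fun j (_ : Unit) => c j / D)) (Qs T.lv cd mo τ Q b o)))
          fun y => g (toR o + ev (fun _ => D) id (mo1 T.lv) (toR y)) := by
  have hG := h.pd hQ lab1 (ω := wt fun _ => 1) fun _ => wt_pos (fun _ => one_pos) _
  have hH := h.pd hQ lab1 (ω := wt fun _ => m) fun _ => wt_pos (fun _ => by linarith) _
  have hd : ∀ a, wz (fun _ => D) (mo1 T.lv a) ≠ 0 := fun a => wz_ne (fun _ => hD) _
  have k1 : ∀ x, qq (P057ST.dil (fun a => wz (fun _ => D) (mo1 T.lv a))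
      (Gm T id (mo1 T.lv) (wt fun _ => 1))) x ≤ e ^ 2 * qq (Gm T id (mo1 T.lv) (wt fun _ => m)) x := by
    rw [dil_Gm]
    refine qq_Gm_le h.ok fun a => ?_
    rw [wz_cast, wt_one, wt_const, wt_const, lab1.deg, mul_one, ← pow_mul, mul_comm, pow_mul]
    refine (pow_le_pow_left₀ (sq_nonneg _) h4 _).trans ?_
    rw [mul_pow]
    exact mul_le_mul_of_nonneg_right (pow_le_of_le_one (sq_nonneg _) (by nlinarith)
      (h.ok.pos a).ne') (by positivity)
  simp only [p0_sub hL hc hD]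
  convert avg_sub (h.tri hQ lab1) hG hH hd _ h0 h1 h2 h.e1 h3 hb k1 (fun z u => ?_)
    (F := fun y => g (toR y)) fun _ => g0 _ using 5 with o y
  · exact congrArg g (funext fun a => by rw [Pi.add_apply, ev1]; simp [wz, mo1])
  · rw [ms_neg, lab1.pc fun _ => hD, ← lab1.p0_add]
    have := h.ms (((hQ.sft h.ok.pos (lab1.sup' (toR z)) (lab1.sup' (p0 id (mo1 T.lv) Q z))).mp
      (grd_sb (diagonal fun _ => ((D : ℤ) : ℝ)⁻¹))).sft h.ok.pos (ρ := 0) (fun _ => Sup.zero _)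
        (lab1.sup' (- -u))) lab1 (by simpa using hn) zero_le_two (ω := wt fun _ => m)
      (fun a => le_trans (by
        rw [wt_const, lab1.deg]
        exact mul_le_mul_of_nonneg_left (pow_le_pow_right₀ m1 (h.le a)) zero_le_two) hΛ)
      (((posDef_dil hd hG).smul (show 0 < 1 - e by linarith)).add hH) fun v => by
        rw [qq_add_mat, qq_smul_mat]
        have q1 := qq_nonneg hH.posSemidef v
        have q2 := qq_nonneg (posDef_dil hd hG).posSemidef v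
        nlinarith [k1 v, mul_nonneg q2 h0.le, mul_nonneg q1 (show 0 ≤ 1 - e ^ 2 by nlinarith)]
    linarith [(abs_le.1 this).1]

end

end Vale.Agent.P057ST
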