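import Vale.Agent.P057ST.Fr
import Mathlib.Data.Fintype.Vector

/-! Counting on free configurations: dilations, shears followed by deletions. -/

set_option linter.all false

open Matrix Finset
open Vale.Agent.P267.H775 Vale.Agent.P057G Vale.Agent.P057PC

namespace Vale.Agent.P057ST

noncomputable section

variable {ι V V' L L' : Type}

/-- the standing assumptions on the tower -/
structure Ctx [Fintype ι] [DecidableEq ι] (T : Tw ι Unit) (d N : ℕ) (Λ η : ℝ) : Prop where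
  ok : T.Ok
  al : ∀ a s, T.al a s ↔ s.card = T.lv a
  lf : T.LF d N Λ η
  le : ∀ a, T.lv a ≤ d
  e1 : η ≤ 1

variable {lv : ι → ℕ} {Q : ι → Pl ι V} {cd : L → ι} {mo : L → Multiset V} {K : Multiset V → Prop}
  {T : Tw ι Unit} {cd' : L' → ι} {mo' : L' → Multiset V'} {K' : Multiset V' → Prop}

theorem Gm_apply [DecidableEq V] (ω : Multiset V → ℝ) (l l' : L) :
    Gm T cd mo ω l l' = if mo l = mo l' then ω (mo l) * T.G (cd l) (cd l') else 0 := by
  simp only [Gm, Gw, of_apply, Cf.Gam_apply, mul_ite, mul_zero]; rfl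

theorem Gm_sub (ω ω' : Multiset V → ℝ) :
    Gm T cd mo ω - Gm T cd mo ω' = Gm T cd mo fun m => ω m - ω' m := by
  ext l l'; simp [Gm, Gw, sub_mul]

theorem Gm_smul (c : ℝ) (ω : Multiset V → ℝ) : c • Gm T cd mo ω = Gm T cd mo fun m => c * ω m := by
  ext l l'; simp [Gm, Gw, mul_assoc]

theorem Gm_add (ω ω' : Multiset V → ℝ) :
    Gm T cd mo ω + Gm T cd mo ω' = Gm T cd mo fun m => ω m + ω' m := by
  ext l l'; simp [Gm, Gw, add_mul]

theorem Gm_congr {ω ω' : Multiset V → ℝ} (h : ∀ l, ω (mo l) = ω' (mo l)) :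
    Gm T cd mo ω = Gm T cd mo ω' := by
  ext l l'; exact congrArg (· * _) (h l)

theorem Gm_sel {j : V' → V} (hj : Function.Injective j) {e : L' → L} (h1 : ∀ l, cd (e l) = cd' l)
    (h2 : ∀ l, mo (e l) = (mo' l).map j) (ω : Multiset V → ℝ) (l l' : L') :
    Gm T cd' mo' (fun m => ω (m.map j)) l l' = Gm T cd mo ω (e l) (e l') := by
  classical
  simp only [Gm_apply, h1, h2, (Multiset.map_injective hj).eq_iff]

theorem card_lab [Fintype ι] [Fintype V] [Fintype L] (h : Lab lv cd mo K) {d : ℕ}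
    (hd : ∀ a, lv a ≤ d) : Fintype.card L ≤ Fintype.card ι * (Fintype.card V + 1) ^ d := by
  classical
  have h1 : Function.Injective fun l => (⟨cd l, ⟨mo l, h.deg l⟩⟩ : Σ a, Sym V (lv a)) :=
    fun l l' h2 => h.inj _ _ (congrArg Sigma.fst h2) (congrArg (fun x => x.2.1) h2)
  refine (Fintype.card_le_of_injective _ h1).trans ?_
  rw [Fintype.card_sigma, ← card_univ, ← smul_eq_mul]
  refine sum_le_card_nsmul _ _ _ fun a _ => ?_
  refine (Fintype.card_le_of_surjective (Sym.ofVector (α := V) (n := lv a)) ?_).trans ?_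
  · rintro ⟨⟨s⟩, hs⟩
    exact ⟨⟨s, hs⟩, rfl⟩
  · rw [card_vector]
    exact (Nat.pow_le_pow_left (Nat.le_succ _) _).trans
      (Nat.pow_le_pow_right (Nat.succ_pos _) (hd a))

variable [Fintype L] [Fintype L']

/-- a linear form of the value of the point -/
def lf [Fintype ι] (el : ι → ℝ) (c : V → ℝ) (cd : L → ι) (mo : L → Multiset V) (x : L → ℝ) : ℝ :=
  ∑ a, el a * hm c (pt0 cd mo x a)

theorem lf_eq [Fintype ι] (el : ι → ℝ) (c : V → ℝ) (x : L → ℝ) :
    lf el c cd mo x = ∑ l, el (cd l) * wt c (mo l) * x l := by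
  classical
  simp only [lf, hm_pt0, mul_sum]
  rw [sum_comm]
  refine sum_congr rfl fun l _ => ?_
  simp [wt, mul_comm, mul_left_comm]

theorem hm_zero {c : V → ℝ} {I : Multiset V → Prop} (h : ∀ m, I m → wt c m = 0)
    {u : Alg (Multiset V)} (hu : Sup I u) : hm c u = 0 := by
  rw [← AddMonoidAlgebra.sum_single u, Finsupp.sum, map_sum]
  exact sum_eq_zero fun m hm => by
    rw [hm_real, h m (hu m (Finsupp.mem_support_iff.1 hm)), mul_zero]

theorem hm_SM0 (hL : Lab lv cd mo K) (hL' : Lab lv cd' mo' K')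
    {φ : Alg (Multiset V) →ₐ[ℝ] Alg (Multiset V')} (hφ : Grd φ)
    (hK : ∀ m, ¬ K m → Sup (fun m' => ¬ K' m') (φ (AddMonoidAlgebra.single m 1))) {c : V' → ℝ}
    (hc : ∀ m, ¬ K' m → wt c m = 0) (x : L → ℝ) (a : ι) :
    hm c (pt0 cd' mo' (SM0 φ cd mo cd' mo' *ᵥ x) a) = hm c (φ (pt0 cd mo x a)) := by
  rw [← sub_eq_zero, ← map_sub]
  exact hm_zero hc ((mp_fcf (q := 0) (Q := 0) hL hL' hφ hK).pt x a)

theorem vc_SM0 [DecidableEq V] (hL : Lab lv cd mo K) (hL' : Lab lv cd' mo' K')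
    {φ : Alg (Multiset V) →ₐ[ℝ] Alg (Multiset V')} (hφ : Grd φ)
    (hK : ∀ m, ¬ K m → Sup (fun m' => ¬ K' m') (φ (AddMonoidAlgebra.single m 1))) (x : L → ℝ)
    (l' : L') : vc (fcf 0 cd' mo' 0) (SM0 φ cd mo cd' mo' *ᵥ x) (mo' l') = ∑ m ∈ univ.image mo,
      (φ (AddMonoidAlgebra.single m 1)).coeff (mo' l') • vc (fcf 0 cd mo 0) x m := by
  funext a
  have h4 := ((mp_fcf (q := 0) (Q := 0) hL hL' hφ hK).pt x a).coeff
    (m := mo' l') fun h => h (hL'.mem l')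
  rw [AddMonoidAlgebra.coeff_sub, Finsupp.sub_apply, sub_eq_zero] at h4
  have h5 : (fcf 0 cd mo 0).pt x a = ∑ m ∈ univ.image mo,
      AddMonoidAlgebra.single m (vc (fcf 0 cd mo 0) x m a) := by
    refine (AddMonoidAlgebra.sum_single _).symm.trans (Finsupp.sum_of_support_subset _ ?_ _
      fun _ _ => AddMonoidAlgebra.single_zero _)
    intro m hm
    obtain ⟨l, h6⟩ := (fcf 0 cd mo 0).sup_pt (P := fun m => ∃ l, mo l = m)
      (fun l _ => ⟨l, rfl⟩) a m (Finsupp.mem_support_iff.1 hm)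
    exact mem_image.2 ⟨l, mem_univ _, h6⟩
  refine h4.trans ?_
  change (φ ((fcf 0 cd mo 0).pt x a)).coeff (mo' l') = _
  rw [h5, map_sum, AddMonoidAlgebra.coeff_sum, Finsupp.finsetSum_apply, Finset.sum_apply]
  exact sum_congr rfl fun m _ => by rw [hom_single, mul_comm]; rfl

theorem hm_sb_real [Fintype V'] (c : V' → ℝ) (B : Matrix V V' ℝ) (u : Alg (Multiset V)) :
    hm c (sb B u) = hm (B *ᵥ c) u := DFunLike.congr_fun (hm_sb c B) u

theorem cf_diag [Fintype V] [DecidableEq V] (c : V → ℝ) (m m' : Multiset V) :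
    cf (diagonal c) m m' = if m = m' then wt c m else 0 := by
  have : sb (diagonal c) (AddMonoidAlgebra.single m 1) = AddMonoidAlgebra.single m (wt c m) := by
    induction m using Multiset.induction_on with
    | empty => rw [wt_zero]; exact map_one _
    | cons v m ih =>
      rw [sb_cons, ih, show diagonal c v = fun w => if v = w then c v else 0 from rfl, lin_single,
        AddMonoidAlgebra.single_mul_single, wt_cons, Multiset.singleton_add]
  rw [cf, this, AddMonoidAlgebra.coeff_single, Finsupp.single_apply]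

theorem SM0_diag [Fintype V] [DecidableEq V] (hL : Lab lv cd mo K) (c : V → ℝ) (x : L → ℝ) :
    SM0 (sb (diagonal c)) cd mo cd mo *ᵥ x = fun l => wt c (mo l) * x l := by
  classical
  funext l'
  have h3 : ∀ l, SM0 (sb (diagonal c)) cd mo cd mo l' l = if l = l' then wt c (mo l') else 0 :=
    fun l => by
      change (if cd l = cd l' then cf (diagonal c) (mo l) (mo l') else 0) = _
      rw [cf_diag]
      by_cases h : l = l'
      · simp [h]
      · rw [if_neg h]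
        split_ifs with h4 h5
        exacts [(h (hL.inj _ _ h4 h5)).elim, rfl, rfl]
  simp [mulVec, dotProduct, h3]

/-- the integer weight of a monomial -/
def wz (c : V → ℤ) (m : Multiset V) : ℤ := (m.map c).prod

theorem wz_cast (c : V → ℤ) (m : Multiset V) : (wz c m : ℝ) = wt (fun v => c v) m := by
  simp [wz, wt, Int.cast_multiset_prod]

theorem wz_ne {c : V → ℤ} (h : ∀ v, c v ≠ 0) (m : Multiset V) : wz c m ≠ 0 :=
  Multiset.prod_ne_zero fun h1 => by
    obtain ⟨v, -, h2⟩ := Multiset.mem_map.1 h1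
    exact h v h2

theorem wt_mul (c c' : V → ℝ) (m : Multiset V) : wt (fun v => c v * c' v) m = wt c m * wt c' m :=
  Multiset.prod_map_mul

theorem wt_one (m : Multiset V) : wt (fun _ => 1) m = 1 := by simp [wt]

theorem wt_const (c : ℝ) (m : Multiset V) : wt (fun _ => c) m = c ^ m.card := by simp [wt]

theorem Lab.pr0_shift (hL : Lab lv cd mo K) (r r' x : L → ℝ) :
    pr0 cd mo (sft (pt0 cd mo r) (pt0 cd mo r') Q) x = pr0 cd mo Q (r + x) - r' := by
  funext l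
  simp [pr0, eval_sft, pt0_add, hL.coeff]

/-- the centres on a coset of a dilated lattice -/
theorem Lab.pc [Fintype V] [DecidableEq V] (hL : Lab lv cd mo K) {c : V → ℤ} (hc : ∀ v, c v ≠ 0)
    (r : L → ℤ) (r' : L → ℝ) : pc (p0 cd mo Q) (fun l => wz c (mo l)) r r' =
      p0 cd mo (mp (sb (diagonal fun v => (c v : ℝ)⁻¹))
        (sft (pt0 cd mo (toR r)) (pt0 cd mo r') Q)) := by
  funext z
  have h1 := pr0_mp (Q := sft (pt0 cd mo (toR r)) (pt0 cd mo r') Q) hL hL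
    (grd_sb (diagonal fun v => (c v : ℝ)⁻¹)) (fun m hm m' h => by
      change cf _ m m' ≠ 0 at h
      rw [cf_diag] at h
      split_ifs at h with h1
      exacts [h1 ▸ hm, (h rfl).elim]) (toR ((fun l => wz c (mo l)) * z))
  have h2 : ∀ l, wt (fun v => (c v : ℝ)⁻¹) (mo l) = ((wz c (mo l) : ℤ) : ℝ)⁻¹ := fun l => by
    refine eq_inv_of_mul_eq_one_left ?_
    rw [wz_cast, ← wt_mul, ← wt_one (mo l)]
    congr 1
    funext v
    exact inv_mul_cancel₀ (by exact_mod_cast hc v)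
  have h3 : ∀ l, ((wz c (mo l) : ℤ) : ℝ) ≠ 0 := fun l => by exact_mod_cast wz_ne hc _
  rw [SM0_diag hL, SM0_diag hL, hL.pr0_shift] at h1
  have h4 : (fun l => wt (fun v => (c v : ℝ)⁻¹) (mo l) * toR ((fun l => wz c (mo l)) * z) l) =
      toR z := funext fun l => by
    simp only [h2, toR_apply, Pi.mul_apply, Int.cast_mul, inv_mul_cancel_left₀ (h3 l)]
  rw [p0, ← h4, h1]
  funext l
  have h5 : toR (r + (fun l => wz c (mo l)) * z) = toR r + toR ((fun l => wz c (mo l)) * z) :=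
    funext fun l => by simp
  simp only [P057ST.pc, p0, h2, h5, Pi.sub_apply, div_eq_inv_mul]

theorem dil_Gm [DecidableEq L] (c : V → ℤ) (ω : Multiset V → ℝ) :
    dil (fun l => wz c (mo l)) (Gm T cd mo ω) = Gm T cd mo fun m => (wz c m : ℝ) ^ 2 * ω m := by
  classical
  ext l l'
  rw [dil_apply, Gm_apply, Gm_apply]
  split_ifs with h
  · rw [← h]; ring
  · simp

variable [Fintype ι] [DecidableEq ι] {d N : ℕ} {Λ η : ℝ}

theorem qq_Gm_le (hT : T.Ok) {ω ω' : Multiset V → ℝ} {a : ℝ} (h : ∀ l, ω (mo l) ≤ a * ω' (mo l))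
    (x : L → ℝ) : qq (Gm T cd mo ω) x ≤ a * qq (Gm T cd mo ω') x := qq_Gw_le hT h x

theorem Ctx.fm0 (h : Ctx T d N Λ η) (hQ : Fm T.lv T.q Q) (hL : Lab T.lv cd mo K) :
    (fcf T.q cd mo Q).Ok T := ok_fcf h.ok h.al hL hQ

theorem Ctx.tri (h : Ctx T d N Λ η) (hQ : Fm T.lv T.q Q) (hL : Lab T.lv cd mo K) :
    Tri (fun l => T.lv (cd l)) (p0 cd mo Q) := by
  rw [← p_fcf (T := T)]; exact (h.fm0 hQ hL).tri h.ok

theorem Ctx.pd (h : Ctx T d N Λ η) (hQ : Fm T.lv T.q Q) (hL : Lab T.lv cd mo K)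
    {ω : Multiset V → ℝ} (hω : ∀ l, 0 < ω (mo l)) : (Gm T cd mo ω).PosDef := by
  classical
  rw [Gm_congr (ω' := fun m => if 0 < ω m then ω m else 1) fun l => (if_pos (hω l)).symm]
  exact posDef_Gw (ω := fun m => if 0 < ω m then ω m else 1) (h.fm0 hQ hL) h.ok fun m => by
    split_ifs with h1; exacts [h1, one_pos]

theorem Ctx.gam (h : Ctx T d N Λ η) {ω : Multiset V → ℝ} {a : ℝ} (hω : ∀ l, ω (mo l) ≤ a)
    (v : L → ℝ) : qq (Gm T cd mo ω) v ≤ a * qq ((fcf T.q cd mo Q).Gam T) v := by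
  rw [← Gw_one]
  exact qq_Gm_le h.ok (ω' := fun _ => 1) (by simpa using hω) v

theorem Ctx.ms [Fintype V] [DecidableEq L] (h : Ctx T d N Λ η) (hQ : Fm T.lv T.q Q)
    (hL : Lab T.lv cd mo K) (hN : Fintype.card V ≤ N) {ω : Multiset V → ℝ} {a : ℝ}
    (ha : 0 ≤ a) (hω : ∀ l, a * ω (mo l) ≤ Λ) {A : Matrix L L ℝ} (hA : A.PosDef)
    (hle : ∀ v, qq A v ≤ a * qq (Gm T cd mo ω) v) : |ms A (p0 cd mo Q) - 1| ≤ η := by
  rw [← p_fcf (T := T)]
  refine h.lf _ _ _ _ (h.fm0 hQ hL) hN (fun l => h.le _) A hA fun v => (hle v).trans ?_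
  rw [← qq_smul_mat, Gm_smul]
  exact h.gam hω v

theorem Ctx.ms' [Fintype V] [DecidableEq L] (h : Ctx T d N Λ η) (hQ : Fm T.lv T.q Q)
    (hL : Lab T.lv cd mo K) (hN : Fintype.card V ≤ N) {ω : Multiset V → ℝ}
    (h0 : ∀ l, 0 < ω (mo l)) (hω : ∀ l, ω (mo l) ≤ Λ) :
    |P057PC.ms (Gm T cd mo ω) (p0 cd mo Q) - 1| ≤ η :=
  h.ms hQ hL hN zero_le_one (by simpa using hω) (h.pd hQ hL h0) (by simp)

/-- deletion of the generators outside the image of `j` -/
theorem Ctx.kill [Fintype V] [DecidableEq V] [Fintype V'] [DecidableEq L] [DecidableEq L']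
    (h : Ctx T d N Λ η) (hQ : Fm T.lv T.q Q) (hL : Lab T.lv cd mo K) (hL' : Lab T.lv cd' mo' K')
    (hN : Fintype.card V + 1 ≤ N) {j : V' → V} (hj : Function.Injective j)
    (hK : ∀ m, K' m ↔ K (m.map j)) {e : L' → L} (h1 : ∀ l, cd (e l) = cd' l)
    (h2 : ∀ l, mo (e l) = (mo' l).map j) {ω : Multiset V → ℝ} (h0 : ∀ l, 0 < ω (mo l))
    (hω : ∀ l, 3 * ω (mo l) ≤ Λ) (hΛ : 0 ≤ Λ) {f : (L' → ℤ) → ℝ} {B : ℝ} (hf : ∀ y, |f y| ≤ B) :
    |Er (Gm T cd mo ω) (p0 cd mo Q) (fun z => f (z ∘ e)) -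
      Er (Gm T cd' mo' fun m => ω (m.map j)) (p0 cd' mo' (mp (sb (sel j)) Q)) f| ≤
        Fintype.card V * (3 * √η * B) := by
  classical
  have he : Function.Injective e := fun l l' h3 => hL'.inj _ _ (by rw [← h1, h3, h1])
    (Multiset.map_injective hj (by rw [← h2, h3, h2]))
  have h3 := push_set h.lf h.ok h.e1 hN (lam := Λ / 3) (by linarith) (by linarith)
    (A0 := Gm T cd' mo' fun m => ω (m.map j)) (p0 := p0 cd' mo' (mp (sb (sel j)) Q))
    (f := fun y => f y) (B := B) (fun y => by simpa using hf y)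
    (univ.filter fun v => v ∉ Set.range j) L (fcf T.q cd mo Q) (Gm T cd mo ω) e (h.fm0 hQ hL)
    (fun l => h.le _) (h.pd hQ hL h0) (h.gam fun l => by linarith [hω l])
    (fun v _ l l' h3 h4 => Gw_ne ω fun h5 => h4 (by
      change mo l = mo l' at h5
      change (fcf T.q cd mo Q).Dv v (mo l')
      exact h5 ▸ h3)) he
    (fun l => ⟨fun ⟨k, hk⟩ v hv h3 => (mem_filter.1 hv).2 (by
        have h4 : v ∈ mo l := dv_fcf.1 h3
        rw [← hk, h2] at h4
        obtain ⟨w, -, hw⟩ := Multiset.mem_map.1 h4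
        exact ⟨w, hw⟩), fun h3 => by
      have h4 : ∀ v ∈ mo l, v ∈ Set.range j := fun v hv => by_contra fun h5 =>
        h3 v (mem_filter.2 ⟨mem_univ _, h5⟩) (dv_fcf.2 hv)
      obtain ⟨m, hm⟩ : ∃ m : Multiset V', m.map j = mo l := by
        choose g hg using h4
        exact ⟨(mo l).pmap g fun _ h => h, by simp [Multiset.map_pmap, hg, Multiset.pmap_eq_map]⟩
      obtain ⟨k, h5, h6⟩ := hL'.sur (cd l) m (by rw [← hL.deg, ← hm, Multiset.card_map])
        ((hK m).2 (hm ▸ hL.mem l))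
      exact ⟨k, hL.inj _ _ ((h1 k).trans h5) (by rw [h2, h6, hm])⟩⟩)
    (Gm_sel hj h1 h2 ω) fun z k => by
      rw [p_fcf]
      exact p0_sel hj hL hL' (fun m => (hK m).1) h1 h2 (toR z) k
  rw [p_fcf] at h3
  rw [er_sub]
  refine h3.trans (mul_le_mul_of_nonneg_right ?_ (mul_nonneg (by positivity)
    ((abs_nonneg _).trans (hf 0))))
  exact_mod_cast card_le_univ _

/-- a small shear -/
theorem Ctx.shear [Fintype V] [DecidableEq V] [DecidableEq L] (h : Ctx T d N Λ η)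
    (hQ : Fm T.lv T.q Q) (hL : Lab T.lv cd mo K) (hN : Fintype.card V ≤ N) {B B' : Matrix V V ℤ}
    (hB : B' * B = 1)
    (hK : ∀ m, ¬ K m → Sup (fun m' => ¬ K m') (sb (mR B) (AddMonoidAlgebra.single m 1)))
    (hK' : ∀ m, ¬ K m → Sup (fun m' => ¬ K m') (sb (mR B') (AddMonoidAlgebra.single m 1)))
    {μ : V → ℝ} {ρ β a1 a2 e : ℝ} (h0 : ∀ v, 0 < μ v) (hρ0 : 0 ≤ ρ) (hρ : ρ ≤ 1)
    (h1 : ∀ v, B v v = 1) (h2 : ∀ v w, v ≠ w → B v w ≠ 0 → μ w ≤ ρ * μ v) (hβ1 : 1 ≤ β)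
    (hβ : ∀ v, ∑ w, |(B v w : ℝ)| ≤ β) {ω : Multiset V → ℝ} (ha : 0 < a1)
    (hl : ∀ l, a1 * wt μ (mo l) ≤ ω (mo l)) (hu : ∀ l, ω (mo l) ≤ a2 * wt μ (mo l))
    (hω : ∀ l, 2 * ω (mo l) ≤ Λ) (e0 : 0 ≤ e) (e1 : e ≤ 1 / 6)
    (he : a2 * (ρ * (2 * β ^ d * Fintype.card L) ^ 2) ≤ e ^ 2 * a1) :
    ∃ S : Matrix L L ℤ, mR S = SM0 (sb (mR B)) cd mo cd mo ∧ ∀ (f : (L → ℤ) → ℝ) (C : ℝ),
      (∀ z, |f z| ≤ C) → |Er (Gm T cd mo ω) (p0 cd mo Q) (fun z => f (S *ᵥ z)) -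
        Er (Gm T cd mo ω) (p0 cd mo (mp (sb (mR B)) Q)) f| ≤
          C * (4 * η + 24 * e * Fintype.card L) := by
  classical
  obtain ⟨S, hS⟩ := exists_int_SM (φ := sb (mR B)) (C := fcf 0 cd mo 0) (C' := fcf 0 cd mo 0)
    fun l => int_sb (fun v w => ⟨_, rfl⟩) _
  obtain ⟨U, hU⟩ := exists_int_SM (φ := sb (mR B')) (C := fcf 0 cd mo 0) (C' := fcf 0 cd mo 0)
    fun l => int_sb (fun v w => ⟨_, rfl⟩) _
  have hSU : S * U = 1 := mR_inj (by
    have h3 := (mp_fcf (q := 0) (Q := 0) hL hL (grd_sb (mR B)) hK).mul (φ := sb (mR B'))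
      (C := fcf 0 cd mo 0)
    rw [sb_sb, ← mR_mul, hB, mR_one, sb_one] at h3
    rw [mR_mul, hS, hU, mR_one]
    exact h3.trans (SM_id rfl rfl hL.inj))
  have w0 : ∀ l, 0 < ω (mo l) := fun l => (mul_pos ha (wt_pos h0 _)).trans_le (hl l)
  have hA := h.pd hQ hL w0
  refine ⟨S, hS, fun f C hf => ?_⟩
  rw [er_sub]
  refine Ex_shear (h.tri hQ hL) hA hSU (fun z => ?_) e0 e1 h.e1 (fun v => ?_)
    (fun A' hA' hle => h.ms hQ hL hN zero_le_two hω hA' hle) (f := fun z => f z)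
    fun z => by simpa using hf z
  · rw [p0, toR_mulVec, hS]
    exact pr0_mp hL hL (grd_sb _) hK _
  have h3 := qq_Gw_map (C := fcf 0 cd mo 0) (C' := fcf 0 cd mo 0) h.ok (ω := wt μ) (ω' := wt μ)
    (fun _ => (wt_pos h0 _).le) (fun _ => (wt_pos h0 _).le) (b := 2 * β ^ d) hρ0
    (n := fun m' m => cf (mR B) m m' - if m = m' then 1 else 0) (x := v) (y := mR S *ᵥ v - v)
    (fun l' l => by
      have h4 := (abs_cf (B := mR B) hβ (mo l) (mo l')).trans
        (pow_le_pow_right₀ hβ1 ((hL.deg l).trans_le (h.le _)))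
      have h5 := one_le_pow₀ (n := d) hβ1
      refine (abs_sub _ _).trans ?_
      change |cf (mR B) (mo l) (mo l')| + _ ≤ _
      split_ifs <;> simp <;> linarith)
    (fun l' l h4 => sup_shear h0 hρ (B := mR B) (fun v => by simp [mR, h1])
      (fun v w h5 h6 => h2 v w h5 (by simpa [mR] using h6)) (mo l) (mo l') (by
        rw [AddMonoidAlgebra.coeff_sub, Finsupp.sub_apply, AddMonoidAlgebra.coeff_single,
          Finsupp.single_apply]
        exact h4)) fun l' => by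
      have h4 := vc_SM0 hL hL (grd_sb (mR B)) hK v l'
      funext a
      rw [vc, ← Cf.pt_diff, AddMonoidAlgebra.coeff_sub, Finsupp.sub_apply, hS]
      refine (congrArg (· - _) (congrFun h4 a)).trans ?_
      simp only [sub_smul, sum_sub_distrib, ite_smul, one_smul, zero_smul, sum_ite_eq',
        Pi.sub_apply]
      rw [if_pos (mem_image_of_mem _ (mem_univ l'))]
      rfl
  have h4 := qq_Gm_le h.ok hu (cd := cd) (mR S *ᵥ v - v)
  have h5 := qq_Gm_le h.ok (cd := cd) (ω := wt μ) (ω' := ω) (a := a1⁻¹)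
    (fun l => by rw [le_inv_mul_iff₀ ha]; exact hl l) v
  have h6 := qq_nonneg hA.posSemidef v
  rcases isEmpty_or_nonempty L with hL0 | ⟨⟨l0⟩⟩
  · simp [qq, dotProduct]
  have a0 : 0 ≤ a2 := (mul_pos_iff_of_pos_right (wt_pos h0 _)).1 ((w0 l0).trans_le (hu l0)) |>.le
  refine h4.trans ((mul_le_mul_of_nonneg_left (h3.trans (mul_le_mul_of_nonneg_left h5
    (by positivity))) a0).trans ?_)
  rw [← mul_assoc, ← mul_assoc]
  refine mul_le_mul_of_nonneg_right ?_ h6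
  rw [← div_eq_mul_inv, div_le_iff₀ ha]
  exact le_trans (le_of_eq (by ring)) he

end

end Vale.Agent.P057ST
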