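import Vale.Agent.P057ST.Cfg

/-! A shear followed by a deletion; copies of the point system. -/

set_option linter.all false

open Matrix Finset Filter Topology
open Vale.Agent.P267.H775 Vale.Agent.P057G Vale.Agent.P057PC

namespace Vale.Agent.P057ST

noncomputable section

theorem hs_pi {I α : Type} [Fintype I] [DecidableEq I] {p : α → ℝ} {u : ℝ}
    (h : HasSum p u) (p0 : ∀ x, 0 ≤ p x) :
    HasSum (fun x : I → α => ∏ i, p (x i)) (u ^ Fintype.card I) := by
  classical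
  have t : Tendsto (fun s : Finset α => Fintype.piFinset fun _ : I => s) atTop atTop :=
    tendsto_atTop.2 fun t => (eventually_ge_atTop (t.biUnion fun a => univ.image a)).mono
      fun s hs a ha => Fintype.mem_piFinset.2 fun i =>
        hs (mem_biUnion.2 ⟨a, ha, mem_image_of_mem _ (mem_univ i)⟩)
  have t2 : Tendsto (fun s : Finset α => ∑ x ∈ Fintype.piFinset fun _ : I => s, ∏ i, p (x i))
      atTop (𝓝 (∏ i : I, u)) := by
    simp only [← prod_univ_sum]
    exact tendsto_finset_prod _ fun i _ => h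
  have q0 : ∀ x : I → α, 0 ≤ ∏ i, p (x i) := fun x => prod_nonneg fun i _ => p0 _
  have hs : Summable fun x : I → α => ∏ i, p (x i) := summable_of_sum_le q0 fun s =>
    ge_of_tendsto t2 ((tendsto_atTop.1 t s).mono fun s' hs' =>
      sum_le_sum_of_subset_of_nonneg hs' fun x _ _ => q0 x)
  rw [← card_univ, ← prod_const]
  exact tendsto_nhds_unique (Tendsto.comp hs.hasSum t) t2 ▸ hs.hasSum

/-- independent copies -/
theorem er_pi {L I : Type} [Fintype L] [DecidableEq L] [Fintype I] [DecidableEq I] {lv : L → ℕ}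
    {p : (L → ℤ) → L → ℝ} (hp : Tri lv p) {H : Matrix L L ℝ} (hH : H.PosDef)
    {p' : (L × I → ℤ) → L × I → ℝ} (h : ∀ z a n, p' z (a, n) = p (fun b => z (b, n)) a)
    {f : (L → ℤ) → ℝ} {C : ℝ} (hf : ∀ z, 0 ≤ f z ∧ f z ≤ C) :
    Er (blockDiagonal fun _ => H) p' (fun z => ∏ n, f fun b => z (b, n)) =
      Er H p f ^ Fintype.card I := by
  have h1 : ∀ v : L × I → ℝ, ng (blockDiagonal fun _ => H) v = ∏ n, ng H fun b => v (b, n) :=
    fun v => by
      have h2 : qq (blockDiagonal fun _ => H) v = ∑ n, qq H fun b => v (b, n) := by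
        simp only [qq, dotProduct, mulVec, Fintype.sum_prod_type_right, blockDiagonal_apply,
          ite_mul, zero_mul, sum_ite_irrel, sum_const_zero, sum_ite_eq, mem_univ, if_true]
      simp only [ng, gs, vol, h2, det_blockDiagonal, prod_div_distrib, mul_sum, ← sum_neg_distrib,
        Real.exp_sum, prod_inv_distrib]
      rw [Real.sqrt_prod _ fun _ _ => hH.det_pos.le]
  have h2 := hs_pi (I := I) (summable_er hp hH (C := C) fun z => by
    rw [abs_of_nonneg (hf z).1]; exact (hf z).2).hasSum fun z => mul_nonneg (ng_nonneg _ _) (hf z).1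
  rw [Er, Er, ← h2.tsum_eq, ← ((Equiv.prodComm L I).arrowCongr (Equiv.refl ℤ)).trans
    (Equiv.curry I L ℤ) |>.tsum_eq]
  refine tsum_congr fun z => ?_
  rw [h1, ← prod_mul_distrib]
  refine prod_congr rfl fun n _ => ?_
  congr 2
  funext a
  simp [h]
  rfl

variable {ι V V' L L' : Type} {lv : ι → ℕ} {Q : ι → Pl ι V} {cd : L → ι} {mo : L → Multiset V}
  {K : Multiset V → Prop} {T : Tw ι Unit} {cd' : L' → ι} {mo' : L' → Multiset V'}
  {K' : Multiset V' → Prop}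

theorem sup_sel [DecidableEq V] [Fintype V'] {j : V' → V} (hj : Function.Injective j)
    (hK : ∀ m, K' m → K (m.map j)) (m : Multiset V) (hm : ¬ K m) :
    Sup (fun m' => ¬ K' m') (sb (sel j) (AddMonoidAlgebra.single m 1)) := fun m' h h3 => by
  change cf (sel j) m m' ≠ 0 at h
  rw [cf_sel hj] at h
  split_ifs at h with h4
  exacts [hm (h4 ▸ hK _ h3), h rfl]

theorem sup_fix [Fintype V] (hd : ∀ m m', K (m + m') → K m) {B : Matrix V V ℝ} {mv : V → Prop}
    [DecidablePred mv] (h : ∀ v w, B v w ≠ 0 → v = w ∨ mv v)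
    (hK : ∀ m, K (m.filter fun v => ¬ mv v) → K m) (m : Multiset V) (hm : ¬ K m) :
    Sup (fun m' => ¬ K m') (sb B (AddMonoidAlgebra.single m 1)) := fun m' h1 h2 => by
  obtain ⟨r, hr⟩ := Multiset.le_iff_exists_add.1 (cf_sup B
    (P := fun m m' => m.filter (fun v => ¬ mv v) ≤ m') (by simp) (fun v w m m' h3 h4 => by
      by_cases h5 : mv v
      · rw [Multiset.filter_cons_of_neg (p := fun v => ¬ mv v) _ (not_not.2 h5)]
        exact h4.trans (Multiset.le_cons_self _ _)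
      · rw [Multiset.filter_cons_of_pos (p := fun v => ¬ mv v) _ h5, (h v w h3).resolve_right h5]
        exact Multiset.cons_le_cons _ h4) m m' h1)
  exact hm (hK m (hd _ r (hr ▸ h2)))

theorem Lab.emb (hL : Lab lv cd mo K) (hL' : Lab lv cd' mo' K') {j : V' → V}
    (hK : ∀ m, K' m → K (m.map j)) :
    ∃ e : L' → L, (∀ l, cd (e l) = cd' l) ∧ ∀ l, mo (e l) = (mo' l).map j := by
  choose e h1 h2 using fun l => hL.sur (cd' l) ((mo' l).map j)
    (by rw [Multiset.card_map, hL'.deg]) (hK _ (hL'.mem l))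
  exact ⟨e, h1, h2⟩

theorem wt_mulVec [Fintype V'] {B : Matrix V V' ℝ} {c : V' → ℝ} (hc : ∀ m, ¬ K' m → wt c m = 0)
    (hK : ∀ m, ¬ K m → Sup (fun m' => ¬ K' m') (sb B (AddMonoidAlgebra.single m 1)))
    (m : Multiset V) (hm : ¬ K m) : wt (B *ᵥ c) m = 0 := by
  rw [← one_mul (wt _ m), ← hm_real, ← hm_sb_real]
  exact hm_zero hc (hK m hm)

variable [Fintype L] [Fintype L']

/-- the value of the point -/
def ev (c : V → ℝ) (cd : L → ι) (mo : L → Multiset V) (x : L → ℝ) : ι → ℝ :=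
  fun a => hm c (pt0 cd mo x a)

theorem ev_SM0 [Fintype V'] (hL : Lab lv cd mo K) (hL' : Lab lv cd' mo' K') {B : Matrix V V' ℝ}
    (hK : ∀ m, ¬ K m → Sup (fun m' => ¬ K' m') (sb B (AddMonoidAlgebra.single m 1))) {c : V' → ℝ}
    (hc : ∀ m, ¬ K' m → wt c m = 0) (x : L → ℝ) :
    ev c cd' mo' (SM0 (sb B) cd mo cd' mo' *ᵥ x) = ev (B *ᵥ c) cd mo x :=
  funext fun a => (hm_SM0 hL hL' (grd_sb B) hK hc x a).trans (hm_sb_real _ _ _)

theorem ev_sel [DecidableEq V] [Fintype V'] {j : V' → V} (hj : Function.Injective j)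
    (hL : Lab lv cd mo K) (hL' : Lab lv cd' mo' K') (hK : ∀ m, K' m → K (m.map j)) {e : L' → L}
    (h1 : ∀ l, cd (e l) = cd' l) (h2 : ∀ l, mo (e l) = (mo' l).map j) {c : V' → ℝ}
    (hc : ∀ m, ¬ K' m → wt c m = 0) (x : L → ℝ) :
    ev c cd' mo' (x ∘ e) = ev (sel j *ᵥ c) cd mo x := by
  rw [← SM0_sel hj hL h1 h2, ev_SM0 hL hL' (sup_sel hj hK) hc]

theorem ev_add (c : V → ℝ) (x y : L → ℝ) : ev c cd mo (x + y) = ev c cd mo x + ev c cd mo y := by
  funext a; simp [ev, pt0_add]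

theorem ev_eq [DecidableEq ι] (c : V → ℝ) (x : L → ℝ) (a : ι) :
    ev c cd mo x a = ∑ l, if cd l = a then x l * wt c (mo l) else 0 := hm_pt0 c x a

theorem ev_dil (c c' : V → ℝ) (x : L → ℝ) :
    ev c cd mo (fun l => wt c' (mo l) * x l) = ev (fun v => c v * c' v) cd mo x := by
  classical
  funext a
  simp only [ev_eq, wt_mul]
  exact sum_congr rfl fun l _ => if_congr Iff.rfl (by ring) rfl

theorem ev_const (hL : Lab lv cd mo K) (c : V → ℝ) (D : ℝ) (x : L → ℝ) (a : ι) :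
    ev (fun v => c v * D) cd mo x a = D ^ lv a * ev c cd mo x a := by
  classical
  simp only [ev_eq, wt_mul, wt_const, hL.deg, mul_sum]
  refine sum_congr rfl fun l _ => ?_
  split_ifs with h
  · rw [h]; ring
  · simp

variable [Fintype ι] [DecidableEq ι] {d N : ℕ} {Λ η : ℝ}

/-- a small shear followed by a deletion -/
theorem Ctx.col [Fintype V] [DecidableEq V] [Fintype V'] [DecidableEq L] [DecidableEq L']
    (h : Ctx T d N Λ η) (hQ : Fm T.lv T.q Q) (hL : Lab T.lv cd mo K) (hL' : Lab T.lv cd' mo' K')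
    (hN : Fintype.card V + 1 ≤ N) {j : V' → V} (hj : Function.Injective j)
    (hK : ∀ m, K' m ↔ K (m.map j)) {M : Matrix V V ℤ} {mv : V → Prop} [DecidablePred mv]
    (h1 : ∀ v w, M v w ≠ 0 → mv v ∧ ¬ mv w) (hK2 : ∀ m, K (m.filter fun v => ¬ mv v) → K m)
    {μ : V → ℝ} {ρ β a1 a2 e : ℝ} (h0 : ∀ v, 0 < μ v) (hρ0 : 0 ≤ ρ) (hρ : ρ ≤ 1)
    (h2 : ∀ v w, M v w ≠ 0 → μ w ≤ ρ * μ v) (hβ1 : 1 ≤ β) (hβ : ∀ v, 1 + ∑ w, |(M v w : ℝ)| ≤ β)
    {ω : Multiset V → ℝ} (ha : 0 < a1) (hl : ∀ l, a1 * wt μ (mo l) ≤ ω (mo l))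
    (hu : ∀ l, ω (mo l) ≤ a2 * wt μ (mo l)) (hω : ∀ l, 3 * ω (mo l) ≤ Λ) (hΛ : 0 ≤ Λ) (e0 : 0 ≤ e)
    (e1 : e ≤ 1 / 6) (he : a2 * (ρ * (2 * β ^ d * Fintype.card L) ^ 2) ≤ e ^ 2 * a1) :
    ∃ σ : (L → ℤ) → L' → ℤ, (∀ z c, (∀ m, ¬ K' m → wt c m = 0) →
        ev c cd' mo' (toR (σ z)) = ev (((1 + mR M) * sel j) *ᵥ c) cd mo (toR z)) ∧
      ∀ (f : (L' → ℤ) → ℝ) (C : ℝ), (∀ z, |f z| ≤ C) →
        |Er (Gm T cd mo ω) (p0 cd mo Q) (fun z => f (σ z)) - Er (Gm T cd' mo' fun m => ω (m.map j))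
          (p0 cd' mo' (mp (sb ((1 + mR M) * sel j)) Q)) f| ≤
            C * (4 * η + 24 * e * Fintype.card L + Fintype.card V * (3 * √η)) := by
  have m0 : ∀ v, M v v = 0 := fun v => by_contra fun h3 => (h1 v v h3).2 (h1 v v h3).1
  have m1 : M * M = 0 := by
    ext v w
    refine sum_eq_zero fun u _ => by_contra fun h3 => ?_
    exact (h1 v u (left_ne_zero_of_mul h3)).2 (h1 u w (right_ne_zero_of_mul h3)).1
  have m2 : ∀ (M' : Matrix V V ℤ), (∀ v w, M' v w ≠ 0 → M v w ≠ 0) → ∀ m, ¬ K m →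
      Sup (fun m' => ¬ K m') (sb (mR (1 + M')) (AddMonoidAlgebra.single m 1)) := fun M' h3 =>
    sup_fix hL.dc (fun v w h4 => or_iff_not_imp_left.2 fun h5 =>
      (h1 v w (h3 v w (by simpa [mR, h5] using h4))).1) hK2
  have m3 : mR (1 + M) = 1 + mR M := by
    ext v w; simp [mR, one_apply]
  have w0 : ∀ l, 0 < ω (mo l) := fun l => (mul_pos ha (wt_pos h0 _)).trans_le (hl l)
  obtain ⟨S, hS, hs⟩ := h.shear hQ hL (by omega) (B := 1 + M) (B' := 1 + -M)
    (by rw [add_mul, mul_add, mul_add, neg_mul M M, m1]; simp) (m2 M fun _ _ => id)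
    (m2 (-M) fun _ _ h => by simpa using h) h0 hρ0 hρ (fun v => by simp [m0])
    (fun v w h3 h4 => h2 v w (by simpa [h3] using h4)) hβ1 (fun v => le_trans (by
      have : (1 : ℝ) = ∑ w, if v = w then 1 else 0 := by simp
      rw [this, ← sum_add_distrib]
      refine sum_le_sum fun w _ => ?_
      rw [Matrix.add_apply, one_apply, Int.cast_add]
      refine (abs_add_le _ _).trans (add_le_add (le_of_eq ?_) le_rfl)
      split_ifs <;> simp) (hβ v)) ha hl hu (fun l => by linarith [hω l, w0 l]) e0 e1 he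
  obtain ⟨E, e1, e2⟩ := hL.emb hL' fun m => (hK m).1
  refine ⟨fun z => (S *ᵥ z) ∘ E, fun z c hc => ?_, fun f C hf => ?_⟩
  · rw [show toR ((S *ᵥ z) ∘ E) = toR (S *ᵥ z) ∘ E from rfl,
      ev_sel hj hL hL' (fun m => (hK m).1) e1 e2 hc, toR_mulVec, hS,
      ev_SM0 hL hL (m2 M fun _ _ => id) (wt_mulVec hc (sup_sel hj fun m => (hK m).1)),
      mulVec_mulVec, m3]
  · have h3 := hs (fun z => f (z ∘ E)) C fun z => hf _
    have h4 := h.kill (hQ.mp (grd_sb (mR (1 + M)))) hL hL' hN hj hK e1 e2 w0 hω hΛ hf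
    rw [mp_mp, sb_sb, m3] at h4
    rw [m3] at h3
    refine (abs_sub_le _ _ _).trans ((add_le_add h3 h4).trans (le_of_eq ?_))
    ring

end

end Vale.Agent.P057ST
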