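import Vale.Agent.P057ST.Stp

/-! The dichotomy. -/

set_option linter.all false

open Matrix Finset Function
open scoped Real
open Vale.Agent.P267.H775 Vale.Agent.P057G Vale.Agent.P057PC Vale.Agent.P057TP

namespace Vale.Agent.P057ST

noncomputable section

/-- the scales -/
structure Kn (K t η : ℝ) : Prop where
  kt : K * t = 1
  k1 : 1000 ≤ K
  e0 : 0 ≤ η
  e1 : η ≤ (t ^ 6) ^ 2

variable {K t η : ℝ}

theorem Kn.t0 (h : Kn K t η) : 0 < t := by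
  by_contra h1
  nlinarith [h.kt, h.k1]

theorem Kn.t1 (h : Kn K t η) : t ≤ 1 / 1000 := by nlinarith [h.kt, h.k1, h.t0]

theorem Kn.pw (h : Kn K t η) (a b : ℕ) : t ^ (a + b) * K ^ a = t ^ b := by
  rw [pow_add, mul_right_comm, ← mul_pow, mul_comm t, h.kt, one_pow, one_mul]

theorem Kn.le (h : Kn K t η) (a : ℕ) {c : ℝ} (hc : c ≤ 1000) : c * t ^ (a + 1) ≤ t ^ a := by
  have := pow_pos h.t0 a
  rw [pow_succ]
  nlinarith [mul_nonneg this.le (show 0 ≤ 1 - 1000 * t by linarith [h.t1]),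
    mul_nonneg (mul_pos this h.t0).le (show 0 ≤ 1000 - c by linarith)]

theorem Kn.mono (h : Kn K t η) {a b : ℕ} (hab : b ≤ a) : t ^ a ≤ t ^ b :=
  pow_le_pow_of_le_one h.t0.le (by linarith [h.t1]) hab

theorem Kn.sq (h : Kn K t η) : √η ≤ t ^ 6 := Real.sqrt_le_iff.2 ⟨(pow_pos h.t0 _).le, h.e1⟩

theorem Kn.eta (h : Kn K t η) : η ≤ t ^ 6 := h.e1.trans (by rw [← pow_mul]; exact h.mono (by simp))

theorem Kn.err (h : Kn K t η) {n : ℝ} (hn : n ≤ K) :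
    4 * η + 24 * t ^ 6 * K + n * (3 * √η) ≤ 31 * t ^ 5 := by
  have h1 : t ^ 6 * K ^ 1 = t ^ 5 := h.pw 1 5
  have h2 := h.mono (show 5 ≤ 6 by simp)
  have h3 := mul_le_mul hn h.sq (Real.sqrt_nonneg _) (by linarith [h.k1])
  have h4 := h.eta
  rw [pow_one] at h1
  nlinarith

theorem Kn.rho (h : Kn K t η) {x : ℝ} (x0 : 0 ≤ x) (hx : x ≤ K) :
    K ^ 14 * (t ^ 31 * (2 * x * K) ^ 2) ≤ (t ^ 6) ^ 2 := by
  have t0 := h.t0
  have k0 : 0 ≤ K := by linarith [h.k1]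
  calc _ ≤ K ^ 14 * (t ^ 31 * (2 * K * K) ^ 2) := by gcongr
    _ = 4 * (t ^ (18 + 13) * K ^ 18) := by ring
    _ ≤ _ := by rw [h.pw, ← pow_mul]; exact h.le 12 (by norm_num)

theorem Kn.inv (h : Kn K t η) (a : ℕ) : (t ^ a)⁻¹ = K ^ a := by
  rw [← inv_pow, inv_eq_of_mul_eq_one_left h.kt]

theorem Kn.num (h : Kn K t η) {s : ℕ} {Λ n : ℝ} (hΛ : K ^ (109 * s + 17) ≤ Λ) (n0 : 0 ≤ n)
    (hn : (n + 1) ^ s ≤ K) : Num s Λ η (K ^ (78 * s + 2)) (K ^ 14) (t ^ 31) (t ^ 6) K n := by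
  have k1 : 1 ≤ K := by linarith [h.k1]
  refine ⟨one_le_pow₀ k1, one_le_pow₀ k1, le_of_eq ?_, pow_pos h.t0 _,
    pow_le_one₀ h.t0.le (by linarith [h.t1]), le_trans ?_ hΛ, (pow_pos h.t0 _).le, ?_,
    h.rho (by positivity) (add_comm n 1 ▸ hn)⟩
  · have := h.pw 12 0
    calc K ^ 2 = (t ^ (12 + 0) * K ^ 12) * K ^ 2 := by rw [this]; simp
      _ = _ := by ring
  · rw [h.inv]
    calc _ ≤ K * (K ^ (78 * s + 2) * K ^ 14 * (K ^ 31) ^ s) := by gcongr; linarith [h.k1]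
      _ = _ := by ring
  · linarith [h.mono (show 1 ≤ 6 by simp), h.t1]

theorem Kn.avg (h : Kn K t η) {x : ℝ} (x0 : 0 ≤ x) (hx : x ≤ K) :
    2 * t ^ 6 * x ≤ 1 ∧ 4 * (t ^ 6 * K ^ 5) ≤ 1 ∧
      1 - 9 * t ≤ (1 - η) * (1 - 2 * t ^ 6 * x) ^ 2 * (1 - 4 * (t ^ 6 * K ^ 5)) := by
  have h1 := h.pw 5 1
  have h2 : t ^ 6 * K ^ 1 = t ^ 5 := h.pw 1 5
  have h3 := h.mono (show 1 ≤ 5 by simp)
  have h4 := h.eta.trans (h.mono (show 1 ≤ 6 by simp))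
  have h5 := mul_le_mul_of_nonneg_left hx (pow_pos h.t0 6).le
  have h6 := mul_nonneg (pow_pos h.t0 6).le x0
  have t0 := h.t0
  have t1 := h.t1
  have e0 := h.e0
  simp only [pow_one] at h1 h2 h3 h4
  rw [show t ^ 6 * K ^ 5 = t from h1, mul_assoc 2]
  have h7 : t ^ 6 * x ≤ t := by linarith
  generalize t ^ 6 * x = y at h6 h7
  refine ⟨by linarith, by linarith, ?_⟩
  calc 1 - 9 * t ≤ (1 - t) * (1 - 4 * t) * (1 - 4 * t) := by nlinarith [mul_pos t0 t0]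
    _ ≤ _ := by gcongr <;> nlinarith

theorem Kn.hyp (h : Kn K t η) {x : ℝ} (hx : x ≤ K) : x * Real.exp (-(π * K)) * 2 ≤ 1 / 4 := by
  have h1 := Real.quadratic_le_exp_of_nonneg (x := K) (by linarith [h.k1])
  have h2 : Real.exp (-(π * K)) ≤ Real.exp (-K) :=
    Real.exp_le_exp.2 (by nlinarith [Real.pi_gt_three, h.k1])
  have h3 : Real.exp K * Real.exp (-K) = 1 := by rw [← Real.exp_add]; simp
  have h4 := Real.exp_pos (-(π * K))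
  have h5 : 8 * K ≤ Real.exp K := by nlinarith [h.k1]
  have h6 := mul_le_mul h5 h2 h4.le (Real.exp_pos _).le
  nlinarith [mul_le_mul_of_nonneg_right hx h4.le]

theorem pow_gap {a b : ℝ} (h0 : 0 ≤ a) (h : a ≤ b) {n : ℕ} (hn : n ≠ 0) :
    (1 + a) ^ n + (b - a) ≤ (1 + b) ^ n := by
  obtain ⟨n, rfl⟩ := Nat.exists_eq_succ_of_ne_zero hn
  have h1 : (1 + a) ^ n ≤ (1 + b) ^ n := pow_le_pow_left₀ (by linarith) (by linarith) _
  have h2 : 1 ≤ (1 + b) ^ n := one_le_pow₀ (by linarith)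
  rw [pow_succ, pow_succ]
  nlinarith

/-- the numerical assumptions -/
structure Cs (s q n0 n cι : ℕ) (K t η Λ D M γh γ ηh θ : ℝ) : Prop extends Kn K t η where
  q2 : 2 ≤ q
  n1 : (s + 2) * (q + 1) ≤ n0
  hn : n0 + 1 ≤ n
  n2 : (n0 : ℝ) ≤ K
  n3 : (n0 + 1 : ℝ) ^ s ≤ K
  hκ : (cι * (n0 + 1) ^ s : ℝ) ≤ K
  d0 : 1 ≤ D
  d1 : (1 + n0 * D) ^ s ≤ K
  d2 : D ≤ K
  m1 : 1 ≤ M
  m2 : M ^ (s + 2) ≤ K
  g1 : t ≤ γh
  g2 : 16 * (s + 2) * γ ≤ ηh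
  g3 : 11 * t ≤ γ
  g4 : ηh ≤ 1
  θ0 : 0 < θ
  θ1 : θ⁻¹ ≤ M
  θ2 : t ≤ θ ^ q ^ (s + 1)
  hΛ : K ^ (109 * s + 17) ≤ Λ

section num

variable {s q n0 n cι : ℕ} {Λ D M γh γ ηh θ : ℝ} (k : Cs s q n0 n cι K t η Λ D M γh γ ηh θ)
include k

theorem Cs.one : 1 ≤ K := by linarith [k.k1]

theorem Cs.nm : Num s Λ η (K ^ (78 * s + 2)) (K ^ 14) (t ^ 31) (t ^ 6) K n0 :=
  k.num k.hΛ (Nat.cast_nonneg n0) k.n3

theorem Cs.γ0 : 0 < γ := by linarith [k.g3, k.t0]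

theorem Cs.g5 : 32 * γ ≤ ηh := by nlinarith [k.g2, k.γ0, (s.cast_nonneg : (0 : ℝ) ≤ s)]

theorem Cs.lt {x : ℝ} (x0 : 0 ≤ x) (hx : x ≤ K ^ 78) : x ^ s < K ^ (78 * s + 2) :=
  (pow_le_pow_left₀ x0 hx _).trans_lt (by
    rw [← pow_mul]; exact pow_lt_pow_right₀ (by linarith [k.k1]) (by omega))

theorem Cs.lam : 3 * K ^ (78 * s + 2) ≤ Λ := le_trans (by
  have := k.one
  calc _ ≤ K * K ^ (78 * s + 2) := by gcongr; linarith [k.k1]
    _ ≤ _ := by rw [← pow_succ']; exact pow_le_pow_right₀ k.one (by omega)) k.hΛ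

theorem Cs.c1 : s + 2 ≤ n0 := le_trans (by nlinarith) k.n1

theorem Cs.c3 : (cι : ℝ) ≤ K := le_trans (le_mul_of_one_le_right (by positivity)
  (one_le_pow₀ (by linarith [(n0.cast_nonneg : (0 : ℝ) ≤ n0)]))) k.hκ

theorem Cs.sqr {x : ℝ} (hx : |x| ≤ D) : x ^ 2 ≤ K ^ 2 :=
  sq_le_sq' (abs_le.1 (hx.trans k.d2)).1 (abs_le.1 (hx.trans k.d2)).2

theorem Cs.sql {x : ℝ} (hx : |x| ≤ D) : x ^ 2 ≤ K ^ (78 * s + 2) :=
  (k.sqr hx).trans (pow_le_pow_right₀ k.one (by omega))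

theorem Cs.he : 6 * (4 * η + 24 * t ^ 6 * K + n0 * (3 * √η)) + 2 * η ≤ t ^ 3 := by
  have : 188 * t ^ 4 ≤ t ^ 3 := k.le 3 (by norm_num)
  linarith [k.err k.n2, k.eta, k.mono (show 5 ≤ 6 by simp), k.mono (show 4 ≤ 5 by simp)]

theorem Cs.pt : (1 + γ / 2) * θ + 4 * t ^ 3 ≤ (1 + γ) * θ := by
  have t3 : 4 * t ^ 3 ≤ t ^ 2 := k.le 2 (by norm_num)
  have t0 := k.t0
  have h1 := mul_le_mul_of_nonneg_left (k.θ1.trans ((le_self_pow₀ k.m1 (by simp)).trans k.m2))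
    k.θ0.le
  rw [mul_inv_cancel₀ k.θ0.ne'] at h1
  have θ3 : t ≤ θ := by nlinarith [k.kt]
  nlinarith [mul_le_mul k.g3 θ3 t0.le k.γ0.le]

theorem Cs.s5 {a : ℝ} (a0 : 0 ≤ a) (ha : a ≤ K) : (D ^ s) ^ 2 * (a * cι) * K ≤ K ^ 5 := by
  have c2 : (s + 2 : ℝ) ≤ n0 := by exact_mod_cast k.c1
  have d0 := k.d0
  have : D ^ s ≤ K := le_trans (by gcongr; nlinarith [(s.cast_nonneg : (0 : ℝ) ≤ s)]) k.d1
  have c3 := k.c3
  have k1 := k.one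
  calc _ ≤ K ^ 2 * (K * K) * K := by gcongr
    _ = _ := by ring

theorem Cs.w1 : n0 * (3 * √η) ≤ 3 * t ^ 5 := by
  have := mul_le_mul k.n2 k.sq (Real.sqrt_nonneg _) (by linarith [k.one])
  have h2 : t ^ 6 * K ^ 1 = t ^ 5 := k.pw 1 5
  linarith

theorem Cs.dl : M ^ 2 * (4 * η + 24 * t ^ 6 * K + n0 * (3 * √η)) ≤ t ∧
    n0 * (3 * √η * M ^ (s + 2)) ≤ 1 / 4 := by
  have w2 : t ^ 5 * K ^ 1 = t ^ 4 := k.pw 1 4
  have w3 : t ^ 4 ≤ t ^ 2 := k.mono (by simp)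
  have w4 : 31 * t ^ 2 ≤ t ^ 1 := k.le 1 (by norm_num)
  have t0 := k.t0
  have t1 := k.t1
  have e0 := k.e0
  have k1 := k.one
  have m1 := k.m1
  constructor
  · calc _ ≤ K * (31 * t ^ 5) := mul_le_mul ((pow_le_pow_right₀ m1 (by simp)).trans k.m2)
          (k.err k.n2) (by positivity) (by linarith)
      _ ≤ _ := by linarith
  · calc _ = n0 * (3 * √η) * M ^ (s + 2) := by ring
      _ ≤ 3 * t ^ 5 * K := mul_le_mul k.w1 k.m2 (by positivity) (by positivity)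
      _ ≤ _ := by linarith

theorem Cs.icc {x : ℝ} (h1 : 1 - 2 * Fintype.card (Fin (s + 2)) * (γ + 9 * t + 2 * η) ≤ x)
    (h2 : x ≤ 1 + γ) : x ∈ Set.Icc (1 - ηh / 4) 2 := by
  have h3 := k.eta.trans (k.mono (show 1 ≤ 6 by simp))
  have h4 := mul_le_mul_of_nonneg_left (show γ + 9 * t + 2 * η ≤ 2 * γ by linarith [k.g3])
    (show (0 : ℝ) ≤ s + 2 by positivity)
  simp only [Fintype.card_fin, Nat.cast_add, Nat.cast_ofNat] at h1
  exact ⟨by linarith [k.g2], by linarith [k.g5, k.g4]⟩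

theorem Cs.gap {x : ℝ} (h : (1 + ηh) ^ q ^ (s + 1) - n0 * (3 * √η * θ⁻¹ ^ q ^ (s + 1)) ≤
    θ⁻¹ ^ q ^ (s + 1) * x) : ((1 + γ / 2) * θ) ^ q ^ (s + 1) + 4 * t ^ 3 ≤ x := by
  have γ0 := k.γ0
  have q2 := k.q2
  have h1 := pow_gap (a := γ / 2) (b := ηh) (by linarith) (by linarith [k.g5])
    (show q ^ (s + 1) ≠ 0 by positivity)
  have h2 := pow_pos k.θ0 (q ^ (s + 1))
  rw [inv_pow, le_inv_mul_iff₀ h2, mul_sub, ← mul_assoc (n0 : ℝ), mul_left_comm,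
    mul_inv_cancel₀ h2.ne', mul_one] at h
  have h3 := mul_le_mul_of_nonneg_left h1 h2.le
  have h4 := mul_le_mul k.θ2 (show 11 * t ≤ ηh - γ / 2 by linarith [k.g3, k.g5])
    (by linarith [k.t0]) h2.le
  have h5 : t ^ 5 ≤ t ^ 2 := k.mono (by simp)
  have h6 : t ^ 3 ≤ t ^ 2 := k.mono (by simp)
  rw [mul_pow]
  linarith [k.w1, sq_nonneg t]

end num

/-- the widths of the classes -/
structure Mu (K t : ℝ) {s : ℕ} (μ : Fin (s + 2) → ℝ) : Prop where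
  u0 : ∀ j, 0 < μ j
  u1 : ∀ j, K ^ 14 ≤ μ j
  u2 : ∀ j, μ j ≤ K ^ 76
  u3 : ∀ i j, j ≠ ww i → j ≠ i → μ (ww i) ≤ t ^ 31 * μ j

variable {T : Tow} {s n q n0 : ℕ} {N Λ : ℝ} {sc : Fin (s + 2) → ℤ} {D : ℤ} {ηh M γh γ θ : ℝ}
  {L : Type} [Fintype L] [DecidableEq L] {cd : L → T.ι} {mo : L → Multiset (Fin (s + 2))}
  {μ τ : Fin (s + 2) → ℝ} {Q : T.ι → Pl T.ι Unit} {b : L → ℝ} {g : (T.ι → ℝ) → ℝ}

/-- the count on a subcell -/
def sa (T : Tow) (sc : Fin (s + 2) → ℤ) (μ τ : Fin (s + 2) → ℝ) (cd : L → T.ι)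
    (mo : L → Multiset (Fin (s + 2))) (Q : T.ι → Pl T.ι Unit) (b : L → ℝ) (g : (T.ι → ℝ) → ℝ)
    (i : Fin (s + 2)) (o : T.ι → ℤ) : ℝ :=
  Er (Gm T.tw id (mo1 T.lv) (wt fun _ => μ (ww i))) (p0 id (mo1 T.lv) (mp (sb (Matrix.of
    fun j (_ : Unit) => (cc sc i j : ℝ) / cc sc i (ww i))) (Qs T.lv cd mo τ Q b o)))
      fun y => g (toR o + ev (fun _ => cc sc i (ww i)) id (mo1 T.lv) (toR y))

theorem Ap.le' (ha : Ap sc D) (i j : Fin (s + 2)) : |(cc sc i j : ℝ)| ≤ |(D : ℝ)| := by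
  exact_mod_cast ha.le i j

theorem centre (hT : T.Ok s N) (h : Ctx T.tw s n Λ η)
    (k : Cs s q n0 n (Fintype.card T.ι) K t η Λ |(D : ℝ)| M γh γ ηh θ) (ha : Ap sc D)
    (hQ : Fm T.lv T.q Q) (hL : Lab T.lv cd mo fun _ => True) (u : Mu K t μ)
    (hτ : ∀ i, ∑ j, τ j * cc sc i j = 1) (b1 : qq (Gm T.tw cd mo (wt μ)) b = K)
    (g0 : ∀ x, 0 ≤ g x ∧ g x ≤ 1) (hθ : θ ≤ Er (Gm T.tw id (mo1 T.lv) (wt fun _ => 1))
      (p0 id (mo1 T.lv) Q) fun x => g (toR x))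
    (hc : ∀ i o, sa T sc μ τ cd mo Q b g i o ≤ (1 + γ) * θ) :
    ∃ o, ∀ i, θ⁻¹ * sa T sc μ τ cd mo Q b g i o ∈ Set.Icc (1 - ηh / 4) 2 := by
  have nm := k.nm
  have θ0 := k.θ0
  have t0 := k.t0
  have t1 := k.t1
  have c1 := k.c1
  have hn := k.hn
  have c4 : (Fintype.card L : ℝ) ≤ K :=
    le_trans (by exact_mod_cast (card_lab hL hT.le).trans (by gcongr; simpa using c1)) k.hκ
  have hG := h.pd hQ lab1 (ω := wt fun _ => 1) fun _ => wt_pos (fun _ => one_pos) _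
  have hG0 := hG.smul (show 0 < 1 - t ^ 6 by linarith [nm.e1])
  obtain ⟨v1, v2, v3⟩ := k.avg (Nat.cast_nonneg _) k.c3
  have h1 : ∀ i o, θ⁻¹ * sa T sc μ τ cd mo Q b g i o ≤ 1 + γ := fun i o => by
    rw [inv_mul_le_iff₀ θ0, mul_comm]; exact hc i o
  refine (exists_centre (summable_ng (h.tri hQ lab1) hG0) (fun _ => ng_nonneg _ _)
    (a := fun i o => θ⁻¹ * sa T sc μ τ cd mo Q b g i o) (ε := 9 * t) (η := η)
    (fun i o => mul_nonneg (by positivity) (er_nonneg _ _ fun _ => (g0 _).1)) h1 (fun i => ?_)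
    (h.ms hQ lab1 (by simp; omega) zero_le_one (ω := wt fun _ => 1) (fun _ => by
      rw [wt_one]; linarith [nm.l1, k.lam]) hG0 fun v => by
        rw [qq_smul_mat]
        exact mul_le_mul_of_nonneg_right (by linarith [nm.e0]) (qq_nonneg hG.posSemidef v))
    (by linarith [k.eta, nm.e1]) k.γ0 (by linarith [k.g5, k.g4]) (by linarith)).imp
      fun o ho i => k.icc (ho i) (h1 i o)
  have c6 := cc_ne ha.ne (ww_ne i).symm
  have := h.avg hQ hL (by omega) (hτ i) c6 (b := b) (s := K ^ 5) (nm.b1.trans (u.u1 (ww i)))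
    (by linarith [k.lt (u.u0 (ww i)).le ((u.u2 _).trans (pow_le_pow_right₀ k.one (by simp))),
      pow_pos (u.u0 (ww i)) s, k.lam]) (pow_pos t0 6) (by linarith [nm.e1]) v1 v2
    ((k.sqr (ha.le' _ _)).trans (nm.b2.trans (mul_le_mul_of_nonneg_left (u.u1 _) (sq_nonneg _))))
    ((qq_SM h hL u.u0 (u.u0 _) (B := |(D : ℝ)|) (fun j hj => by
      by_cases h1 : j = ww i
      · rw [h1]
      · exact (u.u3 i j h1 fun h2 => hj (by simp [h2, cc_self])).trans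
          (mul_le_of_le_one_left (u.u0 j).le nm.r1)) (fun j => by
      rw [abs_div]
      exact (div_le_self (abs_nonneg _) (by exact_mod_cast Int.one_le_abs c6)).trans
        (ha.le' _ _)) k.d0 b).trans (b1 ▸ k.s5 (Nat.cast_nonneg _) c4)) g0
  refine le_trans ?_ (er_mul _ _ _ _).ge
  rw [le_inv_mul_iff₀ θ0, mul_comm]
  exact le_trans (mul_le_mul v3 hθ θ0.le (by linarith)) this

theorem grid_out (hT : T.Ok s N) (h : Ctx T.tw s n Λ η)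
    (k : Cs s q n0 n (Fintype.card T.ι) K t η Λ |(D : ℝ)| M γh γ ηh θ) (ha : Ap sc D)
    (H : HG (s + 2) q ηh M γh) (hQ : Fm T.lv T.q Q) (hL : Lab T.lv cd mo fun _ => True)
    (u : Mu K t μ) (b1 : qq (Gm T.tw cd mo (wt μ)) b = K)
    (b2 : ∀ y, y ⬝ᵥ (fun l => (T.el (cd l) * wz sc (mo l) : ℝ)) = 0 →
      bb (Gm T.tw cd mo (wt μ)) y b = 0) {f : ℤ → ℝ} (hf : Unit01 f)
    (hA : ∀ a u : ℤ, (∀ i : Fin (s + 2), f (a + (i : ℕ) * u) ≠ 0) → u = 0) {off : ℤ}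
    (hg : ∀ y, g (toR y) = f (off + T.el ⬝ᵥ y)) (g0 : ∀ x, 0 ≤ g x ∧ g x ≤ 1) {o : T.ι → ℤ}
    (ho : ∀ i, θ⁻¹ * sa T sc μ τ cd mo Q b g i o ∈ Set.Icc (1 - ηh / 4) 2) :
    ∃ Z : Sys (nw T (K ^ (78 * s + 2)) D) (Fin s × Fin q) (Fin q), Z.Ok ∧ Z.St Prod.fst (s + 1)
      (Z.Ex0 Prod.fst (s + 1) f ((1 + γ / 2) * θ)) 2 (t ^ 3) (t ^ 3) := by
  have nm := k.nm
  have θ0 := k.θ0
  have t0 := k.t0
  have γ0 := k.γ0
  have c1 := k.c1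
  have hn := k.hn
  have k1 := k.one
  have hL' := labS (lv := T.lv) (K := KT (Prod.fst : Fin s × Fin q → _) (S := Fin q)) kt_dc
  have u8 : ∀ l, 3 * wt μ (mo l) ≤ Λ := fun l => by
    have := (wt_le u.u0 (fun j => (u.u2 j).trans (pow_le_pow_right₀ k1 (show 76 ≤ 78 by simp)))
      (mo l)).trans (pow_le_pow_right₀ (one_le_pow₀ k1) ((hL.deg l).trans_le (hT.le _)))
    linarith [k.lt (by positivity) le_rfl, k.lam]
  have g6 : ∀ x, 0 ≤ θ⁻¹ * g (toR o + x) ∧ θ⁻¹ * g (toR o + x) ≤ θ⁻¹ := fun x =>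
    ⟨mul_nonneg (by positivity) (g0 _).1, mul_le_of_le_one_right (by positivity) (g0 _).2⟩
  obtain ⟨i, hi⟩ := h.step (h.fms (τ := τ) hQ hL b o) hL hL' u.u0 u8 (by linarith [nm.l1, k.lam])
    (le_trans (by nlinarith) k.n1) hn k.q2 ha nm.r0.le nm.r1 u.u3 k.hκ nm.e0 nm.e1 (le_trans
      (le_mul_of_one_le_left (by positivity) nm.b1) (k.rho (by positivity) k.d1))
    (g := fun x => θ⁻¹ * g (toR o + x)) g6 k.θ1 k.m1 H k.dl.1 k.g1 (by linarith [k.g3, k.g5])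
    k.dl.2 (fun i => by rw [er_mul]; exact ho i) ((h.hyp hQ hL (by simp; omega) u.u0
      (fun l => by linarith [u8 l, wt_pos u.u0 (mo l)]) hT.el1 (x := fun i => (i : ℕ)) b2
      hA (off := off + T.el ⬝ᵥ o) (M := M) (fun y hy => by
        rw [add_assoc, ← dotProduct_add, ← hg]
        convert right_ne_zero_of_mul hy using 2
        exact funext fun a => by simp) (fun x => ⟨(g6 x).1, (g6 x).2.trans k.θ1⟩) o).trans (by
      rw [b1, Fintype.card_fin]; exact k.hyp k.m2))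
  choose dd hd using fun v : (Fin s × Fin q) ⊕ Fin q =>
    ha.dD i (kap (cls i) v).1 (Ne.symm ((cls_ne i _).2 ⟨clx Prod.fst v, rfl⟩))
  have w4 : (cells (Prod.fst : Fin s × Fin q → _)).card * Fintype.card (Fin q) = q ^ (s + 1) := by
    rw [P057GH.card_cells, Fintype.card_fin q, Fintype.card_fin s, ← pow_succ]
  refine h.dil hT nm ha.d0 (k.sql le_rfl)
    ((h.fms (τ := τ) hQ hL b o).mp (grd_sb ((bl (Fin q) : Matrix _ (_ × Fin q) ℝ) *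
      sel (kap (cls i))))) hL' (by exact_mod_cast le_trans (by simp; nlinarith) k.n1)
    (by exact_mod_cast hn) k.hκ
    (μ := fun v => μ (kap (cls i) v).1) (c := fun v => cc sc i (kap (cls i) v).1) (d := dd)
    (a := K ^ 78) (fun v => (hd v).symm) (fun v => u.u0 _) (one_le_pow₀ k1) (fun v => ?_)
    (k.lt (by positivity) le_rfl) hf g0 hg (o := o) (by positivity) (by positivity) k.he ?_
  · have h1 : |(dd v : ℝ)| ≤ |(D : ℝ)| := by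
      exact_mod_cast Int.le_of_dvd (abs_pos.2 ha.d0)
        ((abs_dvd_abs _ _).2 (Dvd.intro_left _ (hd v).symm))
    calc _ ≤ K ^ 2 * K ^ 76 := mul_le_mul (k.sqr h1) (u.u2 _) (u.u0 _).le (by positivity)
      _ = _ := by ring
  simp only [prod_mul_distrib, prod_const, card_univ, ← pow_mul, mul_comm (Fintype.card (Fin q)),
    w4, er_mul] at hi
  rw [w4]
  exact k.gap hi

theorem core (hT : T.Ok s N) (h : Ctx T.tw s n Λ η)
    (k : Cs s q n0 n (Fintype.card T.ι) K t η Λ |(D : ℝ)| M γh γ ηh θ) (ha : Ap sc D)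
    (H : HG (s + 2) q ηh M γh) {A : Finset ℤ} (hA : APF (s + 2) A)
    (hel : T.el ≠ 0) (hG : GS T 0 (ind A) 1 θ) : ∃ D' : ℤ, D' ≠ 0 ∧ |(D' : ℝ)| ≤ |(D : ℝ)| ∧
      ((∃ Z : Sys (nw T (K ^ (78 * s + 2)) D') (Fin 0) Unit, Z.Ok ∧
        Z.St id (s + 1) (Z.Ex0 id (s + 1) (ind A) ((1 + γ / 2) * θ)) 2 (t ^ 3) (t ^ 3)) ∨
      ∃ Z : Sys (nw T (K ^ (78 * s + 2)) D') (Fin s × Fin q) (Fin q), Z.Ok ∧ Z.St Prod.fst (s + 1)
        (Z.Ex0 Prod.fst (s + 1) (ind A) ((1 + γ / 2) * θ)) 2 (t ^ 3) (t ^ 3)) := by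
  obtain ⟨Z, hZ, hθ⟩ := (P057GH.gs_pt hT).1 hG
  obtain ⟨Q, hQ, hp⟩ := exists_fm hT hZ
  have hf : Unit01 (ind A) := fun x => by unfold ind; split_ifs <;> simp
  obtain ⟨g, hg, g0⟩ : ∃ g : (T.ι → ℝ) → ℝ, (∀ y, g (toR y) = ind A (Z.off ∅ () + T.el ⬝ᵥ y)) ∧
      ∀ x, 0 ≤ g x ∧ g x ≤ 1 :=
    ⟨fun x => ind A (Z.off ∅ () + T.el ⬝ᵥ fun a => ⌊x a⌋), fun y => by simp, fun _ => hf _⟩
  rw [P057GH.pc0, ← hp, ← G_eq hT, ← funext hg] at hθ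
  have nm := k.nm
  have t0 := k.t0
  obtain ⟨τ, hτ⟩ := ha.tau
  obtain ⟨μ, u1, u2, u3⟩ := exists_mu s (one_pos.trans_le nm.b1) nm.r0 nm.r1
  rw [div_eq_mul_inv, ← pow_mul, k.inv, ← pow_add] at u2
  have u : Mu K t μ := ⟨fun j => one_pos.trans_le (nm.b1.trans (u1 j)), u1, u2, u3⟩
  have hL := labS (lv := T.lv) (K := fun _ : Multiset (Fin (s + 2)) => True) fun _ _ _ => trivial
  generalize (fun l : LS T.lv fun _ : Multiset (Fin (s + 2)) => True => l.1.1) = cd at hL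
  generalize (fun l : LS T.lv fun _ : Multiset (Fin (s + 2)) => True => l.1.2) = mo at hL
  obtain ⟨b, b1, b2⟩ := exists_shift (h.pd (h.fmo (τ := τ) hQ 0) hL fun l => wt_pos u.u0 (mo l))
    (v := fun l => (T.el (cd l) * wz sc (mo l) : ℝ)) (fun h1 => hel (funext fun a => by
      by_contra h2
      obtain ⟨l, h3, h4⟩ := hL.sur a {0} (by_contra fun h3 => h2 (hT.el1 a (Ne.symm h3))) trivial
      have := congrFun h1 l
      simp only [h3, Pi.zero_apply, mul_eq_zero, Int.cast_eq_zero] at this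
      exact this.elim h2 (wz_ne ha.ne _))) (zero_le_one.trans k.one)
  by_cases hc : ∃ i o, (1 + γ) * θ < sa T sc μ τ cd mo Q b g i o
  · obtain ⟨i, o, hc⟩ := hc
    have c6 := cc_ne ha.ne (ww_ne i).symm
    exact ⟨_, c6, ha.le' _ _, Or.inl (h.pt hT nm c6 (k.sql (ha.le' _ _))
      ((h.fms hQ hL b o).mp (grd_sb _)) (by exact_mod_cast le_trans (by simp) k.c1)
      (by exact_mod_cast k.hn) k.hκ (nm.b1.trans (u1 _))
      (k.lt (u.u0 _).le ((u2 _).trans (pow_le_pow_right₀ k.one (by simp)))) hf g0 hg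
      (mul_nonneg (by linarith [k.γ0]) k.θ0.le) (by positivity) k.he (k.pt.trans hc.le))⟩
  push Not at hc
  obtain ⟨o, ho⟩ := centre hT h k ha hQ hL u hτ b1 g0 hθ hc
  exact ⟨D, ha.d0, le_rfl, Or.inr (grid_out hT h k ha H hQ hL u b1 b2 hf (apf_zero hA) hg g0 ho)⟩

end

end Vale.Agent.P057ST
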