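import Vale.Agent.P057ST.Out1
import Vale.Agent.P057GH.Pt

/-! Invariance under the kernel; the passage to cube systems. -/

set_option linter.all false

open Matrix Finset Function MvPolynomial
open Vale.Agent.P267.H775 Vale.Agent.P057G Vale.Agent.P057PC Vale.Agent.P057TP

namespace Vale.Agent.P057ST

noncomputable section

variable {C W S L : Type} [Fintype W] [DecidableEq W] [Fintype S] [DecidableEq S] [Fintype C]
  [DecidableEq C] {cl : W → C}

/-- the sum of a class minus the sum of the special class -/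
def rw0 (cl : W → C) (i : C) : W ⊕ S → ℤ := Sum.elim (fun w => if cl w = i then 1 else 0) fun _ => -1

/-- the substitution of the new generators -/
def Rh (r : C → W ⊕ S → ℤ) : Matrix ((W ⊕ S) ⊕ C) (W ⊕ S) ℝ :=
  ((1 : Matrix ((W ⊕ S) ⊕ C) ((W ⊕ S) ⊕ C) ℝ) + mR (fromBlocks 0 0 (Matrix.of r) 0)) *
    (sel Sum.inl : Matrix ((W ⊕ S) ⊕ C) (W ⊕ S) ℝ)

theorem Rh_inl (r : C → W ⊕ S → ℤ) (v : W ⊕ S) : Rh r (Sum.inl v) = (1 : Matrix _ _ ℝ) v := by
  funext v'
  rw [Rh, Matrix.mul_apply]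
  simp [sel, mR, one_apply]

theorem Rh_inr (r : C → W ⊕ S → ℤ) (i : C) : Rh r (Sum.inr i) = fun v => (r i v : ℝ) := by
  funext v'
  rw [Rh, Matrix.mul_apply]
  simp [sel, mR]

theorem Rh_single (r : C → W ⊕ S → ℤ) (i : C) (m : Multiset (W ⊕ S)) :
    sb (Rh r) (AddMonoidAlgebra.single (Sum.inr i ::ₘ m.map Sum.inl) 1) =
      lin (fun v => r i v) * AddMonoidAlgebra.single m 1 := by
  rw [sb_cons, Rh_inr]
  refine congrArg _ (Eq.trans ?_ (DFunLike.congr_fun sb_one (AddMonoidAlgebra.single m 1)))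
  simp only [sb, hm_single, Multiset.map_map, Function.comp_def, Rh_inl]

theorem sum_rw0 {B : Finset W} (hB : Set.InjOn cl B) (o : Option S) {w : W} (hw : w ∈ B) :
    ∑ v, (rw0 cl (cl w) v : ℝ) * idx B o v = if o = none then 1 else 0 := by
  rw [Fintype.sum_sum_type, sum_eq_single w (fun w' _ h => by
    by_cases h1 : w' ∈ B
    · simp [rw0, show cl w' ≠ cl w from fun h2 => h (hB h1 hw h2)]
    · simp [idx, h1]) (by simp)]
  cases o <;> simp [rw0, idx, hw]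

variable {T : Tow} {m : ℕ} {cd : L → T.ι} {mo : L → Multiset (W ⊕ S)} {Q : T.ι → Pl T.ι (W ⊕ S)}

/-- shifts of the centres produced by the new generators -/
def Rch (cl : W → C) (cd : L → T.ι) (mo : L → Multiset (W ⊕ S)) (κ : L → ℝ) : Prop :=
  ∃ U : T.ι → Alg (Multiset ((W ⊕ S) ⊕ C)), (∀ a, Sup (fun m => m.card = T.lv a) (U a)) ∧
    (∀ a, sb (Rh 0) (U a) = 0) ∧ ∀ l, (sb (Rh (rw0 cl)) (U (cd l))).coeff (mo l) = κ l

variable [Fintype L] [DecidableEq L]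

theorem rch_ker (hL : Lab T.lv cd mo (KT cl)) {e : Lb T cl S m → L} (h1 : ∀ k, cd (e k) = k.cd)
    (h2 : ∀ k, mo (e k) = rm k) (hm : ∀ a, T.lv a < m) {κ : L → ℝ}
    (hκ : mR (Pm cl m cd mo) *ᵥ κ = 0) : Rch cl cd mo κ := by
  classical
  obtain ⟨Y, hY⟩ : ∃ Y : (L → ℝ) → Prop, ∀ x, Y x ↔ ∃ g, Rch cl cd mo g ∧
    mR (Pm cl m cd mo) *ᵥ g = 0 ∧ ∀ l, l ∉ Set.range e → x l = g l := ⟨_, fun _ => Iff.rfl⟩
  have y0 : ∀ x, (∀ l, l ∉ Set.range e → x l = 0) → Y x := fun x hx =>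
    (hY x).2 ⟨0, ⟨0, fun _ => Sup.zero _, by simp, by simp⟩, mulVec_zero _, hx⟩
  have y1 : ∀ x y, Y x → Y y → Y (x + y) := fun x y hx hy => by
    obtain ⟨g, ⟨U, a1, a2, a3⟩, a4, a5⟩ := (hY x).1 hx
    obtain ⟨g', ⟨U', b1, b2, b3⟩, b4, b5⟩ := (hY y).1 hy
    exact (hY _).2 ⟨g + g', ⟨U + U', fun a => (a1 a).add (b1 a), by simp [a2, b2],
      by simp [a3, b3]⟩, by simp [mulVec_add, a4, b4], fun l hl => by simp [a5 l hl, b5 l hl]⟩
  have y2 : ∀ x, (∀ l, x l ≠ 0 → Y (Pi.single l 1)) → Y x := fun x hx => by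
    rw [pi_eq_sum_univ' x]
    refine sum_induction _ Y y1 (y0 0 fun _ _ => rfl) fun l _ => ?_
    by_cases h : x l = 0
    · exact y0 _ fun _ _ => by simp [h]
    obtain ⟨g, ⟨U, a1, a2, a3⟩, a4, a5⟩ := (hY _).1 (hx l h)
    exact (hY _).2 ⟨x l • g, ⟨x l • U, fun a m h => a1 a m (right_ne_zero_of_mul h),
      by simp [a2], by simp [a3]⟩, by simp [mulVec_smul, a4], fun l hl => by simp [a5 l hl]⟩
  have y3 : ∀ (j : ℕ) (l : L), (mo l).countP (·.isLeft) = j → Y (Pi.single l 1) := fun j => by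
    induction j using Nat.strong_induction_on with
    | _ j ih =>
    intro l hj
    by_cases h : ∀ w, (mo l).count (Sum.inl w) ≤ 1
    · obtain ⟨k, h3, h4⟩ := exists_rm (cl := cl) (hm _) (hL.deg l) (hL.mem l) h
      exact y0 _ fun l' hl => Pi.single_eq_of_ne
        (fun h5 => hl ⟨k, hL.inj _ _ (by rw [h1, h3, h5]) (by rw [h2, h4, h5])⟩) _
    push Not at h
    obtain ⟨w, hw⟩ := h
    obtain ⟨n, hn⟩ := Multiset.exists_cons_of_mem (Multiset.count_pos.1 (zero_lt_one.trans hw))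
    have hw' : Sum.inl w ∈ n := by
      rw [hn, Multiset.count_cons_self] at hw
      exact Multiset.count_pos.1 (by omega)
    have hc : n.card + 1 = T.lv (cd l) := by rw [← hL.deg, hn, Multiset.card_cons]
    obtain ⟨u, hu⟩ : ∃ u : T.ι → Alg (Multiset (W ⊕ S)), ∀ a, u a = if a = cd l then
      lin (fun v => rw0 cl (cl w) v) * AddMonoidAlgebra.single n 1 else 0 := ⟨_, fun _ => rfl⟩
    have u1 : ∀ a, Sup (fun m => m.card = T.lv a) (u a) := fun a => by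
      rw [hu]
      split_ifs with h
      · exact (sup_lin (P := fun s => s.card = 1) fun _ _ => rfl).mul
          (Sup.single (P := fun s => s = n) rfl 1) fun a b ha hb => by
            rw [Multiset.card_add, ha, hb, h, ← hc, add_comm]
      · exact Sup.zero _
    have u2 : Y fun l' => (u (cd l')).coeff (mo l') := (hY _).2 ⟨_, ⟨fun a => if a = cd l then
        AddMonoidAlgebra.single (Sum.inr (cl w) ::ₘ n.map Sum.inl) 1 else 0, fun a => by
        beta_reduce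
        split_ifs with h
        exacts [Sup.single (by simp [h, hc]) 1, Sup.zero _], fun a => by
        beta_reduce
        split_ifs
        exacts [by simp [Rh_single, lin], map_zero _], fun l' => by
        rw [hu]
        beta_reduce
        split_ifs
        exacts [by rw [Rh_single], by rw [map_zero]]⟩, funext fun k => by
        rw [Pm_coef hL u1, hu]
        split_ifs with h
        · rw [altL, dlt_congr (h := fun B => (if k.bs = none then 1 else 0) *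
            evA B (psi k.bs (AddMonoidAlgebra.single n 1))) fun B hB => by
            rw [evA_psi, evA_psi, map_mul, hm_lin]
            by_cases h3 : w ∈ B
            · exact congrArg (· * _) (sum_rw0 (k.2.2.1.mono hB) _ h3)
            · rw [hm_real, wt_idx, if_neg fun h4 => h3 (h4.2 (by simpa using hw'))]; simp, dlt_mul]
          split_ifs with h3
          · exact mul_eq_zero_of_right _ (altL_of_lt (psi_hom _ (n := n.card)
              (Sup.single (P := fun s : Multiset (W ⊕ S) => s.card = n.card) rfl 1)) (by rw [k.card_eq h3, h]; omega))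
          · exact zero_mul _
        · rw [map_zero, altL_zero]; rfl, fun _ _ => rfl⟩
    have u3 : Sup (fun s => ¬ KT cl s ∨ s.countP (·.isLeft) < j)
        (u (cd l) - AddMonoidAlgebra.single (mo l) 1) := by
      rw [hu, if_pos rfl, lin, sum_mul, ← add_sum_erase _ _ (mem_univ (Sum.inl w))]
      simp only [AddMonoidAlgebra.single_mul_single, Multiset.singleton_add, mul_one, ← hn]
      rw [show ((rw0 cl (cl w) (Sum.inl w : W ⊕ S) : ℤ) : ℝ) = 1 by simp [rw0], add_sub_cancel_left]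
      refine Sup.sum _ ?_
      rintro (w' | t) hv
      · by_cases h : cl w' = cl w
        · refine Sup.single ?_ _
          exact Or.inl fun h3 => (mem_erase.1 hv).1 (h3 _ (Multiset.mem_cons_self _ _)
            _ (Multiset.mem_cons_of_mem hw') (congrArg some h))
        · simp [rw0, h, Sup.zero]
      · refine Sup.single ?_ _
        exact Or.inr (by simp [← hj, hn, Multiset.countP_cons])
    rw [← add_sub_cancel (fun l' => (u (cd l')).coeff (mo l')) (Pi.single l 1)]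
    refine y1 _ _ u2 (y2 _ fun l' h => ih _ ?_ l' rfl)
    by_cases h3 : cd l' = cd l
    · refine (u3 (mo l') fun h4 => h ?_).resolve_left (not_not.2 (hL.mem l'))
      rw [AddMonoidAlgebra.coeff_sub, Finsupp.sub_apply, sub_eq_zero] at h4
      rw [Pi.sub_apply, h3, h4, AddMonoidAlgebra.coeff_single, Finsupp.single_apply,
        Pi.single_apply, sub_eq_zero]
      exact if_congr ⟨fun h => by rw [h], fun h => hL.inj _ _ h3 h.symm⟩ rfl rfl
    · simp [hu, h3, Pi.single_eq_of_ne fun h4 => h3 (congrArg cd h4)] at h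
  obtain ⟨g, a1, a2, a3⟩ := (hY κ).1 (y2 κ fun l _ => y3 _ l rfl)
  have hS := Pm_sec h1 h2
  have a4 : extend e ((κ - g) ∘ e) 0 = κ - g := funext fun l => by
    by_cases hl : ∃ k, e k = l
    · obtain ⟨k, rfl⟩ := hl
      exact (sec_inj hS).extend_apply _ _ _
    · simp [extend_apply' _ _ _ hl, a3 l hl]
  have a5 := sec_extend hS ((κ - g) ∘ e)
  rw [a4, mulVec_sub, ← mR, hκ, a2, sub_self] at a5
  rw [← a5, extend_zero] at a4
  exact sub_eq_zero.1 a4.symm ▸ a1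

/-- the tower with another Gram matrix -/
abbrev tw0 (T : Tow) (G : Matrix T.ι T.ι ℝ) : Tw T.ι Unit :=
  ⟨T.lv, T.q, G, fun a s => Multiset.card s = T.lv a⟩

variable {G : Matrix T.ι T.ι ℝ} {d n : ℕ} {Λ η : ℝ}

theorem Ctx.rem (h : Ctx (tw0 T G) d n Λ η) (hQ : Fm T.lv T.q Q) (hL : Lab T.lv cd mo (KT cl))
    (hn : Fintype.card ((W ⊕ S) ⊕ C) + 1 ≤ n) {ω : Multiset (W ⊕ S) → ℝ} {a1 a2 ρ ε κ0 : ℝ}
    (ha : 0 < a1) (hl : ∀ m, a1 ≤ ω m) (hu : ∀ m, ω m ≤ a2) (hρ0 : 0 < ρ) (hρ : ρ ≤ 1)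
    (hΛ : 3 * (a2 * ρ⁻¹ ^ d) ≤ Λ)
    (hκ : (Fintype.card T.ι * (Fintype.card ((W ⊕ S) ⊕ C) + 1) ^ d : ℝ) ≤ κ0) (e0 : 0 ≤ ε)
    (e1 : ε ≤ 1 / 6)
    (he : a2 * (ρ * (2 * (1 + Fintype.card ((W ⊕ S) ⊕ C)) ^ d * κ0) ^ 2) ≤ ε ^ 2 * a1)
    {F : (L → ℤ) → ℝ} {B : ℝ} (hF : ∀ z, |F z| ≤ B) (hF' : ∀ z z', (∀ c ∈ cells cl, ∀ t,
      ev (idx c (some t)) cd mo (toR z) = ev (idx c (some t)) cd mo (toR z')) → F z = F z')
    {κ : L → ℝ} (hκ' : Rch cl cd mo κ) :
    |Er (Gm (tw0 T G) cd mo ω) (p0 cd mo Q) F - Er (Gm (tw0 T G) cd mo ω) (fun z => p0 cd mo Q z + κ) F|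
      ≤ 2 * (B * (4 * η + 24 * ε * κ0 + Fintype.card ((W ⊕ S) ⊕ C) * (3 * √η))) := by
  classical
  obtain ⟨U, u1, u2, u3⟩ := hκ'
  have hL' := labS (lv := T.lv) (K := fun m : Multiset ((W ⊕ S) ⊕ C) => ∀ v v', Sum.inl v ∈ m →
    Sum.inl v' ∈ m → clx cl v = clx cl v' → v = v') fun m m' h v v' hv hv' =>
      h v v' (Multiset.mem_add.2 (Or.inl hv)) (Multiset.mem_add.2 (Or.inl hv'))
  have hκ1 := le_trans (Nat.cast_le.2 (card_lab hL' h.le)) (Eq.trans_le (by push_cast; rfl) hκ)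
  have r1 : 1 ≤ ρ⁻¹ := (one_le_inv₀ hρ0).2 hρ
  have a0 : 0 ≤ a2 := ha.le.trans ((hl 0).trans (hu 0))
  have m0 : ∀ v : (W ⊕ S) ⊕ C, 0 < Sum.elim (fun _ => (1 : ℝ)) (fun _ => ρ⁻¹) v := by
    rintro (v | v) <;> simp [hρ0]
  have key := fun (r : C → W ⊕ S → ℤ) (hr : ∀ i v, |(r i v : ℝ)| ≤ 1) => h.col
    ((hQ.mp (grd_sb (sel Sum.inl)ᵀ)).sft h.ok.pos (ρ := 0) (ρ' := -U) (fun _ => Sup.zero _)
      fun a => (u1 a).neg) hL' hL hn Sum.inl_injective (fun m => by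
        simp only [KT, Multiset.mem_map, Sum.inl.injEq, exists_eq_right]
        exact ⟨fun h v v' hv hv' => h v hv v' hv', fun h v hv v' hv' => h v v' hv hv'⟩)
    (M := fromBlocks 0 0 (Matrix.of r) 0) (mv := fun v => v.isRight)
    (by rintro (v | v) (w | w) <;> simp) (fun m h v v' hv hv' => h v v' (by simpa) (by simpa))
    m0 hρ0.le hρ (by rintro (v | v) (w | w) <;> simp [hρ0.ne']) (β := 1 + Fintype.card ((W ⊕ S) ⊕ C))
    (le_add_of_nonneg_right (Nat.cast_nonneg _)) (fun v => add_le_add le_rfl (by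
      refine (sum_le_card_nsmul _ _ 1 fun w _ => ?_).trans (by simp)
      rcases v with v | v <;> rcases w with w | w <;> simp [hr]))
    (ω := fun m => ω (m.filterMap Sum.getLeft?) * wt (Sum.elim (fun _ => 1) fun _ => ρ⁻¹) m) ha
    (fun l => mul_le_mul_of_nonneg_right (hl _) (wt_pos m0 _).le)
    (fun l => mul_le_mul_of_nonneg_right (hu _) (wt_pos m0 _).le) (fun l => le_trans (by
      refine mul_le_mul_of_nonneg_left (mul_le_mul (hu _) ((wt_le m0 (a := ρ⁻¹) ?_ _).trans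
        (pow_le_pow_right₀ r1 (l.2.1.trans_le (h.le _)))) (wt_pos m0 _).le a0) zero_le_three
      rintro (v | v) <;> simp [r1]) hΛ) (le_trans (by positivity) hΛ) e0 e1
    (le_trans (by gcongr) he)
  obtain ⟨σ, s1, s2⟩ := key 0 (by simp)
  obtain ⟨σ', t1, t2⟩ := key (rw0 cl) (by
    rintro i (w | t) <;> simp only [rw0, Sum.elim_inl, Sum.elim_inr]
    · split_ifs <;> simp
    · simp)
  have h1 : ∀ z, F (σ' z) = F (σ z) := fun z => hF' _ _ fun c hc t => by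
    obtain ⟨c1, c2⟩ := P057GH.mem_cells.1 hc
    rw [s1 _ _ (idx_zero c1 _), t1 _ _ (idx_zero c1 _)]
    refine congrArg (ev · _ _ _) (funext ?_)
    rintro (v | i)
    · change Rh _ _ ⬝ᵥ _ = Rh _ _ ⬝ᵥ _
      rw [Rh_inl, Rh_inl]
    · obtain ⟨w, h3, rfl⟩ := c2 i
      change Rh _ _ ⬝ᵥ _ = Rh _ _ ⬝ᵥ _
      rw [Rh_inr, Rh_inr, dotProduct, sum_rw0 c1 _ h3]
      simp [dotProduct]
  have h2 : ∀ r, p0 cd mo (mp (sb (Rh r)) (sft 0 (-U) (mp (sb (sel Sum.inl)ᵀ) Q))) =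
      fun z => p0 cd mo Q z + fun l => (sb (Rh r) (U (cd l))).coeff (mo l) := fun r => by
    have h3 : (sel (Sum.inl : _ → (W ⊕ S) ⊕ C))ᵀ * Rh r = 1 := by
      ext v v'
      rw [Matrix.mul_apply]
      simp [sel, Rh_inl]
    rw [mp_sft, mp_mp, sb_sb, h3, sb_one, mp_id]
    funext z l
    simp [p0, pr0, eval_sft, ← Pi.zero_def]
  have h3 := s2 F B hF
  have h4 := t2 F B hF
  simp only [Multiset.filterMap_map, Function.comp_def, Sum.getLeft?_inl, Multiset.filterMap_some,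
    wt_map, Sum.elim_inl, wt_one, mul_one, h1] at h3 h4
  rw [← Rh, h2] at h3 h4
  simp only [u2, u3, AddMonoidAlgebra.coeff_zero, Finsupp.zero_apply, ← Pi.zero_def,
    add_zero] at h3 h4
  have h5 : 0 ≤ B := (abs_nonneg _).trans (hF 0)
  refine (abs_sub_le _ _ _).trans ((add_le_add ((abs_sub_comm _ _).trans_le h3) h4).trans ?_)
  rw [← two_mul]
  gcongr

theorem F_top {s : ℕ} {N : ℝ} (hT : T.Ok s N) (Z : Sys T W S) (f : ℤ → ℝ)
    (z : Lb T cl S (s + 1) → ℤ) (c : Finset W) (t : S) :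
    Z.F cl (s + 1) f z c t = f (Z.off c t + T.el ⬝ᵥ pt z (some t) c) := by
  have : IsEmpty {a // s + 1 ≤ T.lv a} := ⟨fun a => by have := a.2; have := hT.le a.1; omega⟩
  rw [P057GH.F_eq, P057GH.er_empty]
  congr 3
  exact funext fun a => dif_neg fun k => this.elim ⟨a, k⟩

theorem PF_top {s : ℕ} {N : ℝ} (hT : T.Ok s N) (Z : Sys T W S) {f : ℤ → ℝ} (hf : Unit01 f)
    (z : Lb T cl S (s + 1) → ℤ) : 0 ≤ Z.PF cl (s + 1) f z ∧ Z.PF cl (s + 1) f z ≤ 1 := by
  simp only [Sys.PF, F_top hT]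
  exact ⟨prod_nonneg fun _ _ => prod_nonneg fun _ _ => (hf _).1, prod_le_one
    (fun _ _ => prod_nonneg fun _ _ => (hf _).1) fun _ _ =>
      prod_le_one (fun _ _ => (hf _).1) fun _ _ => (hf _).2⟩

/-- from a free configuration to a cube system -/
theorem Ctx.out {s : ℕ} {N lam : ℝ} (hT : T.Ok s N) (h : Ctx (tw0 T G) d n Λ η)
    (hG : T.G = lam • G) (hQ : Fm T.lv T.q Q) (hL : Lab T.lv cd mo (KT cl))
    (hn : Fintype.card ((W ⊕ S) ⊕ C) + 1 ≤ n) {ω0 : Multiset (W ⊕ S) → ℝ}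
    (h0 : ∀ l, 0 < ω0 (mo l)) (h1 : ∀ l, ω0 (mo l) < lam) {β ρ ε κ0 : ℝ} (l0 : 0 < lam)
    (β1 : 1 ≤ β) (hβ : κ0 ^ 2 ≤ ε ^ 2 * β) (hρ0 : 0 < ρ) (hρ : ρ ≤ 1)
    (hΛ : 3 * (lam * β * ρ⁻¹ ^ d) ≤ Λ)
    (hκ : (Fintype.card T.ι * (Fintype.card ((W ⊕ S) ⊕ C) + 1) ^ d : ℝ) ≤ κ0) (e0 : 0 ≤ ε)
    (e1 : ε ≤ 1 / 6)
    (he : β * (ρ * (2 * (1 + Fintype.card ((W ⊕ S) ⊕ C)) ^ d * κ0) ^ 2) ≤ ε ^ 2) {f : ℤ → ℝ}
    (hf : Unit01 f) {g : Finset W → S → (T.ι → ℝ) → ℝ} {off : Finset W → S → ℤ}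
    (hg : ∀ c t y, g c t (toR y) = f (off c t + T.el ⬝ᵥ y)) {t0 B a : ℝ} (t1 : 0 ≤ t0)
    (t2 : t0 ≤ B) (t3 : 1 ≤ B) (ha : a ≤ Er (Gm (tw0 T G) cd mo ω0) (p0 cd mo Q) fun z =>
      ∏ c ∈ cells cl, ∏ t, g c t (ev (idx c (some t)) cd mo (toR z)) - t0) :
    ∃ Z : Sys T W S, Z.Ok ∧
      a - 3 * (B * (4 * η + 24 * ε * κ0 + Fintype.card ((W ⊕ S) ⊕ C) * (3 * √η))) ≤
        ∑' z, Z.w cl (s + 1) z * (Z.PF cl (s + 1) f z - t0) := by
  classical
  have hm : ∀ a, T.lv a < s + 1 := fun a => Nat.lt_succ_of_le (hT.le a)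
  choose e a1 a2 using fun k : Lb T cl S (s + 1) => hL.sur k.cd (rm k) (card_rm k) (kt_rm k)
  have a3 : ∀ l, l ∈ Set.range e ↔ ∀ w, (mo l).count (Sum.inl w) ≤ 1 := fun l =>
    ⟨fun ⟨k, hk⟩ => by rw [← hk, a2]; exact count_rm k, fun h => by
      obtain ⟨k, h3, h4⟩ := exists_rm (cl := cl) (hm _) (hL.deg l) (hL.mem l) h
      exact ⟨k, hL.inj _ _ ((a1 k).trans h3) ((a2 k).trans h4)⟩⟩
  obtain ⟨ω, hω⟩ : ∃ ω : Multiset (W ⊕ S) → ℝ, ∀ m, ω m =
    if ∀ w, m.count (Sum.inl w) ≤ 1 then lam else lam * β := ⟨_, fun _ => rfl⟩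
  have b0 : lam ≤ lam * β := le_mul_of_one_le_right l0.le β1
  have w1 : ∀ m, lam ≤ ω m := fun m => by rw [hω]; split_ifs; exacts [le_rfl, b0]
  have w2 : ∀ m, ω m ≤ lam * β := fun m => by rw [hω]; split_ifs; exacts [b0, le_rfl]
  have w0 : ∀ l, 0 < ω (mo l) := fun l => l0.trans_le (w1 _)
  have f1 : ∀ (Q : T.ι → Pl T.ι (W ⊕ S)) (y : Lb T cl S (s + 1) → ℤ),
      |(sysQ Q off).PF cl (s + 1) f y - t0| ≤ B := fun Q y => by
    have := PF_top hT (sysQ Q off) hf y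
    exact abs_le.2 ⟨by linarith, by linarith⟩
  have f2 : ∀ (Q : T.ι → Pl T.ι (W ⊕ S)) z, (sysQ Q off).PF cl (s + 1) f (Pm cl (s + 1) cd mo *ᵥ z) =
      ∏ c ∈ cells cl, ∏ t, g c t (ev (idx c (some t)) cd mo (toR z)) := fun Q z =>
    prod_congr rfl fun c hc => prod_congr rfl fun t _ => by
      refine (F_top hT _ _ _ _ _).trans ((hg _ _ _).symm.trans (congrArg _ (funext fun a => ?_)))
      rw [toR_apply, P057GH.toR_pt, toR_mulVec, pt_Pm hL _ _ (P057GH.mem_cells.1 hc).1 (hm a)]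
  obtain ⟨c, hc⟩ := exists_mix (h.tri hQ hL) (h.pd hQ hL h0) (H := Gm (tw0 T G) cd mo ω)
    (by rw [Gm_sub]; exact h.pd hQ hL fun l => sub_pos.2 ((h1 l).trans_le (w1 _)))
    (f := fun z => ∏ c ∈ cells cl, ∏ t, g c t (ev (idx c (some t)) cd mo (toR z)) - t0)
    fun z => by rw [← f2 Q]; exact f1 Q _
  rw [← hL.p0_add] at hc
  have hQ' := hQ.sft hT.pos (ρ := 0) (fun _ => Sup.zero _) (hL.sup' (-c))
  generalize sft 0 (pt0 cd mo (-c)) Q = Q' at hc hQ'
  have k1 : (Fintype.card L : ℝ) ≤ κ0 := le_trans (Nat.cast_le.2 (card_lab hL h.le)) (le_trans (by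
    rw [Fintype.card_sum (α := W ⊕ S)]; push_cast; gcongr
    exact le_add_of_nonneg_right (Nat.cast_nonneg _)) hκ)
  have r1 : 1 ≤ ρ⁻¹ ^ d := one_le_pow₀ ((one_le_inv₀ hρ0).2 hρ)
  have hS := Pm_sec a1 a2
  have h2 := er_quot (h.tri hQ' hL) (h.pd hQ' hL w0) hS (fun k l h => by
      have : cd l = k.cd := by_contra fun h2 => h (if_neg fun h3 => h2 h3.1)
      rw [a1, this]) (p' := fun z => (sysQ Q' off).pr cl (s + 1) (toR z))
    (fun z => by rw [toR_mulVec, pr_Pm hL hQ' hm]; rfl)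
    (fun l l' a b => Gw_ne _ fun h => a ((a3 l).2 (by
      change mo l = mo l' at h
      rw [h]; exact (a3 l').1 (not_not.1 b)))) e0 e1 h.e1 (fun v hv => by
      refine (qq_Gm_map h.ok hL hL (fun l => (w0 l).le) (fun l => (w0 l).le) (b := 1) (ρ := β⁻¹)
        (n := fun m' m => if ((∀ w, m'.count (Sum.inl w) ≤ 1) ∧ ¬ ∀ w, m.count (Sum.inl w) ≤ 1) ∧
          m.card = m'.card ∧ (∀ t, Sum.inr t ∈ m → Sum.inr t ∈ m') ∧
          m.toFinset.toLeft = m'.toFinset.toLeft then 1 else 0) (x := v) (by positivity)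
        (fun _ _ => by split_ifs <;> simp) (fun l' l h => ?_) fun l' => ?_).trans
        (mul_le_mul_of_nonneg_right ?_ (qq_nonneg (h.pd hQ hL w0).posSemidef _))
      · obtain ⟨h3, h4⟩ := ite_ne_right_iff.1 h
        rw [hω, hω, if_pos h3.1.1, if_neg h3.1.2]
        exact ⟨h3.2.1, le_of_eq (by field_simp)⟩
      · by_cases hl : ∃ k, e k = l'
        · obtain ⟨k, rfl⟩ := hl
          simp only [(sec_inj hS).extend_apply, mulVec, dotProduct, mR, Pm, map_apply, of_apply,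
            a1, a2, left_rm, inr_rm, card_rm]
          refine sum_congr rfl fun l _ => ?_
          by_cases h3 : ∀ w, (mo l).count (Sum.inl w) ≤ 1
          · obtain ⟨k', rfl⟩ := (a3 l).2 h3
            simp [hv]
          · by_cases h4 : cd l = k.cd
            · simp only [h3, h4, hL.deg, count_rm, implies_true, not_false_iff, true_and, if_true]
              split_ifs <;> simp
            · simp [h4]
        · rw [extend_apply' _ _ _ hl]
          exact (sum_eq_zero fun l _ => by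
            rw [if_neg (c := _ ∧ _) fun h => hl ((a3 _).2 h.1.1), zero_mul, ite_self]).symm
      · rw [one_pow, mul_one, inv_mul_le_iff₀ (by positivity), mul_comm β]
        exact le_trans (by rw [← sq]; gcongr) hβ)
    ((h.lf.fine (h.fm0 hQ' hL) (by rw [Fintype.card_sum] at hn; omega) fun l => h.le _).mono
      (Γ' := (2 : ℝ) • Gm (tw0 T G) cd mo ω) (fun v => by
        rw [Gm_smul, qq_smul_mat]
        exact h.gam (fun l => by nlinarith [w2 (mo l), w0 l]) v) |> fun h => by rwa [p_fcf] at h)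
    (f1 Q') (a := a - 2 * (B * (4 * η + 24 * ε * κ0 + Fintype.card ((W ⊕ S) ⊕ C) * (3 * √η))))
    fun κ hκ' => by
      have h3 := h.rem hQ' hL hn l0 w1 w2 hρ0 hρ hΛ hκ e0 e1 (by nlinarith)
        (F := fun z => (sysQ Q' off).PF cl (s + 1) f (Pm cl (s + 1) cd mo *ᵥ z) - t0)
        (fun z => f1 Q' _) (fun z z' h => by
          rw [f2, f2]
          exact congrArg (· - t0) (prod_congr rfl fun c hc => prod_congr rfl fun t _ => by
            rw [h c hc])) (rch_ker hL a1 a2 hm hκ')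
      simp only [← f2 Q'] at hc ha
      linarith [(abs_le.1 h3).2]
  have h3 : (Gm (tw0 T G) cd mo ω).submatrix e e = Gam T cl S (s + 1) := by
    ext k k'
    have h4 := hT.blk k.cd k'.cd
    simp only [submatrix_apply, Gm_apply, a1, a2, hω, count_rm, implies_true, if_true, Gam, of_apply,
      hG, Matrix.smul_apply, smul_eq_mul] at h4 ⊢
    by_cases h5 : T.lv k.cd = T.lv k'.cd
    · exact @if_congr _ _ _ (_) (_) _ _ _ _ (rm_eq h5) rfl rfl
    · simp only [h4 h5, ite_self]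
  rw [h3] at h2
  refine ⟨_, ok_sysQ hQ' off, le_trans ?_ h2⟩
  have h4 : B * (4 * η + 24 * ε * Fintype.card L) ≤
      B * (4 * η + 24 * ε * κ0 + Fintype.card ((W ⊕ S) ⊕ C) * (3 * √η)) := by
    refine mul_le_mul_of_nonneg_left (le_add_of_le_of_nonneg (by gcongr) (by positivity)) ?_
    linarith
  linarith

end

end Vale.Agent.P057ST
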