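import Vale.Agent.P057ST.Mrg
import Vale.Agent.P057ST.Out2

/-! The full simplex and the grid as free configurations. -/

set_option linter.all false

open Matrix Finset Function
open Vale.Agent.P267.H775 Vale.Agent.P057G Vale.Agent.P057PC Vale.Agent.P057MA Vale.Agent.P057RH

namespace Vale.Agent.P057ST

noncomputable section

theorem sel_comp {V V' : Type} [DecidableEq V] [Fintype V'] {j : V' → V} (hj : Injective j)
    {c : V → ℝ} (h : ∀ v, c v ≠ 0 → ∃ w, j w = v) : sel j *ᵥ (c ∘ j) = c := by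
  funext v
  simp only [sel, mulVec, dotProduct, of_apply, ite_mul, one_mul, zero_mul, Function.comp_apply]
  by_cases h1 : ∃ w, j w = v
  · obtain ⟨w, rfl⟩ := h1
    rw [sum_eq_single w (fun b _ hb => if_neg fun h2 => hb (hj h2).symm) (by simp), if_pos rfl]
  · rw [sum_eq_zero fun w _ => if_neg fun h2 => h1 ⟨w, h2.symm⟩]
    exact (not_not.1 (mt (h v) h1)).symm

theorem abs_prod_le {I : Type*} (s : Finset I) {a : I → ℝ} {M : ℝ} (h : ∀ i, 0 ≤ a i ∧ a i ≤ M) :
    0 ≤ ∏ i ∈ s, a i ∧ ∏ i ∈ s, a i ≤ M ^ s.card :=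
  ⟨prod_nonneg fun _ _ => (h _).1, (prod_le_prod (fun _ _ => (h _).1) fun _ _ => (h _).2).trans
    (prod_const M).le⟩

variable {ι C N L L' : Type} [Fintype C] [DecidableEq C] [Fintype N] [DecidableEq N] [Fintype L]
  [DecidableEq L] [Fintype L'] [DecidableEq L'] [Fintype ι] [DecidableEq ι] {T : Tw ι Unit}
  {d n : ℕ} {Λ η : ℝ} {cd : L → ι} {mo : L → Multiset C} {μ : C → ℝ} {Q : ι → Pl ι C}

theorem Ctx.full (h : Ctx T d n Λ η) (hQ : Fm T.lv T.q Q) (hL : Lab T.lv cd mo fun _ => True)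
    (h0 : ∀ j, 0 < μ j) (hΛ : ∀ l, 3 * wt μ (mo l) ≤ Λ) (hΛ0 : 0 ≤ Λ)
    (hn : Fintype.card (C × N) + 1 ≤ n) (o : N) {c : C → C → ℝ} (hc : ∀ i, c i i = 0)
    {g : (ι → ℝ) → ℝ} {M : ℝ} (hg : ∀ x, 0 ≤ g x ∧ g x ≤ M) :
    |Lt (nu (ms0 T cd mo μ Q) univ) 0 (rect (one o)) (Pn univ (slot g c cd mo)) -
      Er (Gm T cd mo (wt μ)) (p0 cd mo Q) fun z => ∏ i, g (ev (c i) cd mo (toR z))| ≤
      Fintype.card (C × N) * (3 * √η * M ^ Fintype.card C) := by
  classical
  have hK := lab_K (c0 := o) hL (dc_rect (one o))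
  have k1 : ∀ m : Multiset C, True ↔ KF (rect (one o)) (m.map (jc fun _ => o)) := fun m => by
    simp [kf_rect, jc, P057RH.one]
  obtain ⟨e, e1, e2⟩ := hK.emb hL fun m => (k1 m).1
  have h1 := h.kill (hQ.mp (grd_sb (bl N))) hK hL hn (jc_inj _) k1 e1 e2 (ω := wt (μ ∘ Prod.fst))
    (fun l => wt_pos (fun _ => h0 _) _) (fun l => (congrArg _ (wt_map _ _ _)).trans_le (hΛ _)) hΛ0
    (f := fun z => ∏ i, g (ev (c i) cd mo (toR z))) fun y => by
      have := abs_prod_le univ fun i => hg (ev (c i) cd mo (toR y))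
      rw [abs_of_nonneg this.1]; exact this.2
  rw [mp_mp, sb_sb, bl_sel, sb_one, mp_id] at h1
  simp only [wt_map] at h1
  rw [lt_slot (h.lk hQ hL h0) hL o g hc]
  refine le_trans (le_of_eq ?_) h1
  congr 3
  funext x
  refine prod_congr rfl fun i _ => ?_
  have p1 : sp (fun v => if v = i then none else some o) = univ.erase i := by
    ext v
    rw [mem_sp]
    split_ifs with h3 <;> simp [h3]
  rw [prod_eq_single (fun v => if v = i then none else some o) (fun φ h2 h3 => (h3 ?_).elim)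
    fun h2 => (h2 (mem_filter.2 ⟨mem_univ _, fun v l h3 => by
      beta_reduce at h3
      split_ifs at h3
      exact mem_singleton.2 (Option.some.inj h3).symm, p1⟩)).elim,
    ← sel_ch (c0 := o) fun j hj => by
      rw [p1] at hj
      rw [show j = i by simpa using hj, hc],
    show (ch o fun v => if v = i then none else some o) = fun _ => o from funext fun v => by
      simp only [ch]; split_ifs <;> rfl,
    ← ev_sel (jc_inj _) hK hL (fun m => (k1 m).1) e1 e2 fun _ h => (h trivial).elim]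
  · rfl
  · obtain ⟨a1, a2⟩ := (mem_filter.1 h2).2
    funext v
    split_ifs with h4
    · exact not_not.1 fun h5 => by simpa [a2, h4] using mem_sp.2 h5
    · obtain ⟨l, hl⟩ := Option.ne_none_iff_exists'.1
        (mem_sp.1 (a2 ▸ mem_erase.2 ⟨h4, mem_univ _⟩))
      rw [hl, mem_singleton.1 (a1 _ _ hl)]

variable {D : Type} [Fintype D] [DecidableEq D] {cd' : L' → ι} {mo' : L' → Multiset ((D × N) ⊕ N)}

/-- the vertices of the grid -/
def kap (cls : Option D → C) (v : (D × N) ⊕ N) : C × N :=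
  (cls (clx Prod.fst v), v.elim Prod.snd id)

theorem kap_inj {cls : Option D → C} (h : Injective cls) : Injective (kap (N := N) cls) := by
  rintro (v | v) (w | w) h1 <;> simp [kap, clx, h.eq_iff] at h1
  exacts [congrArg _ (Prod.ext h1.1 h1.2), congrArg _ h1]

theorem Ctx.grid (h : Ctx T d n Λ η) (hQ : Fm T.lv T.q Q) (hL : Lab T.lv cd mo fun _ => True)
    (hL' : Lab T.lv cd' mo' (KT Prod.fst)) (h0 : ∀ j, 0 < μ j) (hΛ : ∀ l, 3 * wt μ (mo l) ≤ Λ)
    (hΛ0 : 0 ≤ Λ) (hn : Fintype.card (C × N) + 1 ≤ n) (o : N) {i : C} {cls : Option D → C}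
    (c1 : Injective cls) (c2 : ∀ j, j ≠ i ↔ ∃ x, cls x = j) {c : C → C → ℝ} (hc : ∀ i, c i i = 0)
    {g : (ι → ℝ) → ℝ} {M : ℝ} (hg : ∀ x, 0 ≤ g x ∧ g x ≤ M) :
    |Lt (nu (ms0 T cd mo μ Q) univ) 0 (rect (update (fun _ => (univ : Finset N)) i ∅))
        (Pn {i} (slot g c cd mo)) -
      Er (Gm T cd' mo' (wt fun v => μ (kap cls v).1))
        (p0 cd' mo' (mp (sb ((bl N : Matrix C (C × N) ℝ) * sel (kap cls))) Q)) fun z =>
          ∏ t ∈ P057TP.cells Prod.fst, ∏ u,
            g (ev (fun v => idx t (some u) v * c i (kap cls v).1) cd' mo' (toR z))| ≤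
      Fintype.card (C × N) *
        (3 * √η * M ^ ((P057TP.cells (Prod.fst : D × N → D)).card * Fintype.card N)) := by
  classical
  have hK := lab_K (c0 := o) hL (dc_rect (update (fun _ => (univ : Finset N)) i ∅))
  have c3 : ∀ x, cls x ≠ i := fun x => (c2 _).2 ⟨x, rfl⟩
  have k1 : ∀ m : Multiset ((D × N) ⊕ N), KT Prod.fst m ↔
      KF (rect (update (fun _ => (univ : Finset N)) i ∅)) (m.map (kap cls)) := fun m => by
    simp only [kf_rect, Multiset.forall_mem_map_iff]
    refine ⟨fun h => ⟨fun v _ => by simp [kap, c3], fun v hv v' hv' h1 => by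
      rw [h v hv v' hv' (c1 h1)]⟩, fun h v hv v' hv' h1 => kap_inj c1 (Prod.ext (congrArg cls h1)
        (h.2 v hv v' hv' (congrArg cls h1)))⟩
  obtain ⟨e, e1, e2⟩ := hK.emb hL' fun m => (k1 m).1
  have h1 := h.kill (hQ.mp (grd_sb (bl N))) hK hL' hn (kap_inj c1) k1 e1 e2
    (ω := wt (μ ∘ Prod.fst)) (fun l => wt_pos (fun _ => h0 _) _)
    (fun l => (congrArg _ (wt_map _ _ _)).trans_le (hΛ _)) hΛ0
    (B := M ^ ((P057TP.cells (Prod.fst : D × N → D)).card * Fintype.card N))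
    (f := fun z => ∏ t ∈ P057TP.cells Prod.fst, ∏ u,
      g (ev (fun v => idx t (some u) v * c i (kap cls v).1) cd' mo' (toR z))) fun y => by
      have := abs_prod_le (P057TP.cells Prod.fst) fun t => abs_prod_le univ fun u =>
        hg (ev (fun v => idx t (some u) v * c i (kap cls v).1) cd' mo' (toR y))
      rw [abs_of_nonneg this.1, mul_comm, pow_mul]; exact this.2
  rw [mp_mp, sb_sb] at h1
  simp only [wt_map] at h1
  rw [lt_slot (h.lk hQ hL h0) hL o g hc]
  refine le_trans (le_of_eq ?_) h1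
  congr 3
  funext x
  have p1 : ∀ φ ∈ univ.filter fun φ => rect (update (fun _ => (univ : Finset N)) i ∅) φ ∧
      sp φ = univ.erase i, φ i = none ∧ ∀ x, φ (cls x) = some (ch o φ (cls x)) := fun φ hφ => by
    have a2 := (mem_filter.1 hφ).2.2
    refine ⟨not_not.1 fun h5 => by simpa [a2] using mem_sp.2 h5, fun x => ?_⟩
    obtain ⟨l, hl⟩ := Option.ne_none_iff_exists'.1
      (mem_sp.1 (a2 ▸ mem_erase.2 ⟨c3 x, mem_univ _⟩))
    simp [ch, hl]
  rw [prod_singleton, ← prod_product']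
  refine prod_nbij (fun φ => (univ.filter fun w : D × N => φ (cls (some w.1)) = some w.2,
    ch o φ (cls none))) (fun φ hφ => mem_product.2 ⟨P057GH.mem_cells.2 ⟨fun w hw w' hw' h2 => ?_,
      fun a => ⟨(a, ch o φ (cls (some a))), mem_filter.2 ⟨mem_univ _, (p1 φ hφ).2 _⟩, rfl⟩⟩,
      mem_univ _⟩) (fun φ hφ φ' hφ' h2 => funext fun j => ?_) (fun y hy => ?_) fun φ hφ => ?_
  · refine Prod.ext h2 (Option.some.inj ((mem_filter.1 hw).2.symm.trans ?_))
    rw [h2]; exact (mem_filter.1 hw').2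
  · obtain ⟨h3, h4⟩ := Prod.mk.inj h2
    by_cases h5 : j = i
    · rw [h5, (p1 φ hφ).1, (p1 φ' hφ').1]
    obtain ⟨_ | a, rfl⟩ := (c2 j).1 h5
    · rw [(p1 φ hφ).2, (p1 φ' hφ').2, h4]
    · rw [(p1 φ hφ).2]
      exact (mem_filter.1 (h3.subset
        (mem_filter.2 ⟨mem_univ (a, ch o φ (cls (some a))), (p1 φ hφ).2 _⟩))).2.symm
  · obtain ⟨a1, a2⟩ := P057GH.mem_cells.1 (mem_product.1 hy).1
    choose v v1 v2 using a2
    refine ⟨extend cls (fun x => some (x.elim y.2 fun a => (v a).2)) fun _ => none,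
      mem_filter.2 ⟨mem_univ _, fun j l h2 => ?_, ?_⟩, Prod.ext ?_ ?_⟩
    · by_cases h3 : j = i
      · rw [extend_apply' _ _ _ fun h4 => (c2 j).2 h4 h3] at h2; cases h2
      · simp [h3]
    · ext j
      rw [mem_sp]
      by_cases h3 : j = i
      · rw [extend_apply' _ _ _ fun h4 => (c2 j).2 h4 h3]; simp [h3]
      · obtain ⟨x, rfl⟩ := (c2 j).1 h3
        simp [c1.extend_apply, h3]
    · ext w
      simp only [mem_filter, mem_univ, true_and, c1.extend_apply, Option.elim, Option.some.injEq]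
      exact ⟨fun h => by rw [show w = v w.1 from Prod.ext (v2 _).symm h.symm]; exact v1 _,
        fun h => by rw [a1 (v1 w.1) h (v2 _)]⟩
    · simp [ch, c1.extend_apply]
  · have t1 : Set.InjOn Prod.fst
        ((univ.filter fun w : D × N => φ (cls (some w.1)) = some w.2 : Finset _) : Set (D × N)) :=
      fun w hw w' hw' h2 => Prod.ext h2 (Option.some.inj ((mem_filter.1 hw).2.symm.trans (by
        rw [h2]; exact (mem_filter.1 hw').2)))
    rw [show toR (x ∘ e) = toR x ∘ e from rfl, ev_sel (kap_inj c1) hK hL' (fun m => (k1 m).1) e1 e2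
      fun m hm => by rw [wt_mul, idx_zero t1 _ m hm, zero_mul],
      ← sel_comp (kap_inj c1) (c := cfa (c i) φ) fun v hv => ?_]
    · congr 3
      funext v
      rcases v with w | u
      · simp only [cfa, kap, clx, idx, Function.comp_apply, Sum.elim_inl, ite_mul, one_mul,
          zero_mul]
        exact if_congr (by simp) rfl rfl
      · simp only [cfa, kap, clx, idx, Function.comp_apply, Sum.elim_inr, (p1 φ hφ).2, id, ite_mul,
          one_mul, zero_mul]
    · obtain ⟨_ | a, h2⟩ := (c2 v.1).1 fun h3 => hv (by simp [cfa, h3, hc])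
      exacts [⟨.inr v.2, Prod.ext h2 rfl⟩, ⟨.inl (a, v.2), Prod.ext h2 rfl⟩]

end

end Vale.Agent.P057ST
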