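import Vale.Agent.P057PC.Dbl
import Vale.Agent.P057ST.Cmp

/-! Transport of configurations along a homomorphism of the monomial algebras. -/

set_option linter.all false

open Matrix Finset
open Vale.Agent.P267.H775 Vale.Agent.P057G Vale.Agent.P057PC

namespace Vale.Agent.P057ST

noncomputable section

variable {ι Δ M M' V V' L L' : Type} [AddCommMonoid M] [AddCommMonoid M']

theorem hom_eval_map {A B : Type*} [CommRing A] [CommRing B] [Algebra ℝ A] [Algebra ℝ B]
    (φ : A →ₐ[ℝ] B) (x : ι → A) (R : MvPolynomial ι A) :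
    φ (MvPolynomial.eval x R) =
      MvPolynomial.eval (fun a => φ (x a)) (MvPolynomial.map φ.toRingHom R) := by
  induction R using MvPolynomial.induction_on with
  | C a => simp
  | add p q hp hq => simp only [map_add, hp, hq]
  | mul_X p a hp => simp only [map_mul, hp, MvPolynomial.map_X, MvPolynomial.eval_X]

open Classical in
/-- the matrix of a homomorphism on the labels -/
def SM (φ : Alg M →ₐ[ℝ] Alg M') (C : Cf ι Δ M V L) (C' : Cf ι Δ M' V' L') : Matrix L' L ℝ :=
  Matrix.of fun l' l => if C.cd l = C'.cd l' then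
    (φ (AddMonoidAlgebra.single (C.mo l) 1)).coeff (C'.mo l') else 0

/-- a homomorphism that is compatible with the labels, modulo an ideal of monomials -/
structure Mp (φ : Alg M →ₐ[ℝ] Alg M') (C : Cf ι Δ M V L) (C' : Cf ι Δ M' V' L')
    (I : M' → Prop) : Prop where
  inj : ∀ l l', C.cd l = C.cd l' → C.mo l = C.mo l' → l = l'
  inj' : ∀ l l', C'.cd l = C'.cd l' → C'.mo l = C'.mo l' → l = l'
  idl : ∀ m m', I m → I (m + m')
  out : ∀ l', ¬ I (C'.mo l')
  src : ∀ l' m, (φ (AddMonoidAlgebra.single m 1)).coeff (C'.mo l') ≠ 0 →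
    ∃ l, C.cd l = C'.cd l' ∧ C.mo l = m
  tgt : ∀ l m', (φ (AddMonoidAlgebra.single (C.mo l) 1)).coeff m' ≠ 0 →
    I m' ∨ ∃ l', C'.cd l' = C.cd l ∧ C'.mo l' = m'
  jnk : ∀ a β, Sup I ((C'.R a).coeff β - φ ((C.R a).coeff β))

variable {φ : Alg M →ₐ[ℝ] Alg M'} {C : Cf ι Δ M V L} {C' : Cf ι Δ M' V' L'} {I : M' → Prop}

theorem hom_single (φ : Alg M →ₐ[ℝ] Alg M') (m : M) (r : ℝ) (m' : M') :
    (φ (AddMonoidAlgebra.single m r)).coeff m' =
      r * (φ (AddMonoidAlgebra.single m 1)).coeff m' := by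
  have : (AddMonoidAlgebra.single m r : Alg M) = r • AddMonoidAlgebra.single m 1 := by simp
  rw [this, map_smul]; simp

variable [Fintype L] [Fintype L']

theorem Mp.coeff (h : Mp φ C C' I) (u : ι → Alg M) (l' : L') :
    (φ (u (C'.cd l'))).coeff (C'.mo l') =
      (SM φ C C' *ᵥ fun l => (u (C.cd l)).coeff (C.mo l)) l' := by
  classical
  have key : ∀ w : Alg M, (φ w).coeff (C'.mo l') = ∑ l, SM φ C C' l' l * w.coeff (C.mo l) := by
    intro w
    induction w using AddMonoidAlgebra.induction_linear with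
    | zero => simp
    | add u v hu hv => simp [hu, hv, mul_add, sum_add_distrib]
    | single m r =>
      rw [hom_single]
      by_cases h0 : (φ (AddMonoidAlgebra.single m 1)).coeff (C'.mo l') = 0
      · rw [h0, mul_zero]
        refine (sum_eq_zero fun l _ => ?_).symm
        rw [AddMonoidAlgebra.coeff_single, Finsupp.single_apply]
        split_ifs with h1
        · simp [SM, ← h1, h0]
        · exact mul_zero _
      · obtain ⟨l, h1, rfl⟩ := h.src l' m h0
        rw [sum_eq_single l]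
        · simp [SM, h1, mul_comm]
        · intro b _ hb
          rw [AddMonoidAlgebra.coeff_single, Finsupp.single_apply]
          split_ifs with h2
          · have : C.cd b ≠ C'.cd l' := fun h3 => hb (h.inj _ _ (h3.trans h1.symm) h2.symm)
            simp [SM, this]
          · exact mul_zero _
        · simp
  rw [key]
  refine sum_congr rfl fun l _ => ?_
  by_cases h1 : C.cd l = C'.cd l'
  · simp only [h1]
  · simp [SM, h1]

theorem coeff_pt_of_inj (C : Cf ι Δ M V L)
    (h : ∀ l l', C.cd l = C.cd l' → C.mo l = C.mo l' → l = l') (x : L → ℝ) (l : L) :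
    (C.pt x (C.cd l)).coeff (C.mo l) = x l := by
  classical
  rw [Cf.coeff_pt, sum_eq_single l (fun b _ hb => if_neg fun h2 => hb (h _ _ h2.1 h2.2))
    (fun h => (h (mem_univ l)).elim), if_pos ⟨rfl, rfl⟩]

theorem Mp.pt (h : Mp φ C C' I) (x : L → ℝ) (a : ι) :
    Sup I (C'.pt (SM φ C C' *ᵥ x) a - φ (C.pt x a)) := by
  classical
  intro m' hm
  by_contra hI
  refine hm ?_
  rw [AddMonoidAlgebra.coeff_sub, Finsupp.sub_apply, sub_eq_zero]
  by_cases h1 : ∃ l', C'.cd l' = a ∧ C'.mo l' = m'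
  · obtain ⟨l', rfl, rfl⟩ := h1
    rw [coeff_pt_of_inj C' h.inj', h.coeff (C.pt x) l']
    simp only [coeff_pt_of_inj C h.inj]
  · rw [Cf.coeff_pt, sum_eq_zero fun l' _ => if_neg fun h2 => h1 ⟨l', h2⟩]
    unfold Cf.pt
    rw [map_sum, AddMonoidAlgebra.coeff_sum, Finsupp.finsetSum_apply]
    refine (sum_eq_zero fun l _ => ?_).symm
    split_ifs with h2
    · rw [hom_single]
      refine mul_eq_zero_of_right _ (by_contra fun h3 => ?_)
      rcases h.tgt l m' h3 with h4 | ⟨l', h4, h5⟩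
      exacts [hI h4, h1 ⟨l', h4.trans h2, h5⟩]
    · simp

theorem Mp.val (h : Mp φ C C' I) (T : Tw ι Δ) (x : L → ℝ) (a : ι) :
    Sup I (C'.val T (SM φ C C' *ᵥ x) a - φ (C.val T x a)) := by
  have h1 := Sup.eval_sub h.idl (h.pt x)
    (MvPolynomial.map (algebraMap ℝ (Alg M')) (T.q a) + C'.R a)
  have h2 : Sup I (MvPolynomial.eval (fun a => φ (C.pt x a))
      (C'.R a - MvPolynomial.map φ.toRingHom (C.R a))) :=
    Sup.eval (P := fun _ => True) trivial (fun _ _ _ _ => trivial)
      (fun m m' h3 _ => h.idl m m' h3) (fun _ _ _ => trivial) fun β => by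
        rw [MvPolynomial.coeff_sub, MvPolynomial.coeff_map]; exact h.jnk a β
  have h3 : MvPolynomial.map φ.toRingHom (MvPolynomial.map (algebraMap ℝ (Alg M)) (T.q a)) =
      MvPolynomial.map (algebraMap ℝ (Alg M')) (T.q a) := by
    rw [MvPolynomial.map_map]
    congr 2
    exact RingHom.ext fun r => φ.commutes r
  rw [Cf.val_eq, Cf.val_eq, hom_eval_map, map_add (MvPolynomial.map φ.toRingHom), h3]
  convert h1.add h2 using 1
  simp only [map_add, map_sub]
  ring

/-- the centres transform by the matrix of the homomorphism -/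
theorem Mp.pr (h : Mp φ C C' I) (T : Tw ι Δ) (hc : C'.ce = SM φ C C' *ᵥ C.ce) (x : L → ℝ) :
    C'.pr T (SM φ C C' *ᵥ x) = SM φ C C' *ᵥ C.pr T x := by
  funext l'
  have h1 := (h.val T x (C'.cd l')).coeff (h.out l')
  rw [AddMonoidAlgebra.coeff_sub, Finsupp.sub_apply, sub_eq_zero, h.coeff (C.val T x)] at h1
  have h2 : C.pr T x = (fun l => (C.val T x (C.cd l)).coeff (C.mo l)) + C.ce := rfl
  rw [h2, mulVec_add, Pi.add_apply, ← h1, ← hc]
  rfl

/-- composition of the matrices -/
theorem Mp.mul {M'' V'' L'' : Type} [AddCommMonoid M''] [Fintype L''] {ψ : Alg M' →ₐ[ℝ] Alg M''}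
    {C'' : Cf ι Δ M'' V'' L''} {J : M'' → Prop} (h' : Mp ψ C' C'' J) :
    SM ψ C' C'' * SM φ C C' = SM (ψ.comp φ) C C'' := by
  classical
  ext l'' l
  have h1 := h'.coeff (fun a => if C.cd l = a then φ (AddMonoidAlgebra.single (C.mo l) 1) else 0)
    l''
  have h2 : (SM ψ C' C'' * SM φ C C') l'' l = (SM ψ C' C'' *ᵥ fun l' => SM φ C C' l' l) l'' := rfl
  rw [h2]
  convert h1.symm using 2
  · funext l'
    simp only [SM, of_apply]
    split_ifs <;> simp
  · simp only [SM, of_apply]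
    split_ifs <;> simp

theorem SM_id [DecidableEq L] {C₁ : Cf ι Δ M V' L} (hcd : C₁.cd = C.cd) (hmo : C₁.mo = C.mo)
    (h : ∀ l l', C.cd l = C.cd l' → C.mo l = C.mo l' → l = l') :
    SM (AlgHom.id ℝ (Alg M)) C C₁ = 1 := by
  classical
  ext l' l
  simp only [SM, of_apply, AlgHom.id_apply, AddMonoidAlgebra.coeff_single, Finsupp.single_apply,
    hcd, hmo, Matrix.one_apply]
  by_cases h1 : l' = l
  · simp [h1]
  · rw [if_neg h1]
    split_ifs with h2 h3
    exacts [(h1 (h _ _ h2 h3).symm).elim, rfl, rfl]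

/-- integer coefficients -/
def IntA (u : Alg M) : Prop := ∀ m, ∃ n : ℤ, u.coeff m = n

theorem IntA.single (m : M) (n : ℤ) : IntA (AddMonoidAlgebra.single m (n : ℝ)) := by
  classical
  intro m'
  rw [AddMonoidAlgebra.coeff_single, Finsupp.single_apply]
  split_ifs
  exacts [⟨n, rfl⟩, ⟨0, by simp⟩]

theorem IntA.zero : IntA (0 : Alg M) := fun _ => ⟨0, by simp⟩

theorem IntA.add {u v : Alg M} (hu : IntA u) (hv : IntA v) : IntA (u + v) := fun m => by
  obtain ⟨a, ha⟩ := hu m
  obtain ⟨b, hb⟩ := hv m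
  exact ⟨a + b, by simp [ha, hb]⟩

theorem IntA.sum {κ : Type*} (s : Finset κ) {u : κ → Alg M} (hu : ∀ i ∈ s, IntA (u i)) :
    IntA (∑ i ∈ s, u i) := sum_induction u IntA (fun _ _ => IntA.add) IntA.zero hu

theorem IntA.mul {u v : Alg M} (hu : IntA u) (hv : IntA v) : IntA (u * v) := by
  classical
  rw [← AddMonoidAlgebra.sum_single u, ← AddMonoidAlgebra.sum_single v, Finsupp.sum, Finsupp.sum,
    sum_mul_sum]
  refine IntA.sum _ fun a _ => IntA.sum _ fun b _ => ?_
  obtain ⟨i, hi⟩ := hu a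
  obtain ⟨j, hj⟩ := hv b
  rw [AddMonoidAlgebra.single_mul_single, hi, hj, ← Int.cast_mul]
  exact IntA.single _ _

theorem exists_int_SM (h : ∀ l, IntA (φ (AddMonoidAlgebra.single (C.mo l) 1))) :
    ∃ S : Matrix L' L ℤ, mR S = SM φ C C' := by
  have : ∀ l' l, ∃ n : ℤ, (n : ℝ) = SM φ C C' l' l := by
    intro l' l
    simp only [SM, of_apply]
    split_ifs
    · obtain ⟨n, hn⟩ := h l (C'.mo l')
      exact ⟨n, hn.symm⟩
    · exact ⟨0, by simp⟩
  choose S hS using this
  exact ⟨Matrix.of S, by ext l' l; exact hS l' l⟩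

theorem mR_inj {K J : Type*} {S U : Matrix K J ℤ} (h : mR S = mR U) : S = U := by
  ext i j
  have := congrFun (congrFun h i) j
  simpa [mR] using this

end

end Vale.Agent.P057ST
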