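import Vale.Agent.P057ST.Blw

/-! The marginals of one slot. -/

set_option linter.all false

open Matrix Finset Function
open Vale.Agent.P267.H775 Vale.Agent.P057G Vale.Agent.P057PC Vale.Agent.P057MA Vale.Agent.P057RH

namespace Vale.Agent.P057ST

noncomputable section

variable {ι I : Type} {lv : ι → ℕ}

/-- the monomials of the point system -/
def mo1 (lv : ι → ℕ) (a : ι) : Multiset Unit := Multiset.replicate (lv a) ()

/-- the monomials of copies of the point system -/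
def moI (lv : ι → ℕ) (l : ι × I) : Multiset I := Multiset.replicate (lv l.1) l.2

theorem lab1 : Lab lv id (mo1 lv) fun _ => True :=
  ⟨fun _ _ h _ => h, fun _ => Multiset.card_replicate _ _, fun _ => trivial,
    fun a m h _ => ⟨a, rfl, (Multiset.eq_replicate.2 ⟨h, fun _ _ => rfl⟩).symm⟩, fun _ _ _ => trivial⟩

theorem moI_eq (hp : ∀ a, 0 < lv a) {l l' : ι × I} :
    moI lv l = moI lv l' ↔ l.2 = l'.2 ∧ mo1 lv l.1 = mo1 lv l'.1 := by
  refine ⟨fun h => ?_, fun h => ?_⟩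
  · have h1 : lv l.1 = lv l'.1 := by simpa [moI] using congrArg Multiset.card h
    rw [moI, moI, h1, Multiset.replicate_right_inj (hp _).ne'] at h
    exact ⟨h, by rw [mo1, mo1, h1]⟩
  · have h1 : lv l.1 = lv l'.1 := by simpa [mo1] using congrArg Multiset.card h.2
    rw [moI, moI, h1, h.1]

theorem labI (hp : ∀ a, 0 < lv a) :
    Lab lv Prod.fst (moI lv : ι × I → _) fun m => ∀ v ∈ m, ∀ v' ∈ m, v = v' := by
  refine ⟨fun _ _ h1 h2 => Prod.ext h1 ((moI_eq hp).1 h2).1, fun _ => Multiset.card_replicate _ _,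
    fun l v hv v' hv' => (Multiset.eq_of_mem_replicate hv).trans
      (Multiset.eq_of_mem_replicate hv').symm, fun a m h1 h2 => ?_,
    fun m m' h v hv v' hv' => h v (Multiset.mem_add.2 (Or.inl hv)) v' (Multiset.mem_add.2 (Or.inl hv'))⟩
  obtain ⟨n, hn⟩ := Multiset.card_pos_iff_exists_mem.1 (h1 ▸ hp a)
  exact ⟨(a, n), rfl, (Multiset.eq_replicate.2 ⟨h1, fun v hv => h2 v hv n hn⟩).symm⟩

theorem ev1 [Fintype ι] (D : ℝ) (x : ι → ℝ) (a : ι) :
    ev (fun _ => D) id (mo1 lv) x a = D ^ lv a * x a := by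
  classical
  simp [ev_eq, wt_const, mo1, mul_comm]

variable {C N L : Type} [Fintype C] [DecidableEq C] [Fintype N] [DecidableEq N] [Fintype L]
  [DecidableEq L] [Fintype ι] [DecidableEq ι] {T : Tw ι Unit} {d n : ℕ} {Λ η : ℝ} {cd : L → ι}
  {mo : L → Multiset C} {μ : C → ℝ} {Q : ι → Pl ι C}

theorem Ctx.marg (h : Ctx T d n Λ η) (hQ : Fm T.lv T.q Q) (hL : Lab T.lv cd mo fun _ => True)
    (h0 : ∀ j, 0 < μ j) (hΛ : ∀ l, 3 * wt μ (mo l) ≤ Λ) (hΛ0 : 0 ≤ Λ)
    (hn : Fintype.card (C × N) + 1 ≤ n) (o : N) {A : C → Finset N} {i w : C} (hiw : w ≠ i)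
    (hA : ∀ j, j ≠ w → A j ⊆ {o}) (hA' : ∀ j, j ≠ w → j ≠ i → o ∈ A j) {c : C → C → ℝ}
    (hc : ∀ i, c i i = 0) {r : C → ℤ} (hD : c i w ≠ 0) (hr : ∀ j, r j * c i w = c i j)
    {ρ β e κ : ℝ} (hρ0 : 0 ≤ ρ) (hρ : ρ ≤ 1) (hμ : ∀ j, j ≠ w → j ≠ i → μ w ≤ ρ * μ j)
    (hβ : ∀ j, 1 + Fintype.card (C × N) * |(r j : ℝ)| ≤ β)
    (hκ : (Fintype.card ι * (Fintype.card (C × N) + 1) ^ d : ℝ) ≤ κ) (e0 : 0 ≤ e) (e1 : e ≤ 1 / 6)
    (he : ρ * (2 * β ^ d * κ) ^ 2 ≤ e ^ 2) {g : (ι → ℝ) → ℝ} {M : ℝ}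
    (hg : ∀ x, 0 ≤ g x ∧ g x ≤ M) :
    |Lt (nu (ms0 T cd mo μ Q) univ) 0 (rect A) (Pn {i} (slot g c cd mo)) -
      Er (Gm T id (mo1 T.lv) (wt fun _ => μ w))
        (p0 id (mo1 T.lv) (mp (sb (Matrix.of fun j _ => c i j / c i w)) Q))
        (fun y => g (ev (fun _ => c i w) id (mo1 T.lv) (toR y))) ^ (A w).card| ≤
      M ^ (A w).card * (4 * η + 24 * e * κ + Fintype.card (C × N) * (3 * √η)) := by
  classical
  have hK := lab_K (c0 := o) hL (dc_rect A)
  have hI := labI (I := A w) h.ok.pos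
  have hκ' : (Fintype.card (LK mo o (rect A)) : ℝ) ≤ κ :=
    le_trans (by exact_mod_cast card_lab hK h.le) hκ
  have hβ1 : 1 ≤ β := le_trans (le_add_of_nonneg_right (by positivity)) (hβ i)
  have hri : r i = 0 := by
    have := hr i
    rw [hc, mul_eq_zero] at this
    exact_mod_cast this.resolve_right hD
  obtain ⟨B, hB⟩ : ∃ B : Matrix (C × N) (C × N) ℤ, ∀ v v', B v v' =
      if (v.1 ≠ w ∧ v.2 ∈ A v.1) ∧ v'.1 = w then r v.1 else 0 := ⟨Matrix.of _, fun _ _ => rfl⟩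
  have b1 : ∀ v v', B v v' ≠ 0 → ((v.1 ≠ w ∧ v.2 ∈ A v.1) ∧ v'.1 = w) ∧ r v.1 ≠ 0 :=
    fun v v' h => by
      rw [hB] at h
      split_ifs at h with h1
      exacts [⟨h1, h⟩, (h rfl).elim]
  obtain ⟨σ, h1, h2⟩ := h.col (hQ.mp (grd_sb (bl N))) hK hI hn (j := fun n => (w, n.1))
    (fun a b h => Subtype.ext (congrArg Prod.snd h)) (fun m => by
      simp only [kf_rect, Multiset.forall_mem_map_iff, Subtype.property, implies_true, true_and,
        forall_true_left, Subtype.coe_inj]) (M := B) (mv := fun v => v.1 ≠ w ∧ v.2 ∈ A v.1)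
    (fun v v' h => ⟨(b1 v v' h).1.1, fun h3 => h3.1 (b1 v v' h).1.2⟩) (fun m h => by
      rw [kf_rect] at h ⊢
      have h3 : ∀ v ∈ m, v.2 ∈ A v.1 := fun v hv => by_contra fun h4 =>
        h4 (h.1 v (Multiset.mem_filter.2 ⟨hv, fun h5 => h4 h5.2⟩))
      refine ⟨h3, fun v hv v' hv' h4 => ?_⟩
      by_cases h5 : v.1 = w
      · exact h.2 v (Multiset.mem_filter.2 ⟨hv, fun h => h.1 h5⟩) v'
          (Multiset.mem_filter.2 ⟨hv', fun h => h.1 (h4 ▸ h5)⟩) h4
      · exact (mem_singleton.1 (hA _ h5 (h3 v hv))).trans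
          (mem_singleton.1 (hA _ h5 (h4 ▸ h3 v' hv'))).symm) (μ := μ ∘ Prod.fst) (fun v => h0 _)
    hρ0 hρ (fun v v' h => by
      have := b1 v v' h
      simpa [this.1.2] using hμ _ this.1.1.1 fun h3 => this.2 (h3 ▸ hri)) hβ1 (fun v => by
      refine le_trans (add_le_add le_rfl ?_) (hβ v.1)
      rw [← card_univ, ← nsmul_eq_mul]
      refine sum_le_card_nsmul _ _ _ fun v' _ => ?_
      rw [hB]; split_ifs <;> simp) (ω := wt (μ ∘ Prod.fst)) one_pos (a2 := 1) (by simp) (by simp)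
    (fun l => (congrArg _ (wt_map _ _ _)).trans_le (hΛ _)) hΛ0 e0 e1 (by
      rw [one_mul, mul_one]
      refine le_trans ?_ he
      gcongr)
  obtain ⟨φ, hφ⟩ : ∃ φ : A w → Fc C N, ∀ n v, φ n v =
      if v = i then none else if v = w then some n.1 else some o := ⟨_, fun _ _ => rfl⟩
  have p1 : ∀ n, sp (φ n) = univ.erase i := fun n => by
    ext v
    rw [mem_sp, hφ]
    split_ifs with h3 <;> simp [h3]
  have p2 : (univ.filter fun ψ => rect A ψ ∧ sp ψ = univ.erase i) = univ.image φ := by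
    ext ψ
    simp only [mem_filter, mem_univ, true_and, mem_image]
    refine ⟨fun ⟨a1, a2⟩ => ?_, ?_⟩
    · have a3 : ∀ v, v ≠ i → ∃ l, ψ v = some l := fun v hv =>
        Option.ne_none_iff_exists'.1 (mem_sp.1 (a2 ▸ mem_erase.2 ⟨hv, mem_univ _⟩))
      obtain ⟨l, hl⟩ := a3 w hiw
      refine ⟨⟨l, a1 _ _ hl⟩, funext fun v => ?_⟩
      rw [hφ]
      split_ifs with h3 h4
      · exact (not_not.1 fun h5 => by simpa [a2, h3] using mem_sp.2 h5 : ψ v = none).symm
      · rw [h4, hl]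
      · obtain ⟨l', hl'⟩ := a3 v h3
        rw [hl', mem_singleton.1 (hA v h4 (a1 _ _ hl'))]
    · rintro ⟨n, rfl⟩
      refine ⟨fun v l hl => ?_, p1 n⟩
      rw [hφ] at hl
      split_ifs at hl with h3 h4
      exacts [h4 ▸ Option.some.inj hl ▸ n.2, Option.some.inj hl ▸ hA' v h4 h3]
  have p3 : ∀ n : A w, ((1 + mR B) * sel fun n : A w => (w, n.1)) *ᵥ
      (sel (fun _ : Unit => n) *ᵥ fun _ => c i w) = cfa (c i) (φ n) := fun n => by
    funext ⟨j, l⟩
    rw [← mulVec_mulVec, mulVec_mulVec _ (sel _), add_mulVec, one_mulVec]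
    have p4 : (sel (fun n : A w => (w, n.1)) * sel fun _ : Unit => n) *ᵥ (fun _ => c i w) =
        Pi.single (w, n.1) (c i w) := by
      funext v
      simp [mulVec, dotProduct, Matrix.mul_apply, sel, Pi.single_apply]
    rw [p4, mulVec_single, Pi.add_apply, Pi.single_apply]
    simp only [cfa, hφ, Pi.smul_apply, col_apply, mR, map_apply, hB, and_true, Prod.mk.injEq,
      op_smul_eq_mul]
    by_cases h3 : j = i
    · simp [h3, hri, hiw.symm]
    by_cases h4 : j = w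
    · simp [h4, hiw, eq_comm]
    by_cases h5 : o = l
    · simp [h3, h4, ← h5, hA' j h4 h3, hr]
    · simp [h3, h4, h5, show l ∉ A j from fun h => h5 (mem_singleton.1 (hA j h4 h)).symm]
  have p4 : ∀ n : A w, Injective fun _ : Unit => n := fun _ _ _ _ => rfl
  have p5 : ∀ (n : A w) (m : Multiset Unit), True →
      ∀ v ∈ m.map fun _ => n, ∀ v' ∈ m.map fun _ => n, v = v' := fun n m _ => by
    simp only [Multiset.forall_mem_map_iff, implies_true]
  have p6 : ∀ (n : A w) a, moI T.lv (a, n) = (mo1 T.lv a).map fun _ => n := fun n a => by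
    simp [moI, mo1]
  have h3 := h2 (fun y => ∏ n : A w, g (ev (fun _ => c i w) id (mo1 T.lv) (toR fun b => y (b, n))))
    (M ^ (A w).card) fun y => by
      rw [abs_of_nonneg (prod_nonneg fun _ _ => (hg _).1), ← Fintype.card_coe, ← card_univ,
        ← prod_const]
      exact prod_le_prod (fun _ _ => (hg _).1) fun _ _ => (hg _).2
  have h4 : Gm T Prod.fst (moI T.lv) (fun m : Multiset (A w) =>
      wt (μ ∘ Prod.fst) (m.map fun n => (w, n.1))) =
      blockDiagonal fun _ => Gm T id (mo1 T.lv) (wt fun _ => μ w) := by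
    ext ⟨a, n⟩ ⟨b, n'⟩
    simp only [Gm_apply, moI_eq h.ok.pos, ite_and, blockDiagonal_apply]
    simp [moI, mo1, wt_rep]
  have hQ' := hQ.mp (grd_sb (Matrix.of fun j (_ : Unit) => c i j / c i w))
  rw [h4, er_pi (h.tri hQ' lab1) (h.pd hQ' lab1 fun _ => wt_pos (fun _ => h0 w) _) (fun z a n => by
    refine (p0_sel (p4 n) hI lab1 (p5 n) (e := fun b => (b, n)) (fun _ => rfl) (p6 n)
      (toR z) a).symm.trans ?_
    rw [mp_mp, mp_mp, sb_sb, sb_sb]
    refine congrArg (fun B => pr0 id (mo1 T.lv) (mp (sb B) Q) _ a) ?_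
    ext j ⟨⟩
    have := congrFun ((congrArg (bl N *ᵥ ·) (p3 n)).trans (bl_cfa fun j hj => by
      rw [p1] at hj
      rw [show j = i by simpa using hj, hc])) j
    rw [mulVec_mulVec, mulVec_mulVec] at this
    rw [of_apply, eq_div_iff hD, ← this]
    simp [mulVec, dotProduct, Matrix.mul_assoc])
    (f := fun y => g (ev (fun _ => c i w) id (mo1 T.lv) (toR y))) fun y => hg _,
    Fintype.card_coe] at h3
  rw [lt_slot (h.lk hQ hL h0) hL o g hc]
  refine le_trans (le_of_eq ?_) (h3.trans (mul_le_mul_of_nonneg_left (by gcongr)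
    (pow_nonneg ((hg 0).1.trans (hg 0).2) _)))
  congr 3
  funext x
  rw [prod_singleton]
  refine (prod_congr p2 fun _ _ => rfl).trans ((prod_image fun a _ b _ h5 => ?_).trans
    (prod_congr rfl fun n _ => ?_))
  · have := congrFun h5 w
    simpa [hφ, hiw] using this
  · rw [← p3, ← h1 x _ (wt_mulVec (K' := fun _ => True) (fun _ h => (h trivial).elim)
      (sup_sel (p4 n) (p5 n))), ← ev_sel (p4 n) hI lab1 (p5 n) (e := fun b => (b, n))
      (fun _ => rfl) (p6 n) fun _ h => (h trivial).elim]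
    rfl

end

end Vale.Agent.P057ST
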