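import Vale.Agent.P057ST.Quo
import Vale.Agent.P057TP.Alg2
import Vale.Agent.P057PC.Cub

/-! Cube systems as quotients of free configurations. -/

set_option linter.all false

open Matrix Finset Function MvPolynomial
open Vale.Agent.P267.H775 Vale.Agent.P057G Vale.Agent.P057PC Vale.Agent.P057TP

namespace Vale.Agent.P057ST

noncomputable section

theorem hm_comp {V A A' : Type} [CommRing A] [Algebra ℝ A] [CommRing A'] [Algebra ℝ A']
    (F : A →ₐ[ℝ] A') (g : V → A) (u : Alg (Multiset V)) : F (hm g u) = hm (fun v => F (g v)) u :=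
  DFunLike.congr_fun (hm_ext (φ := F.comp (hm g)) fun v => by simp [hm_single]) u

variable {C W S L : Type} [Fintype W] [DecidableEq W] [Fintype S] [DecidableEq S] {cl : W → C}

/-- the classes -/
def clx (cl : W → C) : W ⊕ S → Option C := Sum.elim (fun w => some (cl w)) fun _ => none

/-- monomials on transversals -/
def KT (cl : W → C) (m : Multiset (W ⊕ S)) : Prop :=
  ∀ v ∈ m, ∀ v' ∈ m, clx cl v = clx cl v' → v = v'

/-- the indicator of a face over a base -/
def idx (B : Finset W) (o : Option S) : W ⊕ S → ℝ :=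
  Sum.elim (fun w => if w ∈ B then 1 else 0) fun t => if o = some t then 1 else 0

/-- the special vertex `o` is the base variable -/
def psi (o : Option S) : Alg (Multiset (W ⊕ S)) →ₐ[ℝ] Lam ℝ W :=
  hm (Sum.elim (fun w => X (some w)) fun t => if o = some t then X none else 0)

theorem kt_dc (m m' : Multiset (W ⊕ S)) (h : KT cl (m + m')) : KT cl m := fun v hv v' hv' =>
  h v (Multiset.mem_add.2 (Or.inl hv)) v' (Multiset.mem_add.2 (Or.inl hv'))

theorem evA_psi (B : Finset W) (o : Option S) (u : Alg (Multiset (W ⊕ S))) :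
    evA B (psi o u) = hm (idx B o) u := by
  refine (hm_comp (aeval fun x : Option W => x.elim (1 : ℝ) fun w => if w ∈ B then 1 else 0)
    _ u).trans (congrArg (hm · u) (funext fun v => ?_))
  rcases v with w | t
  · simp [idx]
  · simp only [idx, Sum.elim_inr]; split_ifs <;> simp

theorem kt_psi (o : Option S) (u : Alg (Multiset (W ⊕ S))) : kt (psi o u) = psi none u := by
  refine (hm_comp (aeval fun x : Option W => x.elim (0 : Lam ℝ W) fun w => X (some w))
    _ u).trans (congrArg (hm · u) (funext fun v => ?_))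
  rcases v with w | t
  · simp
  · simp only [Sum.elim_inr]; split_ifs <;> simp_all

theorem psi_hom (o : Option S) {n : ℕ} {u : Alg (Multiset (W ⊕ S))}
    (hu : Sup (fun m => m.card = n) u) : IsHomogeneous (psi o u) n := by
  refine hu.ind (Q := fun u => IsHomogeneous (psi o u) n) (by simp [isHomogeneous_zero])
    (fun a b ha hb => by rw [map_add]; exact ha.add hb) fun m r hm => ?_
  rw [psi, hm_single, smul_eq_C_mul, ← hm]
  refine IsHomogeneous.C_mul ?_ _
  clear hm
  induction m using Multiset.induction_on with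
  | empty => simpa using isHomogeneous_one _ _
  | cons v m ih =>
    rw [Multiset.map_cons, Multiset.prod_cons, Multiset.card_cons, add_comm]
    refine IsHomogeneous.mul ?_ ih
    rcases v with w | t
    · exact isHomogeneous_X _ _
    · simp only [Sum.elim_inr]
      split_ifs
      exacts [isHomogeneous_X _ _, isHomogeneous_zero _ _ _]

theorem wt_idx (B : Finset W) (o : Option S) (m : Multiset (W ⊕ S)) : wt (idx B o) m =
    if (∀ t, Sum.inr t ∈ m → o = some t) ∧ m.toFinset.toLeft ⊆ B then 1 else 0 := by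
  split_ifs with h
  · refine Multiset.prod_eq_one fun x hx => ?_
    obtain ⟨w | t, hv, rfl⟩ := Multiset.mem_map.1 hx
    exacts [if_pos (h.2 (by simpa using hv)), if_pos (h.1 t hv)]
  · refine by_contra fun h1 => h ⟨fun t ht => by_contra fun h2 => ?_, fun w hw => by_contra
      fun h2 => ?_⟩
    · exact h1 (Multiset.prod_eq_zero (Multiset.mem_map.2 ⟨_, ht, if_neg h2⟩))
    · exact h1 (Multiset.prod_eq_zero (Multiset.mem_map.2 ⟨.inl w, by simpa using hw, if_neg h2⟩))

theorem idx_zero {B : Finset W} (hB : Set.InjOn cl B) (o : Option S) (m : Multiset (W ⊕ S))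
    (hm : ¬ KT cl m) : wt (idx B o) m = 0 := by
  rw [wt_idx, if_neg fun h => hm ?_]
  rintro (w | t) hv (w' | t') hv' h1
  · exact congrArg _ (hB (h.2 (by simpa using hv)) (h.2 (by simpa using hv')) (Option.some.inj h1))
  · cases h1
  · cases h1
  · exact congrArg _ (Option.some.inj ((h.1 t hv).symm.trans (h.1 t' hv')))

variable {T : Tow} {m : ℕ} {cd : L → T.ι} {mo : L → Multiset (W ⊕ S)} {Q : T.ι → Pl T.ι (W ⊕ S)}

/-- the system of a family -/
def sysQ (Q : T.ι → Pl T.ι (W ⊕ S)) (off : Finset W → S → ℤ) : Sys T W S :=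
  ⟨⟨fun o a => MvPolynomial.map (psi o).toRingHom (Q a)⟩, off⟩

theorem ok_sysQ (hQ : Fm T.lv T.q Q) (off : Finset W → S → ℤ) : (sysQ Q off).Ok := by
  refine ⟨⟨fun o a β μ h => ?_, fun t a => ?_⟩, fun a => ?_⟩
  · simp only [sysQ, coeff_map] at h
    obtain ⟨m, hm⟩ : ∃ m, ((Q a).coeff β).coeff m ≠ 0 := by
      by_contra h1
      push Not at h1
      rw [show (Q a).coeff β = 0 from AddMonoidAlgebra.ext (Finsupp.ext h1)] at h
      simp at h
    have h1 := hQ.hom a β m hm
    have h2 := deg_of_hom (psi_hom o (n := m.card) (Sup.mono (hQ.hom a β) fun m' h' => by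
      omega)) h
    omega
  · ext β : 1
    simp only [sysQ, coeff_map]
    exact (kt_psi _ _).trans (kt_psi _ _).symm
  · ext β
    have h1 := hm_zero (c := fun _ => 0) (fun m hm => by rw [wt_const, zero_pow hm.ne'])
      (hQ.top a β)
    rw [coeff_sub, map_sub, coeff_map, AlgHom.commutes, sub_eq_zero] at h1
    simp only [Fam.top, sysQ, coeff_map]
    refine (aeval_zero' (S₁ := ℝ) _).symm.trans ((hm_comp _ _ _).trans
      (Eq.trans (congrArg (hm · _) (funext fun v => ?_)) h1))
    rcases v with w | t <;> simp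

open Classical in
/-- the labels of the cube system as sums of labels of the configuration -/
def Pm (cl : W → C) (m : ℕ) (cd : L → T.ι) (mo : L → Multiset (W ⊕ S)) :
    Matrix (Lb T cl S m) L ℤ := Matrix.of fun k l => if cd l = k.cd ∧
      (∀ t, Sum.inr t ∈ mo l → k.bs = some t) ∧ (mo l).toFinset.toLeft = k.fc then 1 else 0

/-- the monomial of a label -/
def rm (k : Lb T cl S m) : Multiset (W ⊕ S) := k.fc.val.map Sum.inl +
  k.bs.elim 0 fun t => Multiset.replicate (T.lv k.cd - k.fc.card) (Sum.inr t)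

theorem inl_rm {k : Lb T cl S m} {w : W} : Sum.inl w ∈ rm k ↔ w ∈ k.fc := by
  unfold rm
  cases k.bs <;> simp [Multiset.mem_replicate]

theorem inr_rm {k : Lb T cl S m} {t : S} : Sum.inr t ∈ rm k ↔ k.bs = some t := by
  unfold rm
  cases h : k.bs with
  | none => simp
  | some u => simp [Multiset.mem_replicate, Nat.sub_ne_zero_of_lt (k.card_lt h), eq_comm]

theorem left_rm (k : Lb T cl S m) : (rm k).toFinset.toLeft = k.fc := by
  ext w; simp [inl_rm]

theorem card_rm (k : Lb T cl S m) : (rm k).card = T.lv k.cd := by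
  unfold rm
  cases h : k.bs with
  | none => simp [k.card_eq h]
  | some u => simp [k.card_le]

theorem kt_rm (k : Lb T cl S m) : KT cl (rm k) := by
  rintro (w | t) hv (w' | t') hv' h1
  · exact congrArg _ (k.2.2.1 (inl_rm.1 hv) (inl_rm.1 hv') (Option.some.inj h1))
  · cases h1
  · cases h1
  · exact congrArg _ (Option.some.inj ((inr_rm.1 hv).symm.trans (inr_rm.1 hv')))

theorem count_rm (k : Lb T cl S m) (w : W) : (rm k).count (Sum.inl w) ≤ 1 := by
  have := Multiset.nodup_iff_count_le_one.1 (k.fc.nodup.map (Sum.inl_injective (β := S))) (.inl w)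
  unfold rm
  cases k.bs <;> simpa [Multiset.count_replicate] using this

theorem exists_rm {a : T.ι} (ha : T.lv a < m) {n : Multiset (W ⊕ S)} (h1 : n.card = T.lv a)
    (h2 : KT cl n) (h3 : ∀ w, n.count (Sum.inl w) ≤ 1) : ∃ k : Lb T cl S m, k.cd = a ∧ rm k = n := by
  have h4 : Set.InjOn cl n.toFinset.toLeft := fun w hw w' hw' h => Sum.inl.inj
    (h2 _ (by simpa using hw) _ (by simpa using hw') (congrArg some h))
  have h5 : ∀ w, (n.toFinset.toLeft.val.map (Sum.inl : W → W ⊕ S)).count (Sum.inl w) =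
      n.count (Sum.inl w) := fun w => by
    rw [Multiset.count_map_eq_count' _ _ Sum.inl_injective]
    by_cases h : Sum.inl w ∈ n
    · rw [Multiset.count_eq_one_of_mem n.toFinset.toLeft.nodup (by simpa using h)]
      exact le_antisymm (Multiset.one_le_count_iff_mem.2 h) (h3 w)
    · rw [Multiset.count_eq_zero_of_notMem h, Multiset.count_eq_zero_of_notMem (by simpa using h)]
  by_cases h : ∃ t, Sum.inr t ∈ n
  · obtain ⟨t, ht⟩ := h
    have h6 : n.toFinset.toLeft.val.map Sum.inl +
        Multiset.replicate (n.count (Sum.inr t)) (Sum.inr t) = n := by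
      ext (w | t')
      · simp [h5, Multiset.count_replicate]
      · by_cases h7 : t = t'
        · simp [h7]
        · rw [Multiset.count_eq_zero_of_notMem (s := n) fun h => h7 (Sum.inr.inj (h2 _ ht _ h rfl))]
          simp [Multiset.count_replicate, h7]
    have h7 := congrArg Multiset.card h6
    have h8 := Multiset.count_pos.2 ht
    rw [Multiset.card_add, Multiset.card_map, Multiset.card_replicate, card_val] at h7
    refine ⟨⟨(a, n.toFinset.toLeft, some t), ha, h4, by change n.toFinset.toLeft.card < T.lv a; omega⟩, rfl,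
      Eq.trans ?_ h6⟩
    change _ + Multiset.replicate (T.lv a - n.toFinset.toLeft.card) _ = _
    rw [show T.lv a - n.toFinset.toLeft.card = n.count (Sum.inr t) by omega]
    rfl
  · have h6 : n.toFinset.toLeft.val.map Sum.inl = n := by
      ext (w | t')
      · exact h5 w
      · rw [Multiset.count_eq_zero_of_notMem (s := n) fun h7 => h ⟨_, h7⟩]; simp
    have h7 := congrArg Multiset.card h6
    rw [Multiset.card_map, card_val] at h7
    exact ⟨⟨(a, n.toFinset.toLeft, none), ha, h4, h7.trans h1⟩, rfl, (add_zero _).trans h6⟩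

theorem Pm_sec {e : Lb T cl S m → L} (h1 : ∀ k, cd (e k) = k.cd) (h2 : ∀ k, mo (e k) = rm k)
    (k k' : Lb T cl S m) : Pm cl m cd mo k (e k') = (1 : Matrix _ _ ℤ) k k' := by
  simp only [Pm, of_apply, h1, h2, left_rm, inr_rm, one_apply]
  refine @if_congr _ _ _ (_) (_) _ _ _ _ ⟨fun h => Lb.ext' h.1.symm h.2.2.symm ?_,
    fun h => by simp [h]⟩ rfl rfl
  cases h3 : k'.bs with
  | some t => exact h.2.1 t h3
  | none =>
    cases h4 : k.bs with
    | none => rfl
    | some t =>
      have := k.card_lt h4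
      rw [← h.1, ← h.2.2, k'.card_eq h3] at this
      exact absurd this (lt_irrefl _)

theorem rm_eq {k k' : Lb T cl S m} (h : T.lv k.cd = T.lv k'.cd) :
    rm k = rm k' ↔ k.fc = k'.fc ∧ k.bs = k'.bs :=
  ⟨fun h1 => ⟨by rw [← left_rm, h1, left_rm], Option.ext fun t => by
    rw [← inr_rm, h1, inr_rm]⟩, fun h1 => by rw [rm, rm, h, h1.1, h1.2]⟩

variable [Fintype L]

theorem Pm_mulVec (x : L → ℝ) (k : Lb T cl S m) :
    (mR (Pm cl m cd mo) *ᵥ x) k = altL k.fc (psi k.bs (pt0 cd mo x k.cd)) := by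
  classical
  simp only [altL, evA_psi]
  change _ = dlt (fun B => ev (idx B k.bs) cd mo x k.cd) k.fc
  simp only [ev_eq, wt_idx, dlt_sum, mulVec, dotProduct, mR, Pm, map_apply, of_apply]
  refine sum_congr rfl fun l _ => ?_
  by_cases h : cd l = k.cd ∧ ∀ t, Sum.inr t ∈ mo l → k.bs = some t
  · simp [h.1, eq_true h.2, dlt_ind]
  · rw [if_neg fun h1 => h ⟨h1.1, h1.2.1⟩, dlt_congr (h := fun _ => 0) fun B _ => by
      rw [ite_eq_right_iff]
      exact fun h1 => by rw [if_neg fun h2 => h ⟨h1, h2.1⟩, mul_zero]]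
    simp [dlt]

theorem Pm_coef (hL : Lab T.lv cd mo (KT cl)) {u : T.ι → Alg (Multiset (W ⊕ S))}
    (hu : ∀ a, Sup (fun m => m.card = T.lv a) (u a)) (k : Lb T cl S m) :
    (mR (Pm cl m cd mo) *ᵥ fun l => (u (cd l)).coeff (mo l)) k = altL k.fc (psi k.bs (u k.cd)) := by
  rw [Pm_mulVec]
  refine dlt_congr fun B hB => ?_
  rw [evA_psi, evA_psi]
  exact hL.ev_coef hu (idx_zero (k.2.2.1.mono hB) _) _

theorem alt_lift (hL : Lab T.lv cd mo (KT cl)) (x : L → ℝ) {o : Option S} {A : Finset W}
    (hA : Set.InjOn cl A) {a : T.ι} (ha : T.lv a < m) (h : o = none → T.lv a ≤ A.card) :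
    altL A (P057TP.lift (mR (Pm cl m cd mo) *ᵥ x) o a) = altL A (psi o (pt0 cd mo x a)) := by
  have h1 := fun o : Option S => psi_hom o (hL.sup' x a)
  rcases lt_trichotomy (T.lv a) A.card with h2 | h2 | h2
  · rw [altL_of_lt (lift_hom _ _ _) h2, altL_of_lt (h1 o) h2]
  · rw [← altL_kt (h2 ▸ lift_hom _ o a), kt_lift, altL_kt (h2 ▸ lift_hom _ none a),
      ← altL_kt (x := psi o _) (h2 ▸ h1 o), kt_psi]
    exact (altL_lift _ ⟨(a, A, none), ha, hA, h2.symm⟩).trans (Pm_mulVec _ _)
  · obtain ⟨t, rfl⟩ := Option.ne_none_iff_exists'.1 fun h3 => (h h3).not_gt h2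
    exact (altL_lift _ ⟨(a, A, some t), ha, hA, h2⟩).trans (Pm_mulVec _ _)

theorem pt_Pm (hL : Lab T.lv cd mo (KT cl)) (x : L → ℝ) (t : S) {B : Finset W}
    (hB : Set.InjOn cl B) {a : T.ι} (ha : T.lv a < m) :
    pt (mR (Pm cl m cd mo) *ᵥ x) (some t) B a = ev (idx B (some t)) cd mo x a := by
  rw [← evA_lift, ← sum_altL, ev, ← evA_psi, ← sum_altL]
  exact sum_congr rfl fun A hA => alt_lift hL x (hB.mono (mem_powerset.1 hA)) ha (by simp)

theorem pr_Pm (hL : Lab T.lv cd mo (KT cl)) (hQ : Fm T.lv T.q Q) (hm : ∀ a, T.lv a < m)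
    (off : Finset W → S → ℤ) (x : L → ℝ) :
    (sysQ Q off).pr cl m (mR (Pm cl m cd mo) *ᵥ x) = mR (Pm cl m cd mo) *ᵥ pr0 cd mo Q x := by
  funext k
  refine (Fam.alt_eq _ _ _ _ _).trans (Eq.trans ?_ (Pm_coef hL (hL.sup_eval hQ x) k).symm)
  rw [hom_eval_map]
  cases h : k.bs with
  | none =>
    exact JH.altL_congr (lw := T.lv) (k.card_eq h ▸ (ok_sysQ hQ off).fam.hom none k.cd)
      (lift_hom _ _) (fun b => psi_hom _ (hL.sup' x b)) fun b B hB h1 =>
        alt_lift hL x (k.2.2.1.mono hB) (hm b) fun _ => h1.ge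
  | some t =>
    refine dlt_congr fun B hB => ?_
    rw [P057TP.hom_eval, P057TP.hom_eval]
    congr 2
    funext b
    rw [evA_lift, pt_Pm hL x t (k.2.2.1.mono hB) (hm b), evA_psi]
    rfl

end

end Vale.Agent.P057ST
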