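import Vale.Agent.P057ST.Col
import Vale.Agent.P057PC.Dom

/-! Quotients of systems; labels of a family of monomials. -/

set_option linter.all false

open Matrix Finset Function
open Vale.Agent.P267.H775 Vale.Agent.P057G Vale.Agent.P057PC

namespace Vale.Agent.P057ST

noncomputable section

/-- passage to a quotient with narrow fibres -/
theorem er_quot {L K : Type} [Fintype L] [DecidableEq L] [Fintype K] [DecidableEq K] {lv : L → ℕ}
    {p : (L → ℤ) → L → ℝ} (hp : Tri lv p) {G : Matrix L L ℝ} (hG : G.PosDef) {e : K → L}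
    {S : Matrix K L ℤ} (hS : ∀ k k', S k (e k') = (1 : Matrix K K ℤ) k k')
    (hlv : ∀ k l, S k l ≠ 0 → lv l ≤ lv (e k)) {p' : (K → ℤ) → K → ℝ}
    (hp' : ∀ z, p' (S *ᵥ z) = mR S *ᵥ p z) (ho : Ort G fun l => l ∉ Set.range e) {ε η : ℝ}
    (h0 : 0 ≤ ε) (h1 : ε ≤ 1 / 6) (hη : η ≤ 1)
    (hs : ∀ v, (∀ k, v (e k) = 0) → qq G (extend e (mR S *ᵥ v) 0) ≤ ε ^ 2 * qq G v)
    (hm : Fine ((2 : ℝ) • G) p η) {f : (K → ℤ) → ℝ} {C a : ℝ} (hf : ∀ y, |f y| ≤ C)
    (h : ∀ κ, mR S *ᵥ κ = 0 → a ≤ Er G (fun z => p z + κ) fun z => f (S *ᵥ z)) :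
    a - C * (4 * η + 24 * ε * Fintype.card L) ≤ Er (G.submatrix e e) p' f := by
  classical
  have he := sec_inj hS
  obtain ⟨M, hM⟩ : ∃ M : Matrix L L ℤ, ∀ l l', M l l' =
      if l' ∈ Set.range e then 0 else extend e (fun k => S k l') 0 l :=
    ⟨Matrix.of _, fun _ _ => rfl⟩
  have m1 : ∀ {R : Type} [CommRing R] (v : L → R), M.map Int.cast *ᵥ v =
      extend e (S.map Int.cast *ᵥ fun l => if l ∈ Set.range e then 0 else v l) 0 := fun v => by
    funext l
    by_cases hl : ∃ k, e k = l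
    · obtain ⟨k, rfl⟩ := hl
      simp only [he.extend_apply, mulVec, dotProduct, map_apply, hM]
      exact sum_congr rfl fun l' _ => by split_ifs <;> simp
    · simp [extend_apply' _ _ _ hl, mulVec, dotProduct, hM]
  have m2 : ∀ {R : Type} [CommRing R] (v : L → R), S.map Int.cast *ᵥ v =
      v ∘ e + S.map Int.cast *ᵥ fun l => if l ∈ Set.range e then 0 else v l := fun v => by
    rw [← sec_extend hS (v ∘ e), ← mulVec_add]
    congr 1
    funext l
    by_cases hl : ∃ k, e k = l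
    · obtain ⟨k, rfl⟩ := hl
      simp [he.extend_apply]
    · simp [extend_apply' _ _ _ hl, hl]
  have m3 : ∀ {R : Type} [CommRing R] (v : L → R),
      (v + M.map Int.cast *ᵥ v) ∘ e = S.map Int.cast *ᵥ v := fun v => by
    rw [m1, m2 v]
    funext k
    simp [he.extend_apply]
  have m4 : ∀ {R : Type} [CommRing R] (v : L → R),
      S.map Int.cast *ᵥ (v - M.map Int.cast *ᵥ v) = v ∘ e := fun v => by
    rw [mulVec_sub, m1, sec_extend hS, m2 v, add_sub_cancel_right]
  have m5 : M * M = 0 := by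
    ext l l'
    rw [Matrix.mul_apply]
    refine sum_eq_zero fun j _ => ?_
    rw [hM, hM]
    by_cases hj : ∃ k, e k = j
    · rw [if_pos (Set.mem_range.2 hj), zero_mul]
    · simp [extend_apply' _ _ _ hj]
  have m6 : ∀ l l', M l l' ≠ 0 → lv l' ≤ lv l := fun l l' h2 => by
    rw [hM] at h2
    by_cases hl : ∃ k, e k = l
    · obtain ⟨k, rfl⟩ := hl
      exact hlv k l' fun h3 => h2 (by simp [he.extend_apply, h3])
    · simp [extend_apply' _ _ _ hl] at h2
  have m7 : mR (1 + M) = 1 + mR M := by ext v w; simp [mR, one_apply]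
  have m8 : (1 + M) * (1 - M) = 1 := by rw [add_mul, mul_sub, mul_sub, m5]; simp
  have m9 : ∀ v, (1 + mR M) *ᵥ (v - mR M *ᵥ v) = v := fun v => by
    rw [add_mulVec, one_mulVec, mulVec_sub, mulVec_mulVec, ← mR_mul, m5]
    simp [mR]
  let E : K ≃ {l // ¬ l ∉ Set.range e} := Equiv.ofBijective (fun k => ⟨e k, by simp⟩)
    ⟨fun _ _ h => he (congrArg Subtype.val h), fun l => (not_not.1 l.2).imp fun _ => Subtype.ext⟩
  have t1 : Tri lv fun z => (1 + mR M) *ᵥ p (z - M *ᵥ z) := fun i z z' h2 => by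
    have t2 : ∀ j, lv j ≤ lv i → p (z - M *ᵥ z) j = p (z' - M *ᵥ z') j := fun j hj =>
      hp j _ _ fun l hl => by
        rw [Pi.sub_apply, Pi.sub_apply, h2 l (by omega)]
        refine congrArg _ (sum_congr rfl fun l' _ => ?_)
        by_cases h3 : M l l' = 0
        · simp [h3]
        · rw [h2 l' (by have := m6 _ _ h3; omega)]
    simp only [add_mulVec, one_mulVec, Pi.add_apply, t2 i le_rfl]
    refine congrArg _ (sum_congr rfl fun l' _ => ?_)
    by_cases h3 : M i l' = 0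
    · simp [mR, h3]
    · rw [t2 l' (m6 _ _ h3)]
  have h2 := er_fib t1 hG ho (pb := fun y l => p' (y ∘ E) (E.symm l)) (fun z l => by
      obtain ⟨k, rfl⟩ := E.surjective l
      beta_reduce
      rw [E.symm_apply_apply, add_mulVec, one_mulVec]
      refine (congrFun (m3 _) k).trans ((congrFun (hp' _) k).symm.trans ?_)
      exact congrArg (p' · k) (m4 z)) (f := fun y => f (y ∘ E)) (fun y => hf _)
    (a := a - C * (4 * η + 24 * ε * Fintype.card L)) fun κ hκ => by
      have h3 := h (κ - mR M *ᵥ κ) ((m4 κ).trans (funext fun k => hκ _ (by simp)))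
      have h4 := Ex_shear (tri_add hp (κ - mR M *ᵥ κ)) hG m8
        (p' := fun z => (1 + mR M) *ᵥ p (z - M *ᵥ z) + κ) (fun z => by
          have : (1 + M) *ᵥ z - M *ᵥ ((1 + M) *ᵥ z) = z := by
            rw [mulVec_mulVec, mul_add, m5]; simp [add_mulVec]
          rw [this, m7, mulVec_add, m9]) h0 h1 hη (fun v => by
          rw [m7, add_mulVec, one_mulVec, add_sub_cancel_left, mR, m1]
          refine (hs _ fun k => if_pos ⟨k, rfl⟩).trans (mul_le_mul_of_nonneg_left ?_ (sq_nonneg _))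
          rw [qq_split hG.1 ho v, qq_bk]
          refine le_trans (le_of_eq (congrArg _ (funext fun l => ?_)))
            (le_add_of_nonneg_right (qq_nonneg (posDef_bk hG _).posSemidef _))
          by_cases h5 : l ∈ Set.range e <;> simp only [h5, rs, not_true, not_false_iff, if_true,
            if_false, dite_false, dite_true])
        (fun B hB hle => hm B _ hB fun v => by rw [qq_smul_mat]; exact hle v)
        (f := fun z => f (z ∘ e)) (C := C) fun z => by simpa using hf _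
      have h5 : ∀ z, ((1 + M) *ᵥ z) ∘ e = S *ᵥ z := fun z => by
        rw [add_mulVec, one_mulVec]; exact m3 z
      simp only [h5] at h4
      rw [← er_sub] at h4
      have h6 := (abs_le.1 h4).2
      change _ ≤ Er G _ fun z => f (z ∘ e)
      linarith
  have h3 := Ex_equiv E (G := bk G fun l => ¬ l ∉ Set.range e) (G' := G.submatrix e e)
    (p := fun y l => p' (y ∘ E) (E.symm l)) (p' := p') (f := fun y => f (y ∘ E))
    (f' := fun y => f y) (fun _ _ => rfl) (fun z i => by rw [E.symm_apply_apply]) fun _ => rfl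
  rw [Ex_er, Ex_er, Complex.ofReal_inj] at h3
  rwa [h3]

variable {ι V V' L L' : Type} {lv : ι → ℕ} {Q : ι → Pl ι V} {cd : L → ι} {mo : L → Multiset V}
  {K : Multiset V → Prop} {T : Tw ι Unit} {cd' : L' → ι} {mo' : L' → Multiset V'}
  {K' : Multiset V' → Prop}

/-- the labels of a family of monomials -/
def LS (lv : ι → ℕ) (K : Multiset V → Prop) : Type :=
  {x : ι × Multiset V // x.2.card = lv x.1 ∧ K x.2}

instance [Finite ι] [Finite V] : Finite (LS lv K) := by
  classical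
  have := Fintype.ofFinite V
  exact Finite.of_injective (fun l : LS lv K => (⟨l.1.1, ⟨l.1.2, l.2.1⟩⟩ : Σ a, Sym V (lv a)))
    fun l l' h => Subtype.ext (Prod.ext (congrArg Sigma.fst h) (congrArg (fun x => x.2.1) h))

instance [Finite ι] [Finite V] : Fintype (LS lv K) := Fintype.ofFinite _

instance : DecidableEq (LS lv K) := Classical.decEq _

theorem labS (h : ∀ m m', K (m + m') → K m) :
    Lab lv (fun l : LS lv K => l.1.1) (fun l => l.1.2) K :=
  ⟨fun _ _ h1 h2 => Subtype.ext (Prod.ext h1 h2), fun l => l.2.1, fun l => l.2.2,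
    fun a m h1 h2 => ⟨⟨(a, m), h1, h2⟩, rfl, rfl⟩, h⟩

variable [Fintype L] [Fintype L']

theorem Lab.coef (h : Lab lv cd mo K) {u : ι → Alg (Multiset V)}
    (hu : ∀ a, Sup (fun m => m.card = lv a) (u a)) (a : ι) :
    Sup (fun m => ¬ K m) (u a - pt0 cd mo (fun l => (u (cd l)).coeff (mo l)) a) := fun m h1 h2 => by
  refine h1 ?_
  rw [AddMonoidAlgebra.coeff_sub, Finsupp.sub_apply]
  by_cases h3 : m.card = lv a
  · obtain ⟨l, rfl, rfl⟩ := h.sur a m h3 h2
    rw [h.coeff, sub_self]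
  · rw [(hu a).coeff h3, (h.sup _ a).coeff fun h4 => h3 h4.1, sub_self]

theorem Lab.ev_coef (h : Lab lv cd mo K) {u : ι → Alg (Multiset V)}
    (hu : ∀ a, Sup (fun m => m.card = lv a) (u a)) {c : V → ℝ} (hc : ∀ m, ¬ K m → wt c m = 0)
    (a : ι) : ev c cd mo (fun l => (u (cd l)).coeff (mo l)) a = hm c (u a) := by
  have := hm_zero hc (h.coef hu a)
  rw [map_sub, sub_eq_zero] at this
  exact this.symm

theorem Lab.sup_eval (h : Lab lv cd mo K) {q : ι → MvPolynomial ι ℝ} (hQ : Fm lv q Q) (x : L → ℝ)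
    (a : ι) : Sup (fun m => m.card = lv a) (MvPolynomial.eval (pt0 cd mo x) (Q a)) :=
  (hQ.hom a).eval fun j => Sup.mono (h.sup x j) fun _ h => h.1

theorem Lab.sup' (h : Lab lv cd mo K) (x : L → ℝ) (a : ι) :
    Sup (fun m => m.card = lv a) (pt0 cd mo x a) := Sup.mono (h.sup x a) fun _ h => h.1

/-- the norm of a map given by a matrix on the monomials -/
theorem qq_Gm_map [Fintype ι] [DecidableEq ι] (hT : T.Ok) (hL : Lab lv cd mo K)
    (hL' : Lab lv cd' mo' K') {ω : Multiset V → ℝ} {ω' : Multiset V' → ℝ} (h0 : ∀ l, 0 ≤ ω (mo l))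
    (h0' : ∀ l, 0 ≤ ω' (mo' l)) {n : Multiset V' → Multiset V → ℝ} {b ρ : ℝ} (hρ : 0 ≤ ρ)
    (hb : ∀ l' l, |n (mo' l') (mo l)| ≤ b)
    (hn : ∀ l' l, n (mo' l') (mo l) ≠ 0 → (mo l).card = (mo' l').card ∧ ω' (mo' l') ≤ ρ * ω (mo l))
    {x : L → ℝ} {y : L' → ℝ}
    (h : ∀ l', y l' = ∑ l, if cd l = cd' l' then n (mo' l') (mo l) * x l else 0) :
    qq (Gm T cd' mo' ω') y ≤
      ρ * b ^ 2 * (Fintype.card L * Fintype.card L') * qq (Gm T cd mo ω) x := by
  classical
  refine qq_Gw_map (C := fcf 0 cd mo 0) (C' := fcf 0 cd' mo' 0) hT h0 h0' hρ hb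
    (fun l' l h => (hn l' l h).2) fun l' => funext fun a => ?_
  have h1 : (∑ m ∈ univ.image mo, n (mo' l') m • vc (fcf 0 cd mo 0) x m) a =
      ∑ l, if cd l = a then n (mo' l') (mo l) * x l else 0 := by
    simp only [Finset.sum_apply, Pi.smul_apply, vc, Cf.coeff_pt, smul_eq_mul, mul_sum]
    rw [sum_comm]
    refine sum_congr rfl fun l _ => ?_
    rw [sum_eq_single (mo l) (fun m _ hm => by rw [if_neg fun h => hm h.2.symm, mul_zero])
      fun h => (h (mem_image_of_mem _ (mem_univ l))).elim]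
    change _ * (if cd l = a ∧ mo l = mo l then _ else _) = _
    simp
  refine Eq.trans ?_ h1.symm
  by_cases h2 : (mo' l').card = lv a
  · obtain ⟨k, rfl, h3⟩ := hL'.sur a _ h2 (hL'.mem l')
    rw [← h3, ← h]
    exact (congrArg (fun m => (pt0 cd' mo' y (cd' k)).coeff m) h3.symm).trans (hL'.coeff y k)
  · refine ((hL'.sup' y a).coeff h2).trans (sum_eq_zero fun l _ => ?_).symm
    split_ifs with h3
    · by_contra h4
      exact h2 (by rw [← (hn _ _ (left_ne_zero_of_mul h4)).1, hL.deg, h3])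
    · rfl

end

end Vale.Agent.P057ST
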