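import Vale.Agent.P057ST.Map

/-! Linear substitutions in the algebra of a free commutative monoid. -/

set_option linter.all false

open Matrix Finset
open Vale.Agent.P267.H775 Vale.Agent.P057G Vale.Agent.P057PC

namespace Vale.Agent.P057ST

noncomputable section

variable {V V' V'' : Type} [Fintype V'] [Fintype V'']

/-- a linear form in the generators -/
def lin (b : V' → ℝ) : Alg (Multiset V') := ∑ v, AddMonoidAlgebra.single {v} (b v)

/-- the homomorphism with given images of the generators -/
def hm {A : Type*} [CommRing A] [Algebra ℝ A] (g : V → A) : Alg (Multiset V) →ₐ[ℝ] A :=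
  AddMonoidAlgebra.lift ℝ A (Multiset V)
    { toFun m := (m.toAdd.map g).prod
      map_one' := by simp
      map_mul' a b := by simp }

theorem hm_single {A : Type*} [CommRing A] [Algebra ℝ A] (g : V → A) (m : Multiset V) (r : ℝ) :
    hm g (AddMonoidAlgebra.single m r) = r • (m.map g).prod := by
  rw [hm, AddMonoidAlgebra.lift_single]; rfl

theorem hm_ext {A : Type*} [CommRing A] [Algebra ℝ A] {φ ψ : Alg (Multiset V) →ₐ[ℝ] A}
    (h : ∀ v, φ (AddMonoidAlgebra.single {v} 1) = ψ (AddMonoidAlgebra.single {v} 1)) : φ = ψ := by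
  refine AddMonoidAlgebra.algHom_ext (fun m => ?_) (Subsingleton.elim _ _)
  induction m using Multiset.induction_on with
  | empty => exact (map_one φ).trans (map_one ψ).symm
  | cons v m ih =>
    rw [← Multiset.singleton_add, ← mul_one (1 : ℝ), ← AddMonoidAlgebra.single_mul_single,
      map_mul, map_mul, ih, h]

theorem hm_lin {A : Type*} [CommRing A] [Algebra ℝ A] (g : V' → A) (b : V' → ℝ) :
    hm g (lin b) = ∑ v, b v • g v := by
  simp [lin, hm_single]

/-- a linear substitution -/
def sb (B : Matrix V V' ℝ) : Alg (Multiset V) →ₐ[ℝ] Alg (Multiset V') := hm fun v => lin (B v)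

/-- the coefficients of the image of a monomial -/
def cf (B : Matrix V V' ℝ) (m : Multiset V) (m' : Multiset V') : ℝ :=
  (sb B (AddMonoidAlgebra.single m 1)).coeff m'

theorem sb_gen (B : Matrix V V' ℝ) (v : V) : sb B (AddMonoidAlgebra.single {v} 1) = lin (B v) := by
  simp [sb, hm_single]

theorem sb_cons (B : Matrix V V' ℝ) (v : V) (m : Multiset V) :
    sb B (AddMonoidAlgebra.single (v ::ₘ m) 1) = lin (B v) * sb B (AddMonoidAlgebra.single m 1) := by
  simp [sb, hm_single]

theorem hm_sb {A : Type*} [CommRing A] [Algebra ℝ A] (g : V' → A) (B : Matrix V V' ℝ) :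
    (hm g).comp (sb B) = hm fun v => ∑ v', B v v' • g v' :=
  hm_ext fun v => by rw [AlgHom.comp_apply, sb_gen, hm_lin, hm_single]; simp

theorem sb_sb (B : Matrix V V' ℝ) (B' : Matrix V' V'' ℝ) : (sb B').comp (sb B) = sb (B * B') := by
  rw [sb, hm_sb, sb]
  congr 1
  funext v
  simp only [lin, smul_sum, AddMonoidAlgebra.smul_single, smul_eq_mul, Matrix.mul_apply]
  rw [sum_comm]
  exact sum_congr rfl fun w _ => (map_sum (AddMonoidAlgebra.singleAddHom {w}) _ _).symm

theorem lin_single [DecidableEq V'] (v : V') (r : ℝ) :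
    lin (fun w => if v = w then r else 0) = AddMonoidAlgebra.single {v} r := by
  rw [lin, sum_eq_single v (fun w _ h => by simp [h.symm]) (by simp), if_pos rfl]

theorem sb_one [DecidableEq V'] : sb (1 : Matrix V' V' ℝ) = AlgHom.id ℝ _ :=
  hm_ext fun v => by rw [sb_gen]; exact lin_single v 1

theorem coeff_gen_mul [DecidableEq V] (v : V) (r : ℝ) (u : Alg (Multiset V)) (m : Multiset V) :
    (AddMonoidAlgebra.single {v} r * u).coeff m = if v ∈ m then r * u.coeff (m.erase v) else 0 := by
  induction u using AddMonoidAlgebra.induction_linear with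
  | zero => simp
  | add a b ha hb =>
    simp only [mul_add, AddMonoidAlgebra.coeff_add, Finsupp.add_apply, ha, hb]
    split_ifs <;> simp
  | single m' s =>
    rw [AddMonoidAlgebra.single_mul_single, AddMonoidAlgebra.coeff_single,
      AddMonoidAlgebra.coeff_single, Finsupp.single_apply, Finsupp.single_apply,
      Multiset.singleton_add]
    by_cases h : v ::ₘ m' = m
    · subst h; simp
    · rw [if_neg h]
      split_ifs with h1 h2
      · exact (h (by rw [h2, Multiset.cons_erase h1])).elim
      · simp
      · rfl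

theorem cf_zero [DecidableEq V'] (B : Matrix V V' ℝ) (m' : Multiset V') :
    cf B 0 m' = if m' = 0 then 1 else 0 := by
  rw [cf, show AddMonoidAlgebra.single (0 : Multiset V) (1 : ℝ) = 1 from rfl, map_one,
    AddMonoidAlgebra.one_def, AddMonoidAlgebra.coeff_single, Finsupp.single_apply]
  exact if_congr eq_comm rfl rfl

theorem cf_cons [DecidableEq V'] (B : Matrix V V' ℝ) (v : V) (m : Multiset V) (m' : Multiset V') :
    cf B (v ::ₘ m) m' = ∑ w, if w ∈ m' then B v w * cf B m (m'.erase w) else 0 := by
  rw [cf, sb_cons, lin, sum_mul, AddMonoidAlgebra.coeff_sum, Finsupp.finsetSum_apply]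
  exact sum_congr rfl fun w _ => coeff_gen_mul _ _ _ _

theorem sup_lin {P : Multiset V' → Prop} {b : V' → ℝ} (h : ∀ w, b w ≠ 0 → P {w}) :
    Sup P (lin b) := Sup.sum _ fun w _ => by
  by_cases h0 : b w = 0
  · rw [h0, AddMonoidAlgebra.single_zero]; exact Sup.zero P
  · exact Sup.single (h w h0) _

/-- supports of the images of monomials -/
theorem cf_sup (B : Matrix V V' ℝ) {P : Multiset V → Multiset V' → Prop} (h0 : P 0 0)
    (h1 : ∀ v w m m', B v w ≠ 0 → P m m' → P (v ::ₘ m) (w ::ₘ m')) (m : Multiset V) :
    ∀ m', cf B m m' ≠ 0 → P m m' := by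
  induction m using Multiset.induction_on with
  | empty =>
    classical
    intro m' h
    rw [cf_zero] at h
    split_ifs at h with h2
    exacts [h2 ▸ h0, (h rfl).elim]
  | cons v m ih =>
    change Sup _ (sb B _)
    rw [sb_cons]
    refine (sup_lin (P := fun s => ∃ w, B v w ≠ 0 ∧ s = {w}) fun w h => ⟨w, h, rfl⟩).mul ih ?_
    rintro _ m' ⟨w, hw, rfl⟩ h
    exact h1 v w m m' hw h

theorem cf_card (B : Matrix V V' ℝ) {m : Multiset V} {m' : Multiset V'} (h : cf B m m' ≠ 0) :
    m'.card = m.card :=
  cf_sup B (P := fun m m' => m'.card = m.card) rfl (fun _ _ _ _ _ h => by simp [h]) m m' h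

theorem int_sb {B : Matrix V V' ℝ} (h : ∀ v w, ∃ n : ℤ, B v w = n) (m : Multiset V) :
    IntA (sb B (AddMonoidAlgebra.single m 1)) := by
  induction m using Multiset.induction_on with
  | empty =>
    rw [show AddMonoidAlgebra.single (0 : Multiset V) (1 : ℝ) = 1 from rfl, map_one]
    have := IntA.single (0 : Multiset V') 1
    rwa [Int.cast_one] at this
  | cons v m ih =>
    rw [sb_cons]
    refine IntA.mul (IntA.sum _ fun w _ => ?_) ih
    obtain ⟨n, hn⟩ := h v w
    rw [hn]; exact IntA.single _ _

theorem abs_cf {B : Matrix V V' ℝ} {β : ℝ} (h : ∀ v, ∑ w, |B v w| ≤ β) (m : Multiset V) :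
    ∀ m', |cf B m m'| ≤ β ^ m.card := by
  classical
  induction m using Multiset.induction_on with
  | empty => intro m'; rw [cf_zero]; split_ifs <;> simp
  | cons v m ih =>
    intro m'
    have h0 : 0 ≤ β ^ m.card := (abs_nonneg _).trans (ih 0)
    rw [cf_cons, Multiset.card_cons, pow_succ']
    refine (abs_sum_le_sum_abs _ _).trans (le_trans ?_ (mul_le_mul_of_nonneg_right (h v) h0))
    rw [sum_mul]
    refine sum_le_sum fun w _ => ?_
    split_ifs
    · rw [abs_mul]; exact mul_le_mul_of_nonneg_left (ih _) (abs_nonneg _)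
    · rw [abs_zero]; positivity

/-- the weight of a monomial -/
def wt (μ : V → ℝ) (m : Multiset V) : ℝ := (m.map μ).prod

theorem wt_zero (μ : V → ℝ) : wt μ 0 = 1 := by simp [wt]

theorem wt_cons (μ : V → ℝ) (v : V) (m : Multiset V) : wt μ (v ::ₘ m) = μ v * wt μ m := by simp [wt]

theorem wt_add (μ : V → ℝ) (m m' : Multiset V) : wt μ (m + m') = wt μ m * wt μ m' := by simp [wt]

theorem wt_map (μ : V → ℝ) (j : V' → V) (m : Multiset V') : wt μ (m.map j) = wt (μ ∘ j) m := by
  simp [wt]

theorem wt_rep (μ : V → ℝ) (n : ℕ) (v : V) : wt μ (Multiset.replicate n v) = μ v ^ n := by simp [wt]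

theorem wt_pos {μ : V → ℝ} (h : ∀ v, 0 < μ v) (m : Multiset V) : 0 < wt μ m :=
  Multiset.prod_pos fun x hx => by obtain ⟨v, -, rfl⟩ := Multiset.mem_map.1 hx; exact h v

theorem wt_le {μ : V → ℝ} {a : ℝ} (h0 : ∀ v, 0 < μ v) (h : ∀ v, μ v ≤ a) (m : Multiset V) :
    wt μ m ≤ a ^ m.card := by
  induction m using Multiset.induction_on with
  | empty => simp [wt]
  | cons v m ih =>
    rw [wt_cons, Multiset.card_cons, pow_succ']
    exact mul_le_mul (h v) ih (wt_pos h0 m).le ((h0 v).le.trans (h v))

theorem hm_real (c : V → ℝ) (m : Multiset V) (r : ℝ) :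
    hm c (AddMonoidAlgebra.single m r) = r * wt c m := hm_single c m r

/-- a substitution that adds generators of smaller weight -/
theorem sup_shear [DecidableEq V'] {B : Matrix V' V' ℝ} {μ : V' → ℝ} {ρ : ℝ} (h0 : ∀ v, 0 < μ v)
    (hρ : ρ ≤ 1) (h1 : ∀ v, B v v = 1) (h2 : ∀ v w, v ≠ w → B v w ≠ 0 → μ w ≤ ρ * μ v)
    (m : Multiset V') : Sup (fun m' => wt μ m' ≤ ρ * wt μ m)
      (sb B (AddMonoidAlgebra.single m 1) - AddMonoidAlgebra.single m 1) := by
  induction m using Multiset.induction_on with
  | empty =>
    rw [show AddMonoidAlgebra.single (0 : Multiset V') (1 : ℝ) = 1 from rfl, map_one, sub_self]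
    exact Sup.zero _
  | cons v m ih =>
    have e1 : lin (B v) = lin (fun w => if v = w then 0 else B v w) +
        AddMonoidAlgebra.single {v} 1 := by
      rw [← lin_single, lin, lin, lin, ← sum_add_distrib]
      refine sum_congr rfl fun w _ => ?_
      split_ifs with h
      · simp [← h, h1]
      · simp
    have s1 : Sup (fun m' => wt μ m' ≤ wt μ m) (sb B (AddMonoidAlgebra.single m 1)) :=
      cf_sup B (P := fun m m' => wt μ m' ≤ wt μ m) le_rfl (fun v w m m' hw h => by
        rw [wt_cons, wt_cons]
        refine mul_le_mul ?_ h (wt_pos h0 _).le (h0 v).le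
        by_cases hv : v = w
        · rw [hv]
        · exact (h2 v w hv hw).trans (mul_le_of_le_one_left (h0 v).le hρ)) m
    have s2 := (sup_lin (b := fun w => if v = w then 0 else B v w)
      (P := fun s => wt μ s ≤ ρ * μ v) fun w hw => by
        by_cases hv : v = w
        · simp [hv] at hw
        · simpa [wt] using h2 v w hv (by simpa [hv] using hw)).mul s1
      (Q := fun m' => wt μ m' ≤ ρ * wt μ (v ::ₘ m)) fun a b ha hb => by
        rw [wt_add, wt_cons, ← mul_assoc]
        exact mul_le_mul ha hb (wt_pos h0 _).le ((wt_pos h0 _).le.trans ha)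
    have s3 := (Sup.single (P := fun s => s = {v}) rfl 1).mul ih
      (Q := fun m' => wt μ m' ≤ ρ * wt μ (v ::ₘ m)) fun a b ha hb => by
        rw [ha, Multiset.singleton_add, wt_cons, wt_cons, mul_left_comm]
        exact mul_le_mul_of_nonneg_left hb (h0 v).le
    convert s2.add s3 using 1
    rw [sb_cons, e1, ← Multiset.singleton_add, ← mul_one (1 : ℝ),
      ← AddMonoidAlgebra.single_mul_single, mul_one]
    ring

theorem cf_rep (B : Matrix V V' ℝ) (w : V') (m : Multiset V) :
    cf B m (Multiset.replicate m.card w) = wt (fun v => B v w) m := by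
  classical
  induction m using Multiset.induction_on with
  | empty => simp [cf_zero, wt]
  | cons v m ih =>
    rw [cf_cons, wt_cons, sum_eq_single w (fun b _ hb => if_neg fun h =>
      hb (Multiset.eq_of_mem_replicate h)) (by simp), Multiset.card_cons, Multiset.replicate_succ,
      if_pos (Multiset.mem_cons_self _ _), Multiset.erase_cons_head, ih]

/-- the selection of some generators -/
def sel [DecidableEq V] (j : V' → V) : Matrix V V' ℝ := Matrix.of fun v w => if v = j w then 1 else 0

theorem cf_sel [DecidableEq V] {j : V' → V} (hj : Function.Injective j) (m : Multiset V) :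
    ∀ m', cf (sel j) m m' = if m = m'.map j then 1 else 0 := by
  classical
  induction m using Multiset.induction_on with
  | empty => intro m'; rw [cf_zero]; exact if_congr (by simp [eq_comm]) rfl rfl
  | cons v m ih =>
    intro m'
    rw [cf_cons]
    by_cases h : v ::ₘ m = m'.map j
    · obtain ⟨w, hw, rfl⟩ := Multiset.mem_map.1 (h ▸ Multiset.mem_cons_self v m)
      rw [if_pos h, sum_eq_single w (fun b _ hb => by simp [sel, hj.eq_iff, hb.symm]) (by simp),
        if_pos hw, ih, if_pos]
      · simp [sel]
      · rw [← Multiset.cons_erase hw, Multiset.map_cons] at h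
        exact (Multiset.cons_inj_right _).1 h
    · rw [if_neg h]
      refine sum_eq_zero fun w _ => ?_
      split_ifs with hw
      · rw [ih]
        by_cases h1 : v = j w
        · rw [if_neg, mul_zero]
          intro h2
          exact h (by rw [h1, h2, ← Multiset.map_cons, Multiset.cons_erase hw])
        · simp [sel, h1]
      · rfl

end

end Vale.Agent.P057ST
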