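import Vale.Agent.P057ST.Ful

/-! The two outputs. -/

set_option linter.all false

open Matrix Finset Function
open Vale.Agent.P267.H775 Vale.Agent.P057G Vale.Agent.P057PC Vale.Agent.P057TP

namespace Vale.Agent.P057ST

noncomputable section

/-- the narrowed and dilated tower -/
abbrev nw (T : Tow) (lam : ℝ) (D : ℤ) : Tow := { T with G := lam • T.G, el := D • T.el }

variable {T : Tow} {s : ℕ} {N lam : ℝ} {D : ℤ}

theorem ok_nw (hT : T.Ok s N) (hD : D ≠ 0) (h1 : (D : ℝ) ^ 2 ≤ lam) (h2 : 1 ≤ lam) :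
    (nw T lam D).Ok s N := by
  have q := qq_nonneg hT.pd.posSemidef
  refine ⟨hT.pos, hT.le, hT.hom, hT.low, hT.pd.smul (by linarith),
    fun a b h => by simp [hT.blk a b h], fun a h => by simp [hT.el1 a h], fun z h3 h4 => ?_,
    fun x => ?_⟩
  · have := hT.sep z h3 ((smul_eq_zero.1 ((smul_dotProduct D T.el z).symm.trans h4)).resolve_left hD)
    rw [qq_smul_mat]; nlinarith
  · have h3 : toR (D • T.el) = (D : ℝ) • toR T.el := funext fun a => by simp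
    rw [qq_smul_mat, h3, smul_dotProduct, smul_eq_mul, mul_pow, mul_left_comm]
    exact mul_le_mul h1 (hT.elN x) (sq_nonneg _) (by linarith)

theorem grow_nw (hT : T.Ok s N) (h2 : 1 ≤ lam) {Q : ℕ → ℝ} (h0 : ∀ e, 0 ≤ Q e)
    (h : ∀ e, e ≤ s → Real.log lam ≤ Q (e + 1)) : T.Grow N (nw T lam D) Q := fun e => by
  refine ⟨le_add_of_nonneg_right (h0 _), ?_⟩
  have h1 : (nw T lam D).yy N e = T.yy N e + T.dm e * Real.log lam / 2 := by
    have := (posDef_bk hT.pd fun a => T.lv a = e).det_pos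
    simp only [Tow.yy, Tow.dm]
    rw [show bk (lam • T.G) (fun a => T.lv a = e) = lam • bk T.G _ from rfl, det_smul,
      Real.log_mul (by positivity) this.ne', Real.log_pow, Fintype.card_subtype]
    ring
  have h3 : 0 ≤ T.dm e := Nat.cast_nonneg _
  have h4 := Real.log_nonneg h2
  rw [h1]
  by_cases he : e ≤ s
  · nlinarith [h e he]
  · have : T.dm e = 0 := by
      rw [Tow.dm, filter_eq_empty_iff.2 fun a _ (h5 : T.lv a = e) => he (h5 ▸ hT.le a)]; simp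
    rw [this]; linarith [h0 (e + 1)]

theorem er_const {L : Type} [Fintype L] [DecidableEq L] {lv : L → ℕ} {p : (L → ℤ) → L → ℝ}
    (hp : Tri lv p) {G : Matrix L L ℝ} (hG : G.PosDef) {f : (L → ℤ) → ℝ} {C : ℝ}
    (hf : ∀ z, |f z| ≤ C) (t : ℝ) : Er G p (fun z => f z - t) = Er G p f - t * ms G p := by
  simp only [Er, mul_sub, ms]
  rw [(summable_er hp hG hf).tsum_sub ((summable_ng hp hG).mul_right t), tsum_mul_right, mul_comm t]

theorem selT {V V' : Type} [Fintype V] [DecidableEq V] [DecidableEq V'] {j : V' → V}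
    (hj : Injective j) : (sel j)ᵀ * sel j = (1 : Matrix V' V' ℝ) := by
  ext v v'
  rw [Matrix.mul_apply]
  simp [sel, one_apply, hj.eq_iff, eq_comm]

theorem ev_int {ι V L : Type} [Fintype L] (cd : L → ι) (mo : L → Multiset V) {c : V → ℝ}
    (h : ∀ v, ∃ n : ℤ, c v = n) (z : L → ℤ) : ∃ y : ι → ℤ, toR y = ev c cd mo (toR z) := by
  classical
  choose c' hc using h
  refine ⟨fun a => ∑ l, if cd l = a then z l * wz c' (mo l) else 0, funext fun a => ?_⟩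
  simp [ev_eq, funext hc, wz_cast]

variable {C W S L : Type} [Fintype W] [DecidableEq W] [Fintype S] [DecidableEq S] [Fintype C]
  [DecidableEq C] {cl : W → C} [Fintype L] [DecidableEq L] {n : ℕ} {Λ η : ℝ}

/-- the numerical conditions of the last step -/
structure Num (s : ℕ) (Λ η lam β ρ ε κ0 n0 : ℝ) : Prop where
  l1 : 1 ≤ lam
  b1 : 1 ≤ β
  b2 : κ0 ^ 2 ≤ ε ^ 2 * β
  r0 : 0 < ρ
  r1 : ρ ≤ 1
  hΛ : 3 * (lam * β * ρ⁻¹ ^ s) ≤ Λ
  e0 : 0 ≤ ε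
  e1 : ε ≤ 1 / 6
  he : β * (ρ * (2 * (1 + n0) ^ s * κ0) ^ 2) ≤ ε ^ 2

variable {β ρ ε κ0 n0 : ℝ} {f : ℤ → ℝ} {g : (T.ι → ℝ) → ℝ} {off : ℤ} {θ κ : ℝ}

theorem Ctx.st (hT : T.Ok s N) (h : Ctx T.tw s n Λ η) (hn : Num s Λ η lam β ρ ε κ0 n0)
    (hD : D ≠ 0) (h1 : (D : ℝ) ^ 2 ≤ lam) {cd : L → T.ι} {mo : L → Multiset (W ⊕ S)}
    {Q : T.ι → Pl T.ι (W ⊕ S)} (hQ : Fm T.lv T.q Q) (hL : Lab T.lv cd mo (KT cl))
    (n1 : (Fintype.card ((W ⊕ S) ⊕ C) : ℝ) ≤ n0) (n2 : n0 + 1 ≤ n)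
    (hκ : Fintype.card T.ι * (n0 + 1) ^ s ≤ κ0) {ω : Multiset (W ⊕ S) → ℝ}
    (w0 : ∀ l, 0 < ω (mo l)) (w1 : ∀ l, ω (mo l) < lam) (hf : Unit01 f)
    (g0 : ∀ x, 0 ≤ g x ∧ g x ≤ 1) (hg : ∀ y, g (toR y) = f (off + T.el ⬝ᵥ y))
    {R : Finset W → S → T.ι → ℤ} (θ0 : 0 ≤ θ) (k0 : 0 ≤ κ)
    (he : 6 * (4 * η + 24 * ε * κ0 + n0 * (3 * √η)) + 2 * η ≤ κ)
    (ha : θ ^ ((cells cl).card * Fintype.card S) + 4 * κ ≤
      Er (Gm T.tw cd mo ω) (p0 cd mo Q) fun z => ∏ c ∈ cells cl, ∏ t,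
        g (toR (R c t) + fun a => D ^ T.lv a * ev (idx c (some t)) cd mo (toR z) a)) :
    ∃ Z : Sys (nw T lam D) W S, Z.Ok ∧ Z.St cl (s + 1) (Z.Ex0 cl (s + 1) f θ) 2 κ κ := by
  have hT' := ok_nw hT hD h1 hn.l1
  have u0 := pow_nonneg θ0 ((cells cl).card * Fintype.card S)
  have n3 : Fintype.card ((W ⊕ S) ⊕ C) + 1 ≤ n := by exact_mod_cast (add_le_add n1 le_rfl).trans n2
  have r1 : 1 ≤ β * ρ⁻¹ ^ s :=
    one_le_mul_of_one_le_of_one_le hn.b1 (one_le_pow₀ ((one_le_inv₀ hn.r0).2 hn.r1))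
  have m1 := (abs_le.1 (h.ms' hQ hL (by rw [Fintype.card_sum] at n3; omega) w0 fun l => by
    nlinarith [w1 l, hn.hΛ, hn.l1])).2
  have f1 : ∀ z, |∏ c ∈ cells cl, ∏ t,
      g (toR (R c t) + fun a => D ^ T.lv a * ev (idx c (some t)) cd mo (toR z) a)| ≤ 1 := fun z => by
    have := abs_prod_le (cells cl) fun c => abs_prod_le univ fun t =>
      g0 (toR (R c t) + fun a => D ^ T.lv a * ev (idx c (some t)) cd mo (toR z) a)
    rw [abs_of_nonneg this.1]; simpa using this.2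
  have m2 := er_le (h.tri hQ hL) (h.pd hQ hL w0) f1
  have e1 := h.e1
  have e0 := h.lf.nonneg
  have b0 := hn.b1
  have r0 := hn.r0
  have e2 := hn.e0
  have e3 : 0 ≤ n0 := le_trans (Nat.cast_nonneg _) n1
  have e4 : 0 ≤ κ0 := le_trans (by positivity) hκ
  obtain ⟨Z, z1, z2⟩ := Ctx.out (T := nw T lam D) (G := T.G) hT' h rfl hQ hL n3 w0 w1
    (by linarith [hn.l1]) hn.b1 hn.b2 hn.r0 hn.r1 hn.hΛ (le_trans (by gcongr) hκ) hn.e0 hn.e1
    (le_trans (by gcongr) hn.he) hf (g := fun c t x => g (toR (R c t) + fun a => D ^ T.lv a * x a))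
    (off := fun c t => off + T.el ⬝ᵥ R c t) (fun c t y => by
      rw [add_assoc, show (D • T.el) ⬝ᵥ y = T.el ⬝ᵥ fun a => D ^ T.lv a * y a from
        sum_congr rfl fun a _ => by
          by_cases h2 : T.lv a = 1
          · simp [h2, mul_left_comm, mul_assoc]
          · simp [hT.el1 a h2], ← dotProduct_add, ← hg]
      exact congrArg g (funext fun a => by simp))
    (t0 := θ ^ ((cells cl).card * Fintype.card S) + κ) (B := 2) (by linarith) (by linarith)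
    one_le_two (le_of_eq (er_const (h.tri hQ hL) (h.pd hQ hL w0) f1 _).symm)
  refine ⟨Z, z1, fun z => ?_, ?_⟩
  · have := PF_top hT' Z hf (cl := cl) z
    exact abs_le.2 ⟨by unfold Sys.Ex0; linarith, by unfold Sys.Ex0; linarith⟩
  · simp only [Sys.Ex0, sub_sub]
    refine le_trans ?_ z2
    have := mul_le_mul_of_nonneg_right n1 (show 0 ≤ 3 * √η by positivity)
    nlinarith

theorem Ctx.pt (hT : T.Ok s N) (h : Ctx T.tw s n Λ η) (hn : Num s Λ η lam β ρ ε κ0 n0)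
    (hD : D ≠ 0) (h1 : (D : ℝ) ^ 2 ≤ lam) {Q : T.ι → Pl T.ι Unit} (hQ : Fm T.lv T.q Q)
    (n1 : 1 ≤ n0) (n2 : n0 + 1 ≤ n) (hκ : Fintype.card T.ι * (n0 + 1) ^ s ≤ κ0) {a : ℝ}
    (w0 : 1 ≤ a) (w1 : a ^ s < lam) (hf : Unit01 f) (g0 : ∀ x, 0 ≤ g x ∧ g x ≤ 1)
    (hg : ∀ y, g (toR y) = f (off + T.el ⬝ᵥ y)) {o : T.ι → ℤ} (θ0 : 0 ≤ θ) (k0 : 0 ≤ κ)
    (he : 6 * (4 * η + 24 * ε * κ0 + n0 * (3 * √η)) + 2 * η ≤ κ)
    (ha : θ + 4 * κ ≤ Er (Gm T.tw id (mo1 T.lv) (wt fun _ => a)) (p0 id (mo1 T.lv) Q) fun y =>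
      g (toR o + ev (fun _ => D) id (mo1 T.lv) (toR y))) :
    ∃ Z : Sys (nw T lam D) (Fin 0) Unit, Z.Ok ∧ Z.St id (s + 1) (Z.Ex0 id (s + 1) f θ) 2 κ κ := by
  have v1 : ∀ v : Fin 0 ⊕ Unit, v = Sum.inr () := by rintro (v | v); exacts [v.elim0, rfl]
  have hL : Lab T.lv id (fun a => (mo1 T.lv a).map (Sum.inr : _ → Fin 0 ⊕ Unit))
      (KT (id : Fin 0 → Fin 0)) := ⟨fun _ _ h _ => h, fun a => by simp [mo1],
    fun _ v _ v' _ _ => (v1 v).trans (v1 v').symm, fun a m h _ => ⟨a, rfl, by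
      rw [mo1, Multiset.map_replicate, Multiset.eq_replicate.2 ⟨h, fun v _ => v1 v⟩]⟩, kt_dc⟩
  have e : cells (id : Fin 0 → Fin 0) = {∅} := eq_singleton_iff_unique_mem.2
    ⟨P057GH.mem_cells.2 ⟨by simp, isEmptyElim⟩, fun _ _ => Subsingleton.elim _ _⟩
  refine h.st hT hn hD h1 (hQ.mp (grd_sb (sel Sum.inr)ᵀ)) hL (by simpa using n1) n2 hκ
    (ω := wt fun _ => a) (fun l => wt_pos (fun _ => by linarith) _) (fun l => by
      rw [wt_const, hL.deg]; exact (pow_le_pow_right₀ w0 (hT.le _)).trans_lt w1) hf g0 hg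
    (R := fun _ _ => o) θ0 k0 he (le_trans (by simp [e]) (ha.trans (le_of_eq ?_)))
  congr 1
  · ext a b
    simp only [Gm_apply, wt_const, Multiset.card_map,
      (Multiset.map_injective Sum.inr_injective).eq_iff]
  · funext z a
    have := p0_sel (Q := mp (sb (sel Sum.inr)ᵀ) Q) Sum.inr_injective hL lab1
      (fun m _ v _ v' _ _ => (v1 v).trans (v1 v').symm) (e := id) (fun _ => rfl) (fun _ => rfl)
      (toR z) a
    rwa [mp_mp, sb_sb, selT Sum.inr_injective, sb_one, mp_id] at this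
  · funext y
    rw [e, prod_singleton, Fintype.prod_unique]
    congr 2
    funext a
    simp [ev1, ev_eq, wt_map, Function.comp_def, idx, wt_one, wt_const, mo1, mul_comm, wt_rep]

/-- passage to a coset -/
theorem Ctx.dil (hT : T.Ok s N) (h : Ctx T.tw s n Λ η) (hn : Num s Λ η lam β ρ ε κ0 n0)
    (hD : D ≠ 0) (h1 : (D : ℝ) ^ 2 ≤ lam) {cd : L → T.ι} {mo : L → Multiset (W ⊕ S)}
    {Q : T.ι → Pl T.ι (W ⊕ S)} (hQ : Fm T.lv T.q Q) (hL : Lab T.lv cd mo (KT cl))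
    (n1 : (Fintype.card ((W ⊕ S) ⊕ C) : ℝ) ≤ n0) (n2 : n0 + 1 ≤ n)
    (hκ : Fintype.card T.ι * (n0 + 1) ^ s ≤ κ0) {μ : W ⊕ S → ℝ} {c d : W ⊕ S → ℤ} {a : ℝ}
    (hd : ∀ v, c v * d v = D) (w0 : ∀ v, 0 < μ v) (a1 : 1 ≤ a) (w1 : ∀ v, d v ^ 2 * μ v ≤ a)
    (w2 : a ^ s < lam) (hf : Unit01 f) (g0 : ∀ x, 0 ≤ g x ∧ g x ≤ 1)
    (hg : ∀ y, g (toR y) = f (off + T.el ⬝ᵥ y)) {o : T.ι → ℤ} (θ0 : 0 ≤ θ) (k0 : 0 ≤ κ)
    (he : 6 * (4 * η + 24 * ε * κ0 + n0 * (3 * √η)) + 2 * η ≤ κ)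
    (ha : θ ^ ((cells cl).card * Fintype.card S) + 4 * κ ≤
      Er (Gm T.tw cd mo (wt μ)) (p0 cd mo Q) fun z => ∏ t ∈ cells cl, ∏ u,
        g (toR o + ev (fun v => idx t (some u) v * c v) cd mo (toR z))) :
    ∃ Z : Sys (nw T lam D) W S, Z.Ok ∧ Z.St cl (s + 1) (Z.Ex0 cl (s + 1) f θ) 2 κ κ := by
  have d0 : ∀ v, d v ≠ 0 := fun v h => hD (by rw [← hd v, h, mul_zero])
  obtain ⟨r, hr⟩ := exists_cos (h.tri hQ hL) (h.pd hQ hL fun l => wt_pos w0 _)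
    (d := fun l => wz d (mo l)) (fun l => wz_ne d0 _) (C := 1) (f := fun z => ∏ t ∈ cells cl, ∏ u,
      g (toR o + ev (fun v => idx t (some u) v * c v) cd mo (toR z))) fun z => by
    have := abs_prod_le (cells cl) fun t => abs_prod_le univ fun u =>
      g0 (toR o + ev (fun v => idx t (some u) v * c v) cd mo (toR z))
    rw [abs_of_nonneg this.1]; simpa using this.2
  rw [dil_Gm, hL.pc d0] at hr
  choose R hR using fun t u => ev_int cd mo (c := fun v => idx t (some u) v * c v) (fun v => by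
    rcases v with v | v <;> simp only [idx, Sum.elim_inl, Sum.elim_inr] <;> split_ifs
    exacts [⟨_, one_mul _⟩, ⟨0, by simp⟩, ⟨_, one_mul _⟩, ⟨0, by simp⟩]) r
  have h2 : ∀ m, (wz d m : ℝ) ^ 2 * wt μ m = wt (fun v => d v ^ 2 * μ v) m := fun m => by
    simp only [wz_cast, sq, wt_mul]
  have h3 : ∀ v, 0 < (d v : ℝ) ^ 2 * μ v := fun v => by have := d0 v; have := w0 v; positivity
  refine h.st hT hn hD h1 ((hQ.sft hT.pos (hL.sup' (toR r)) (hL.sup' (toR r))).mp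
    (grd_sb (diagonal fun v => (d v : ℝ)⁻¹))) hL n1 n2 hκ
    (ω := fun m => (wz d m : ℝ) ^ 2 * wt μ m) (fun l => (wt_pos h3 _).trans_eq (h2 _).symm) (fun l => (h2 _).trans_lt ((wt_le h3 w1 _).trans_lt
      ((pow_le_pow_right₀ a1 ((hL.deg l).trans_le (hT.le _))).trans_lt w2))) hf g0 hg
    (R := fun t u => o + R t u) θ0 k0 he (ha.trans (hr.trans (le_of_eq ?_)))
  congr 1
  funext z
  refine prod_congr rfl fun t _ => prod_congr rfl fun u _ => congrArg g ?_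
  rw [show toR (r + (fun l => wz d (mo l)) * z) = toR r + fun l => wt (fun v => d v) (mo l) * toR z l
    from funext fun l => by simp [wz_cast], ev_add, ev_dil, ← hR]
  funext a
  simp only [mul_assoc, ← Int.cast_mul, hd, Pi.add_apply, ev_const hL, toR_apply, Int.cast_add,
    add_assoc]

end

end Vale.Agent.P057ST
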