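import Vale.Agent.P057ST.Cor
import Vale.Agent.P057TP.Plan

/-! The first step of the density increment. -/

set_option linter.all false

open Matrix Finset Function
open Vale.Agent.P267.H775 Vale.Agent.P057G Vale.Agent.P057PC Vale.Agent.P057TP

namespace Vale.Agent.P057ST

noncomputable section

theorem card_tow {T : Tow} {s : ℕ} {N x : ℝ} (hT : T.Ok s N) (h : ∀ e, T.dm e ≤ x) :
    (Fintype.card T.ι : ℝ) ≤ (s + 1) * x := by
  rw [← card_univ, card_eq_sum_card_fiberwise (f := T.lv) (t := range (s + 1))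
    fun a _ => mem_range.2 (Nat.lt_succ_of_le (hT.le a))]
  push_cast
  exact (sum_le_card_nsmul (range (s + 1)) T.dm x fun e _ => h e).trans (by simp)

theorem cs_num {s q c a cι ch : ℕ} {X D γ ηh θ : ℝ} (ha : a = ch * (s + 1) + 2) (c1 : a + 1 ≤ c)
    (c2 : ch + 2 ≤ c) (x1 : ((ch + 3) * s + s + 3 : ℕ) ≤ X) (x2 : 109 * s + 1000 ≤ X) (x3 : D ≤ X)
    (x4 : 1 / (γ / 11) ≤ X) (q2 : 2 ≤ q) (hq : q ≤ X ^ ch) (hι : cι ≤ (s + 1) * Real.exp X)
    (d0 : 1 ≤ D) (γ0 : 0 < γ) (g2 : 16 * (s + 2) * γ ≤ ηh) (g4 : ηh ≤ 1)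
    (hθ : Real.exp (-X) ≤ θ) : Cs s q ((s + 2) * (q + 1)) ⌊X ^ c⌋₊ cι (Real.exp (X ^ a))
      (Real.exp (-X ^ a)) (Real.exp (-X ^ c)) (Real.exp (X ^ c)) D (Real.exp X)
      (Real.exp (-X ^ ch)) γ ηh θ := by
  have s0 : (0 : ℝ) ≤ s := s.cast_nonneg
  have X1 : 1 ≤ X := by linarith
  have p1 : ∀ i j, i ≤ j → X ^ i ≤ X ^ j := fun i j h => pow_le_pow_right₀ X1 h
  have p2 : X ^ a * X ≤ X ^ c := by rw [← pow_succ]; exact p1 _ _ c1
  have p3 : X ≤ X ^ a := le_self_pow₀ X1 (by omega)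
  have e1 : X ≤ Real.exp X := by linarith [Real.add_one_le_exp X]
  have e2 : ∀ j : ℕ, j ≤ (ch + 3) * s + s + 3 → Real.exp X ^ j ≤ Real.exp (X ^ a) := fun j h => by
    rw [← Real.exp_nat_mul]
    refine Real.exp_le_exp.2 (le_trans ?_ (p1 2 a (by omega)))
    have : (j : ℝ) ≤ X := le_trans (by exact_mod_cast h) x1
    nlinarith
  have e3 : X ≤ Real.exp (X ^ a) := e1.trans (Real.exp_le_exp.2 p3)
  have n1 : (((s + 2) * (q + 1) : ℕ) : ℝ) + 1 ≤ X ^ (ch + 2) := by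
    have h1 := one_le_pow₀ (n := ch) X1
    have h2 : (s + 2 : ℝ) * (q + 1) ≤ (X / 3) * (2 * X ^ ch) := by gcongr <;> linarith
    push_cast
    rw [pow_add]
    nlinarith [mul_le_mul_of_nonneg_left h1 (show 0 ≤ X by linarith)]
  generalize hn0 : (s + 2) * (q + 1) = n0 at n1
  have n2 : (0 : ℝ) ≤ n0 := n0.cast_nonneg
  have n3 : (1 + n0 * D) ^ s ≤ Real.exp X ^ ((ch + 3) * s) := by
    rw [pow_mul]
    refine pow_le_pow_left₀ (by positivity) (le_trans ?_ (pow_le_pow_left₀ (by linarith) e1 _)) _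
    rw [pow_succ]
    nlinarith [mul_le_mul n1 x3 (by linarith) (by linarith)]
  have n4 : (n0 + 1 : ℝ) ^ s ≤ Real.exp X ^ ((ch + 3) * s) :=
    le_trans (pow_le_pow_left₀ (by positivity) (by nlinarith) _) n3
  have θ0 := (Real.exp_pos _).trans_le hθ
  refine ⟨⟨by rw [← Real.exp_add]; simp, by linarith, (Real.exp_pos _).le, ?_⟩, q2, hn0.le,
    Nat.le_floor (by push_cast; exact n1.trans (p1 _ _ c2)), ?_, n4.trans (e2 _ (by omega)), ?_, d0,
    n3.trans (e2 _ (by omega)), x3.trans e3, by linarith, e2 _ (by omega),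
    Real.exp_le_exp.2 (neg_le_neg (p1 _ _ (by rw [ha]; nlinarith))), g2, ?_, g4, θ0, ?_, ?_, ?_⟩
  · rw [← pow_mul, ← Real.exp_nat_mul]
    exact Real.exp_le_exp.2 (by push_cast; nlinarith)
  · have := (p1 (ch + 2) a (by rw [ha]; nlinarith)).trans (le_trans (by linarith)
      (Real.add_one_le_exp (X ^ a)))
    linarith
  · calc _ ≤ (Real.exp X * Real.exp X) * Real.exp X ^ ((ch + 3) * s) :=
          mul_le_mul (hι.trans (by gcongr; linarith)) n4 (by positivity) (by positivity)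
      _ = Real.exp X ^ ((ch + 3) * s + 2) := by ring
      _ ≤ _ := e2 _ (by omega)
  · have := P057GH.exp_small (show 0 < γ / 11 by positivity) (x4.trans p3)
    linarith
  · rw [inv_le_comm₀ θ0 (Real.exp_pos _), ← Real.exp_neg]; exact hθ
  · refine le_trans ?_ (pow_le_pow_left₀ (Real.exp_pos _).le hθ _)
    rw [← Real.exp_nat_mul, Real.exp_le_exp, mul_neg, neg_le_neg_iff]
    push_cast
    calc _ ≤ (X ^ ch) ^ (s + 1) * X := by gcongr
      _ ≤ _ := by rw [← pow_mul, ← pow_succ]; exact p1 _ _ (by omega)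
  · rw [← Real.exp_nat_mul]
    exact Real.exp_le_exp.2 (by push_cast; nlinarith)

theorem start (s : ℕ) : START s := by
  obtain ⟨ηh, h0, h1, ch, H⟩ := exists_hg (s + 2)
  obtain ⟨sc, D, ha⟩ := exists_ap s
  obtain ⟨γ, hγ⟩ : ∃ γ, γ = ηh / (16 * (s + 2)) := ⟨_, rfl⟩
  have γ0 : 0 < γ := by rw [hγ]; positivity
  have g2 : 16 * (s + 2) * γ ≤ ηh := by rw [hγ, mul_div_cancel₀ _ (by positivity)]
  have s0 : (0 : ℝ) ≤ s := s.cast_nonneg
  obtain ⟨a, ea⟩ : ∃ a, a = ch * (s + 1) + 2 := ⟨_, rfl⟩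
  obtain ⟨c0, hc⟩ := exists_nat_ge (|(D : ℝ)| + 1 / (γ / 11))
  obtain ⟨c, ec⟩ : ∃ c, c = a + ch + c0 + ((ch + 3) * s + s + 3) + (109 * s + 1000) := ⟨_, rfl⟩
  refine ⟨γ / 2, by positivity, by nlinarith, c, fun N P T A θ hP hT hC hA hel hθ hG hL => ?_⟩
  have b0 : ∀ j : ℕ, j ≤ c → (j : ℝ) ≤ P (s + 1) := fun j h =>
    le_trans (by exact_mod_cast h) (hP.big _)
  have an := antitone_nat_of_succ_le hP.anti
  have x2 : 109 * s + 1000 ≤ P (s + 1) := by exact_mod_cast b0 (109 * s + 1000) (by omega)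
  have x3 := hc.trans (b0 c0 (by omega))
  have X1 : 1 ≤ P (s + 1) := by linarith
  obtain ⟨q, q2, hq, H⟩ := H _ (b0 ch (by omega))
  have k := cs_num (c := c) ea (by omega) (by omega) (b0 _ (by omega)) x2
    (show |(D : ℝ)| ≤ _ from le_trans (le_add_of_nonneg_right (by positivity)) x3)
    (le_trans (le_add_of_nonneg_left (abs_nonneg _)) x3) q2 hq (card_tow hT fun e =>
      (hC e).1.trans ((an (Nat.zero_le e)).trans ((Real.log_le_iff_le_exp
        (by linarith [an (Nat.zero_le (s + 1))])).1 hP.lg)))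
    (by exact_mod_cast Int.one_le_abs ha.d0) γ0 g2 (by linarith) hθ
  obtain ⟨D', d0, d1, h⟩ := core hT ⟨ok_tw hT, fun _ _ => Iff.rfl, hL, hT.le,
    Real.exp_le_one_iff.2 (neg_nonpos.2 (by positivity))⟩ k ha H hA hel hG
  have p0 : ∀ e, 0 ≤ P e := fun e => le_trans (Nat.cast_nonneg _) (hP.big e)
  have p1 : ∀ e, e ≤ s → P (s + 1) ^ c ≤ P (e + 1) ^ c := fun e he =>
    pow_le_pow_left₀ (p0 _) (an (by omega)) _
  have p2 : P (s + 1) ^ a * P (s + 1) ≤ P (s + 1) ^ c := by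
    rw [← pow_succ]; exact pow_le_pow_right₀ X1 (by omega)
  have p3 := one_le_pow₀ (n := a) X1
  have p4 : Real.exp (-P (s + 1) ^ c) ≤ Real.exp (-P (s + 1) ^ a) ^ 3 := by
    rw [← Real.exp_nat_mul]
    exact Real.exp_le_exp.2 (by push_cast; nlinarith)
  refine ⟨_, 2, _, _, ok_nw hT d0 (k.sql d1) k.nm.l1, grow_nw hT k.nm.l1
    (fun e => pow_nonneg (p0 e) c) fun e he => le_trans ?_ (p1 e he), ?_, p4,
    (Real.exp_le_exp.2 (neg_le_neg (p1 0 (by omega)))).trans p4, h.imp_right fun ⟨Z, hZ⟩ =>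
      ⟨q, Z, by omega, hq.trans (pow_le_pow_right₀ X1 (by omega)), hZ⟩⟩
  · rw [Real.log_pow, Real.log_exp]
    push_cast; nlinarith
  · nlinarith [Real.add_one_le_exp (P (s + 1) ^ c)]

end

end Vale.Agent.P057ST
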