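import Vale.Agent.P057ST.Cen
import Vale.Agent.P057ST.Apd

/-! The counting lemma for hypergraphs applied at a good centre. -/

set_option linter.all false

open Matrix Finset Function
open Vale.Agent.P267.H775 Vale.Agent.P057G Vale.Agent.P057PC Vale.Agent.P057MA Vale.Agent.P057RH

namespace Vale.Agent.P057ST

noncomputable section

/-- the counting lemma with fixed parameters -/
def HG (k q : ℕ) (η M γ : ℝ) : Prop :=
  ∀ (V : Type) [DecidableEq V] (ν : Finset (Fin k) → Vw (Fin k) V → ℝ) (v0 : V) (δ : ℝ)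
    (o o' : Fin q) (z : Fin k) (f : Fin k → Vw (Fin k) V → ℝ), (∀ S u, 0 ≤ ν S u) →
    LFt (Fin q) ν v0 δ → δ ≤ γ → o ≠ o' → (∀ i u, 0 ≤ f i u ∧ f i u ≤ M) →
    (∀ i, i ≠ z → ∃ θ : ℝ, 1 - η / 2 ≤ θ ∧ θ ≤ 2 ∧ θ - γ ≤ Lt ν v0 (rect (one o)) (Pn {i} f) ∧
      Lt ν v0 (rect (update (one o) z {o, o'})) (Pn {i} f) ≤ θ ^ 2 + γ) →
    1 - η / 2 ≤ Lt ν v0 (rect (update (one o) z ∅)) (Pn {z} f) →
    Lt ν v0 (rect (one o)) (Pn univ f) ≤ 1 / 2 → ∃ i, i ≠ z ∧ (1 + η) ^ (q ^ (k - 1)) ≤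
      Lt ν v0 (rect (update (fun _ => (univ : Finset (Fin q))) i ∅)) (Pn {i} f)

theorem exists_hg (k : ℕ) : ∃ η : ℝ, 0 < η ∧ η ≤ 1 / 10 ∧ ∃ c : ℕ, ∀ X : ℝ, (c : ℝ) ≤ X →
    ∃ q : ℕ, 2 ≤ q ∧ (q : ℝ) ≤ X ^ c ∧ HG k q η (Real.exp X) (Real.exp (-X ^ c)) := by
  obtain ⟨η, h0, h1, c, H⟩ := hga_t k
  refine ⟨η, h0, h1, c, fun X hX => ?_⟩
  obtain ⟨q, q2, hq, H⟩ := H X hX
  refine ⟨q, q2, hq, fun V _ ν v0 δ o o' z f a1 a2 a3 a4 a5 a6 a7 a8 => ?_⟩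
  obtain ⟨i, b1, b2⟩ := H (Fin k) (Fin q) V ν v0 δ univ o o' z f (by simp) a1 a2 a3 (by simp)
    (mem_univ _) a4 a5 a6 a7 a8
  refine ⟨i, b1, ?_⟩
  rw [Fintype.card_fin] at b2
  convert b2 using 1
  unfold gt
  congr 1
  funext φ u
  exact prod_singleton _ _

variable {ι L L' : Type} [Fintype ι] [DecidableEq ι] [Fintype L] [DecidableEq L] [Fintype L']
  [DecidableEq L'] {T : Tw ι Unit} {s d n q : ℕ} {Λ η : ℝ} {cd : L → ι}
  {mo : L → Multiset (Fin (s + 2))} {cd' : L' → ι} {mo' : L' → Multiset ((Fin s × Fin q) ⊕ Fin q)}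

/-- the classes other than `i` -/
def cls (i : Fin (s + 2)) (x : Option (Fin s)) : Fin (s + 2) :=
  i.succAbove ((finSuccEquiv s).symm x)

theorem cls_inj (i : Fin (s + 2)) : Injective (cls i) :=
  Fin.succAbove_right_injective.comp (finSuccEquiv s).symm.injective

theorem cls_ne (i j : Fin (s + 2)) : j ≠ i ↔ ∃ x, cls i x = j :=
  ⟨fun h => by
    obtain ⟨y, hy⟩ := Fin.exists_succAbove_eq h
    exact ⟨finSuccEquiv s y, by simpa [cls] using hy⟩,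
    fun ⟨x, h⟩ => h ▸ Fin.succAbove_ne _ _⟩

theorem Ctx.step {Q : ι → Pl ι (Fin (s + 2))} (h : Ctx T d n Λ η) (hQ : Fm T.lv T.q Q)
    (hL : Lab T.lv cd mo fun _ => True) (hL' : Lab T.lv cd' mo' (KT Prod.fst))
    {μ : Fin (s + 2) → ℝ} (h0 : ∀ j, 0 < μ j) (hΛ : ∀ l, 3 * wt μ (mo l) ≤ Λ) (hΛ0 : 0 ≤ Λ)
    {n0 : ℕ} (n1 : (s + 2) * q ≤ n0) (hn : n0 + 1 ≤ n) (q2 : 2 ≤ q) {sc : Fin (s + 2) → ℤ} {D : ℤ}
    (ha : Ap sc D) {ρ e κ ηh M M0 γ δ : ℝ} (hρ0 : 0 ≤ ρ) (hρ : ρ ≤ 1)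
    (hμ : ∀ i j, j ≠ ww i → j ≠ i → μ (ww i) ≤ ρ * μ j)
    (hκ : (Fintype.card ι * (n0 + 1) ^ d : ℝ) ≤ κ) (e0 : 0 ≤ e) (e1 : e ≤ 1 / 6)
    (he : ρ * (2 * (1 + n0 * |(D : ℝ)|) ^ d * κ) ^ 2 ≤ e ^ 2) {g : (ι → ℝ) → ℝ}
    (hg : ∀ x, 0 ≤ g x ∧ g x ≤ M0) (m0 : M0 ≤ M) (m1 : 1 ≤ M) (H : HG (s + 2) q ηh M γ)
    (hδ : M ^ 2 * (4 * η + 24 * e * κ + n0 * (3 * √η)) ≤ δ) (d1 : δ ≤ γ) (d2 : δ ≤ ηh / 4)
    (d3 : n0 * (3 * √η * M ^ (s + 2)) ≤ 1 / 4)
    (h1 : ∀ i, Er (Gm T id (mo1 T.lv) (wt fun _ => μ (ww i))) (p0 id (mo1 T.lv) (mp (sb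
      (Matrix.of fun j _ => (cc sc i j : ℝ) / cc sc i (ww i))) Q)) (fun y =>
        g (ev (fun _ => cc sc i (ww i)) id (mo1 T.lv) (toR y))) ∈ Set.Icc (1 - ηh / 4) 2)
    (h2 : Er (Gm T cd mo (wt μ)) (p0 cd mo Q)
      (fun z => ∏ i, g (ev (fun j => cc sc i j) cd mo (toR z))) ≤ 1 / 4) :
    ∃ i, (1 + ηh) ^ (q ^ (s + 1)) - n0 * (3 * √η * M0 ^ q ^ (s + 1)) ≤
      Er (Gm T cd' mo' (wt fun v => μ (kap (cls i) v).1))
        (p0 cd' mo' (mp (sb ((bl (Fin q) : Matrix _ (_ × Fin q) ℝ) * sel (kap (cls i)))) Q)) fun z =>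
          ∏ t ∈ P057TP.cells Prod.fst, ∏ u,
            g (ev (fun v => idx t (some u) v * cc sc i (kap (cls i) v).1) cd' mo' (toR z)) := by
  have c1 : Fintype.card (Fin (s + 2) × Fin q) ≤ n0 := by simpa using n1
  have c2 : (Fintype.card (Fin (s + 2) × Fin q) : ℝ) ≤ n0 := by exact_mod_cast c1
  have c3 : Fintype.card (Fin (s + 2) × Fin q) + 1 ≤ n := by omega
  have hg' : ∀ x, 0 ≤ g x ∧ g x ≤ M := fun x => ⟨(hg x).1, (hg x).2.trans m0⟩
  have η0 := h.lf.nonneg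
  have k0 : 0 ≤ κ := le_trans (by positivity) hκ
  have hc : ∀ i, (fun i j => (cc sc i j : ℝ)) i i = 0 := fun i => by simp [cc_self]
  have key : ∀ (o : Fin q) (A : Fin (s + 2) → Finset (Fin q)) i a, (∀ j, j ≠ ww i → A j ⊆ {o}) →
      (∀ j, j ≠ ww i → j ≠ i → o ∈ A j) → (A (ww i)).card = a → a ≤ 2 →
      |Lt (nu (ms0 T cd mo μ Q) univ) 0 (rect A) (Pn {i} (slot g (fun i j => cc sc i j) cd mo)) -
        Er (Gm T id (mo1 T.lv) (wt fun _ => μ (ww i))) (p0 id (mo1 T.lv) (mp (sb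
          (Matrix.of fun j _ => (cc sc i j : ℝ) / cc sc i (ww i))) Q)) (fun y =>
            g (ev (fun _ => cc sc i (ww i)) id (mo1 T.lv) (toR y))) ^ a| ≤ δ :=
    fun o A i a a1 a2 a3 a4 => by
    choose r hr using ha.dv i
    have w1 := cc_ne ha.ne (ww_ne i).symm
    have := h.marg hQ hL h0 hΛ hΛ0 c3 o (ww_ne i) a1 a2 (c := fun i j => cc sc i j) hc (r := r)
      (by exact_mod_cast w1)
      (fun j => by rw [hr j]; push_cast; ring) hρ0 hρ (hμ i) (β := 1 + n0 * |(D : ℝ)|) (fun j => by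
        have b1 : |r j| ≤ |D| := by
          refine le_trans ?_ (ha.le i j)
          rw [hr j, abs_mul]
          exact le_mul_of_one_le_left (abs_nonneg _) (Int.one_le_abs w1)
        have b2 : |(r j : ℝ)| ≤ |(D : ℝ)| := by exact_mod_cast b1
        gcongr) (le_trans (by gcongr) hκ) e0 e1 he hg'
    rw [a3] at this
    refine this.trans (le_trans ?_ hδ)
    gcongr
  obtain ⟨o, o', ho⟩ : ∃ o o' : Fin q, o ≠ o' := ⟨⟨0, by omega⟩, ⟨1, by omega⟩, by simp⟩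
  have l1 : ∀ i : Fin (s + 2), i ≠ Fin.last _ → ww i = Fin.last _ := fun i h => if_neg h
  obtain ⟨i, -, hi⟩ := H _ (nu (ms0 T cd mo μ Q) univ) 0 η o o' (Fin.last _)
    (slot g (fun i j => cc sc i j) cd mo) (nu_nonneg (h.lk hQ hL h0).1 _)
    (h.lft hQ hL h0 (fun l => by linarith [hΛ l, wt_pos h0 (mo l)]) (by omega) o)
    (le_trans (by
      have : 0 ≤ 24 * e * κ + n0 * (3 * √η) := by positivity
      nlinarith [one_le_pow₀ (n := 2) m1]) (hδ.trans d1)) ho (fun i u => hg' _)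
    (fun i hi => ⟨_, le_trans (by linarith [(abs_nonneg _).trans (key o (one o) i 1
      (fun _ _ => subset_rfl) (fun _ _ _ => mem_singleton_self _) rfl one_le_two)]) (h1 i).1, (h1 i).2, by
      have := (abs_le.1 (key o (one o) i 1 (fun _ _ => subset_rfl)
        (fun _ _ _ => mem_singleton_self _) rfl one_le_two)).1
      rw [pow_one] at this
      linarith, by
      have := (abs_le.1 (key o (update (one o) (Fin.last _) {o, o'}) i 2
        (fun j hj => by rw [update_of_ne (l1 i hi ▸ hj)]; exact subset_rfl)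
        (fun j hj _ => by rw [update_of_ne (l1 i hi ▸ hj)]; exact mem_singleton_self _)
        (by rw [l1 i hi, update_self, card_pair ho]) le_rfl)).2
      linarith⟩) (by
      have := (abs_le.1 (key o (update (one o) (Fin.last _) ∅) (Fin.last _) 1
        (fun j _ => by
          by_cases hj : j = Fin.last _
          · rw [hj, update_self]; exact empty_subset _
          · rw [update_of_ne hj]; exact subset_rfl)
        (fun j _ hj => by rw [update_of_ne hj]; exact mem_singleton_self _)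
        (by rw [update_of_ne (ww_ne _)]; rfl) one_le_two)).1
      rw [pow_one] at this
      linarith [(h1 (Fin.last _)).1]) (by
      have := (abs_le.1 (h.full hQ hL h0 hΛ hΛ0 c3 o (c := fun i j => cc sc i j) hc hg')).2
      rw [Fintype.card_fin (s + 2)] at this
      have b1 := mul_le_mul_of_nonneg_right c2 (show 0 ≤ 3 * √η * M ^ (s + 2) by positivity)
      linarith)
  refine ⟨i, ?_⟩
  have := (abs_le.1 (h.grid hQ hL hL' h0 hΛ hΛ0 c3 o (cls_inj i) (cls_ne i)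
    (c := fun i j => cc sc i j) hc hg)).2
  rw [P057GH.card_cells, Fintype.card_fin q, Fintype.card_fin s, ← pow_succ] at this
  have b0 := (hg 0).1.trans (hg 0).2
  have b1 := mul_le_mul_of_nonneg_right c2 (show 0 ≤ 3 * √η * M0 ^ q ^ (s + 1) by positivity)
  change (1 + ηh) ^ (q ^ (s + 1)) ≤ _ at hi
  linarith

end

end Vale.Agent.P057ST
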